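import Vale.Agent.P196.Tile.EndOK
import Vale.Agent.P196.Tile.Facts.VertAll

/-!
P196, module D: the windows of the children of a valid window are valid, and every level has a
valid window.
-/

namespace Vale.Agent.P196.Tile

open ChildRules

variable {L X Y : ℕ}

/-- A tile and the tile below it pass the checks when their parent is valid. -/
lemma acceptPair_child (hL : L₀ ≤ L) (q : Quad4 St) (hv : Valid (L + 1) q) {b b' : ℕ → Quad}
    (hY : Y < side L) (hb : VBits Y b b')
    (hq : X % H L ≠ 0 → b' = quadBits (L + 1) q) :
    AcceptPair (cell L (child L table b X Y)) (cell L (child L table b' X (pred' L Y))) := by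
  obtain ⟨hn0, hnH, hMH, hrow, -, -, -⟩ := rows_zero hL
  have hA : A = 1024 := rfl
  have hB : B = 4 * A + 2 := rfl
  have hF : AF = 900 := rfl
  have hM8 := eight_lt_M hL
  obtain ⟨⟨hbd, hV, -, hH, -, hC, -, hInS⟩, hT⟩ := hv
  have hbits := Scanning.reads_quadBits L q
  have hcol : ∀ {m : ℕ}, 1 ≤ m → IsCol L (X % H L) m → X % H L ≠ 0 := fun {m} hm h h0 => by
    have := h.2
    simp [h0, mid] at this
    omega
  refine ⟨?_, ?_, ?_⟩
  · intro c hd ht
    simp only [child_carry] at hd ht
    split_ifs at hd with h
    obtain ⟨h3, h0, hMy, hk1, hk2⟩ := h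
    obtain rfl := Option.some.inj hd
    rcases row_cases hY hb with ⟨h1, h2⟩ | ⟨y, h2, h1, rfl, -⟩
    · rw [h2] at hk2
      omega
    rw [h1] at ht
    rw [h2] at hMy hk1 hk2 ⊢
    have hle : rowIdx L y ≤ rowIdx L (y + 1) := Nat.div_le_div_right (by omega)
    have hle' : rowIdx L (y + 1) ≤ rowIdx L y + 1 := by
      unfold rowIdx
      rw [show y + 1 - M L = (y - M L) + 1 by omega, Nat.succ_div]
      split_ifs <;> omega
    have hend : rowIdx L y = lastK L := by
      by_contra hne
      rw [if_pos ⟨h3, h0, by omega, by omega, by omega⟩] at ht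
      exact Option.some_ne_none _ ht
    rw [hend, hq (hcol (by norm_num) h3)]
    refine (Scanning.endOK_iff hL hbits
      (fun s => ⟨(hbd _).1, (hbd _).2.1, (hbd _).2.2.1⟩) fun s => rfl).2
      ⟨rfl, (hbd 0).2.2.2, hV, hH, hC⟩
  · intro hw hd ht hh
    simp only [claims_wire] at hw
    simp only [child_eqf] at hd ht
    simp only at hh ⊢
    split_ifs at hd with h
    obtain ⟨hz, hMy, hk⟩ := h
    rcases row_cases hY hb with ⟨h1, h2⟩ | ⟨y, h2, h1, rfl, -⟩
    · rw [h2] at hw
      exact absurd hw hnH
    rw [h1] at ht
    rw [h2] at hw hMy hk hd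
    obtain ⟨-, hr1, -, -⟩ := rows_succ hL y
    obtain ⟨-, er, -, -, er'⟩ := hr1 hw
    have hyA : hi L y = A - 1 := by
      by_contra hne
      rw [if_pos ⟨hz, by omega, by omega⟩] at ht
      exact Option.some_ne_none _ ht
    have hall : ∀ k' < A - 1, zoneMatch L (X % H L) k' b = true := by
      have := Option.some.inj hd
      rw [er, hyA] at this
      exact of_decide_eq_true this
    rw [zone_h hL (Or.inl rfl) hz b (h2 ▸ hw) (by rw [h2, hyA]; unfold lastK; omega), h2, hyA]
      at hh
    rw [child_v, h1, if_pos (Or.inl ⟨hz, by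
      have : hi L y ≤ hi L (y + 1) := Nat.div_le_div_right (Nat.le_succ y)
      omega⟩)]
    refine table_of_input hInS fun k hk' j => ?_
    have hbk : b k j = finBits (sig (L + 1) q j) k := by
      rw [hq (hcol (by norm_num) hz.1)]
      show enc (L + 1) (q j) k = _
      rw [enc, if_pos hk']
      rfl
    rw [← hbk]
    rcases Nat.lt_or_ge k (A - 1) with hk'' | hk''
    · have := hall k hk''
      simp only [zoneMatch, decide_eq_true_iff] at this
      exact this j
    · obtain rfl : k = A - 1 := by omega
      rw [congrFun hh j]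
      simp only [claims, child_y, h2, hyA, claims_zone_x (by norm_num) hz,
        show min (A - 1) YB = A - 1 by unfold YB; omega, show A - 1 < A by omega, decide_true,
        Bool.true_and]
  · intro l m hw hd ht heq hh hm hzone
    simp only [claims_wire] at hw
    simp only [child_look] at hd ht
    simp only at hh ⊢
    split_ifs at hd with h
    obtain ⟨hz, hMy, hk⟩ := h
    obtain rfl := Option.some.inj hd
    rcases row_cases hY hb with ⟨h1, h2⟩ | ⟨y, h2, h1, rfl, -⟩
    · rw [h2] at hw
      exact absurd hw hnH
    rw [h1] at ht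
    rw [h2] at hw hMy hk heq hm
    rw [h2]
    obtain ⟨-, hr1, -, -⟩ := rows_succ hL y
    obtain ⟨-, er, -, -, er'⟩ := hr1 hw
    have hyB : hi L y = xlRow (B - 1) := by
      by_contra hne
      rw [if_pos ⟨hz, by omega, by omega⟩] at ht
      exact Option.some_ne_none _ ht
    rw [er, hyB] at heq hm ⊢
    have h50 : 50000 ≤ L := le_L₀.trans hL
    rw [zone_h hL (Or.inr rfl) hz b (h2 ▸ hw) (by rw [h2, hyB]; unfold lastK xlRow; omega), h2,
      hyB] at hh
    have hbq : b = quadBits (L + 1) q := hq (hcol (by norm_num) hz.1)
    subst hbq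
    have hlx : lo L (X % H L) < 2 ^ B := hz.2.2.2
    -- the copy of the claims
    have hmc : m = claims (L + 1) (q 0) := by
      have hc := hbits.claim
      simp only [Look.claims, lookAt] at hm
      rw [show min (xlRow (B - 1) - AF) (A - 2 - AF) = A - 2 - AF by unfold xlRow; omega] at hm
      have hs : (∑ i ∈ Finset.range (A - 2 - AF),
          if quadBits (L + 1) q (AF + i) 0 then 2 ^ i else 0) =
          code (claims (L + 1) (q 0)) % 2 ^ (A - 2 - AF) := by
        rw [← Num.sum_testBit]
        refine Finset.sum_congr rfl fun i hi => ?_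
        have := hc i (Finset.mem_range.1 hi) 0
        simp only [Fin.castSucc_zero] at this
        rw [this]
      rw [hs, Nat.mod_eq_of_lt (Num.code_claims_lt _), Nat.mod_eq_of_lt (Num.code_claims_lt _),
        Num.claimsOfCopy_code] at hm
      exact (Option.some.inj hm).symm
    subst hmc
    -- the low parts agree
    have hlo : lo (L + 1) (q 0).x = lo L (X % H L) := by
      have hsmall : lo (L + 1) (q 0).x < 2 ^ B := by
        simp only [Claims.zone, claims, Bool.and_eq_true, decide_eq_true_iff] at hzone
        exact hzone.1.2.2.2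
      refine Nat.eq_of_testBit_eq fun i => ?_
      rcases Nat.lt_or_ge i B with hi | hi
      swap
      · rw [Nat.testBit_lt_two_pow (hsmall.trans_le (Nat.pow_le_pow_right (by norm_num) hi)),
          Nat.testBit_lt_two_pow (hlx.trans_le (Nat.pow_le_pow_right (by norm_num) hi))]
      have hb0 : quadBits (L + 1) q (xlRow i) 0 = (lo (L + 1) (q 0).x).testBit i :=
        hbits.num i (by omega) 0 (by norm_num) 0
      rw [← hb0]
      rcases Nat.lt_or_ge i (B - 1) with hi' | hi'
      · simp only [lookAt, decide_eq_true_iff] at heq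
        exact heq i hi (by unfold xlRow; omega)
      · obtain rfl : i = B - 1 := by omega
        rw [hh]
        have e1 : min (xlRow (B - 1)) YB = xlRow (B - 1) := by unfold xlRow YB; omega
        have e2 : lidx (xlRow (B - 1)) = B - 1 := by unfold lidx xlRow; omega
        have e3 : A ≤ xlRow (B - 1) := by unfold xlRow; omega
        simp only [claims, child_y, h2, hyB, claims_zone_x (by norm_num) hz, e1, e2, e3,
          show B - 1 < B by omega, decide_true, Bool.true_and]
    rw [child_v, if_pos (Or.inr hz)]
    have hvv : quadBits (L + 1) q 0 0 = (q 0).fin.v := by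
      show enc (L + 1) (q 0) 0 = _
      rw [enc, if_pos (by omega), finBits, if_pos rfl]
    have hv0 : 0 < xlRow (B - 1) := by unfold xlRow; omega
    simp only [lookAt, hv0, decide_true, Bool.true_and, hvv]
    rw [hT 0 hzone, hlo]

/-- The spare rows show no bit, and the last constant row is one at the bundle. -/
lemma spareOK_child (hL : L₀ ≤ L) {b : ℕ → Quad} (hz : ∀ k j, A ≤ k → k % 8 = 7 → b k j = false)
    (h1 : IsBundle L (X % H L) → IsWire L (Y % H L) → ∀ j, b (A - 1) j = true) :
    SpareOK (cell L (child L table b X Y)) := by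
  have hA : A = 1024 := rfl
  constructor
  · intro _ hk hmod j
    simp only [claims_yhC, claims_yhMod] at hk hmod
    simp only [child_h]
    split_ifs with h
    · exact hz _ j (by omega) hmod
    · rfl
  · intro hw hk hbd _ j
    simp only [claims_wire] at hw
    simp only [claims_yhC] at hk
    have hbd' : IsBundle L (X % H L) := (claims_bundle L table b X Y).1 hbd
    have hi1 : hi L (Y % H L) = A - 1 := by
      unfold YB at hk
      omega
    have hM := eight_lt_M hL
    have e := coord_eq L (X % H L)
    rw [hbd'.1.1, hbd'.1.2] at e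
    have hlt : lo L (X % H L) < M L := Nat.mod_lt _ (M_pos L)
    simp only [child_h]
    rw [if_pos ⟨hw, by rw [hi1]; unfold lastK; omega, fun h0 => by omega, fun _ hc => by
      exfalso
      unfold cutX at hc
      omega⟩, hi1]
    exact h1 hbd' hw j

lemma guestBits_false (b : ℕ → Quad) : guestBits false false b = b := by
  funext k j
  fin_cases j <;> rfl

lemma guestBits_zero {b : ℕ → Quad} {k : ℕ} (h : ∀ i, b k i = false) (r u : Bool) (j : Fin 4) :
    guestBits r u b k j = false := by
  cases r <;> cases u <;> fin_cases j <;> simp [guestBits, h]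

lemma vbits_guest (Y : ℕ) (r : Bool) (b : ℕ → Quad) :
    VBits Y (guestBits r (decide (Y = 0)) b) (guestBits r false b) := by
  refine ⟨fun h => by simp [h], fun h k => ?_⟩
  subst h
  cases r <;> simp [guestBits]

/-- The windows of children of a valid window are valid. -/
theorem completeStatement : CompleteStatement := by
  intro L hL q hv X Y hX hY
  have hA : A = 1024 := rfl
  refine valid_window hL _ X Y hX hY ⟨?_, ?_, fun j => spareOK_child hL (fun k i hk hk7 => ?_) ?_⟩
  · have h := acceptPair_child (X := X) hL q hv hY
      (vbits_guest Y (decide (X = 0)) (quadBits (L + 1) q)) fun hx => by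
        have : X ≠ 0 := fun h => hx (by rw [h, Nat.zero_mod])
        simp [this, guestBits_false]
    simpa [sig, window] using h
  · have h := acceptPair_child (X := pred' L X) hL q hv hY
      (vbits_guest Y false (quadBits (L + 1) q)) fun _ => guestBits_false _
    simpa [sig, window] using h
  · refine guestBits_zero (fun i => ?_) _ _ i
    show enc (L + 1) (q i) k = false
    rw [enc, if_neg (by omega), show (k - A) % 8 = 7 by omega]
    simp [num]
  · intro hb hw i
    have ones : ∀ m, quadBits (L + 1) q (A - 1) m = true := fun m => by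
      have hF : AF = 900 := rfl
      show enc (L + 1) (q m) (A - 1) = true
      rw [enc, if_pos (by omega), finBits, if_neg (by omega), if_neg (by omega), if_neg (by omega),
        if_neg (by omega), if_neg (by omega), if_neg (by omega), if_neg (by omega)]
      simp [hA]
    have hx0 : ∀ Z, IsBundle L (Z % H L) → Z ≠ 0 := fun Z h h0 => by
      rw [h0, Nat.zero_mod] at h
      have := h.1.2
      simp [mid] at this
    have hy0 : ∀ Z, IsWire L (Z % H L) → Z ≠ 0 := fun Z h h0 => by
      rw [h0, Nat.zero_mod] at h
      exact (rows_zero hL).1 h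
    have hd : (decide (X = 0) && !decide (j = 1 ∨ j = 3)) = false ∧
        (decide (Y = 0) && !decide (j = 2 ∨ j = 3)) = false := by
      constructor
      · by_cases h : j = 1 ∨ j = 3
        · simp [h]
        · simp only [h, decide_false, Bool.false_eq_true, if_false] at hb
          simp [hx0 _ hb]
      · by_cases h : j = 2 ∨ j = 3
        · simp [h]
        · simp only [h, decide_false, Bool.false_eq_true, if_false] at hw
          simp [hy0 _ hw]
    show guestBits _ _ _ (A - 1) i = true
    rw [hd.1, hd.2, guestBits_false]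
    exact ones i

lemma hi_ne_zero {x : ℕ} (h : M L ^ 2 ≤ x) : hi L x ≠ 0 :=
  (Nat.div_pos h (pow_pos (M_pos L) 2)).ne'

/-- The window in the middle of a tile with blank parents. -/
theorem valid_seed (hL : L₀ ≤ L) :
    Valid L (window L table (fun _ _ => false) (H L / 2) (H L / 2)) := by
  have hH := H_pos L
  have hM := eight_lt_M hL
  have hlt : H L / 2 < side L := by unfold side; omega
  have hbig : M L ^ 2 + 1 ≤ H L / 2 := by
    have e : H L = M L ^ 2 * M L := by rw [H]; ring
    have h1 : M L ^ 2 * 4 ≤ M L ^ 2 * M L := Nat.mul_le_mul_left _ (by omega)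
    have := pow_pos (M_pos L) 2
    omega
  have hpred : pred' L (H L / 2) = H L / 2 - 1 := pred'_succ L _ hlt (by omega)
  have hm : H L / 2 % H L = H L / 2 := Nat.mod_eq_of_lt (by omega)
  have hm' : (H L / 2 - 1) % H L = H L / 2 - 1 := Nat.mod_eq_of_lt (by omega)
  have key : ∀ (b : ℕ → Quad) (X Y : ℕ), M L ^ 2 ≤ X % H L →
      (child L table b X Y).fin.carry = none ∧ (child L table b X Y).fin.eq = none ∧
        (child L table b X Y).fin.look = none := by
    intro b X Y hx
    have := hi_ne_zero hx
    exact ⟨by rw [child_carry, if_neg fun h => this h.1.1],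
      by rw [child_eqf, if_neg fun h => this h.1.1.1],
      by rw [child_look, if_neg fun h => this h.1.1.1]⟩
  have pair : ∀ (t : Cell) (b : ℕ → Quad) (X Y : ℕ), M L ^ 2 ≤ X % H L →
      AcceptPair t (cell L (child L table b X Y)) := by
    intro t b X Y hx
    obtain ⟨k1, k2, k3⟩ := key b X Y hx
    refine ⟨fun c h => ?_, fun _ h => ?_, fun l m _ h => ?_⟩
    · exact absurd (k1.symm.trans h) (Option.some_ne_none _).symm
    · exact absurd (k2.symm.trans h) (Option.some_ne_none _).symm
    · exact absurd (k3.symm.trans h) (Option.some_ne_none _).symm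
  refine valid_window hL _ _ _ hlt hlt
    ⟨pair _ _ _ _ ?_, pair _ _ _ _ ?_, fun j => spareOK_child hL (fun k i _ _ => ?_) ?_⟩
  · show M L ^ 2 ≤ H L / 2 % H L
    omega
  · show M L ^ 2 ≤ pred' L (H L / 2) % H L
    rw [hpred]
    omega
  · exact guestBits_zero (fun _ => rfl) _ _ i
  · intro hb
    refine absurd hb.1.1 (hi_ne_zero ?_)
    simp only [decide_eq_true_eq]
    split_ifs <;> (try rw [hpred]) <;> omega

/-- Every level has a valid window. -/
theorem exists_valid : ∀ L, L₀ ≤ L → ∃ q, Valid L q := fun _ hL => ⟨_, valid_seed hL⟩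

end Vale.Agent.P196.Tile
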