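import Vale.Agent.P196.Amen.Maps

/-!
P196, module D: patterns admissible on arbitrarily large squares occur in the subshift, and local
data are cut out by finitely many closed sets.
-/

namespace Vale.Agent.P196.Tile

variable {S : SFT}

/-- All windows with lower left corner in the box of radius `n` are allowed. -/
def OkOn (S : SFT) (n : ℕ) (a : V → S.A) : Prop :=
  ∀ v ∈ SFT.box n, S.allowed (S.window a v)

lemma isClosed_okOn (n : ℕ) : IsClosed {a : V → S.A | OkOn S n a} := by
  have h : {a : V → S.A | OkOn S n a} =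
      ⋂ v ∈ SFT.box n, (fun a => S.window a v) ⁻¹' {p | S.allowed p} := by
    ext a; simp [OkOn]
  rw [h]
  exact isClosed_biInter fun v _ =>
    (isClosed_discrete _).preimage (continuous_pi fun p => continuous_apply _)

lemma mem_box_iff {r : ℕ} {u : V} : u ∈ SFT.box r ↔ u.1.natAbs ≤ r ∧ u.2.natAbs ≤ r := by
  simp only [SFT.box, Finset.mem_Icc, Prod.le_def]
  omega

/-- Compactness: a pattern with allowed surroundings of every size is a pattern of `X`. -/
theorem exists_extension (U : Finset V) (p : V → S.A)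
    (h : ∀ n, ∃ a : V → S.A, OkOn S n a ∧ ∀ u ∈ U, a u = p u) :
    ∃ x : S.X, ∀ u ∈ U, x.1 u = p u := by
  set K : ℕ → Set (V → S.A) := fun n => {a | OkOn S n a} ∩ {a | ∀ u ∈ U, a u = p u} with hK
  have hU : IsClosed {a : V → S.A | ∀ u ∈ U, a u = p u} := by
    simp only [Set.ofPred_forall]
    exact isClosed_biInter fun u _ => isClosed_eq (continuous_apply u) continuous_const
  have hc : ∀ n, IsClosed (K n) := fun n => (isClosed_okOn n).inter hU
  obtain ⟨a, ha⟩ := IsCompact.nonempty_iInter_of_sequence_nonempty_isCompact_isClosed K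
    (fun n a ha => ⟨fun v hv => ha.1 v (Amen.box_mono (Nat.le_succ n) hv), ha.2⟩)
    (fun n => h n) (hc 0).isCompact hc
  rw [Set.mem_iInter] at ha
  refine ⟨⟨a, fun v => (ha (max v.1.natAbs v.2.natAbs)).1 v ?_⟩, (ha 0).2⟩
  rw [mem_box_iff]
  omega

/-- The pattern form with `Admissible` squares. -/
theorem exists_extension_admissible (U : Finset V) (p : V → S.A)
    (h : ∀ n, ∃ a : V → S.A, S.Admissible (SFT.box n) a ∧ ∀ u ∈ U, a u = p u) :
    ∃ x : S.X, ∀ u ∈ U, x.1 u = p u := by
  refine exists_extension U p fun n => ?_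
  obtain ⟨a, ha, hp⟩ := h (n + S.w)
  refine ⟨a, fun v hv => ha v fun q => ?_, hp⟩
  have := q.1.isLt
  have := q.2.isLt
  rw [mem_box_iff] at hv ⊢
  simp only
  omega

/-- A map with finitely many values and closed fibres is local. -/
theorem isLocal_of_closed_fibres {β : Type} [Finite β] (f : S.X → β)
    (hf : ∀ b, IsClosed {x | f x = b}) : S.IsLocal f := by
  have : Fintype β := Fintype.ofFinite β
  have ho : ∀ b, IsOpen {x | f x = b} := by
    intro b
    have h : {x | f x = b} = (⋃ c ∈ ({b}ᶜ : Set β), {x | f x = c})ᶜ := by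
      ext x
      simp only [Set.mem_compl_iff, Set.mem_iUnion, Set.mem_ofPred_eq, Set.mem_singleton_iff,
        not_exists]
      exact ⟨fun e i hi he => hi (he.symm.trans e), fun h => by_contra fun hne => h _ hne rfl⟩
    rw [h]
    exact ((Set.toFinite _).isClosed_biUnion fun c _ => hf c).isOpen_compl
  choose r hr using fun x : S.X => exists_box (ho (f x)) (rfl : f x = f x)
  obtain ⟨t, ht⟩ := isCompact_univ.elim_finite_subcover
    (fun x : S.X => {y : S.X | S.AgreeOn (SFT.box (r x)) y x})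
    (fun x => (isClopen_cyl (r x) x).2)
    (fun y _ => Set.mem_iUnion.2 ⟨y, fun _ _ => rfl⟩)
  refine ⟨t.sup r, fun x y hxy => ?_⟩
  obtain ⟨z, hz, hzx⟩ := Set.mem_iUnion₂.1 (ht (Set.mem_univ x))
  have hzx' : S.AgreeOn (SFT.box (r z)) x z := hzx
  have h1 : f x = f z := hr z hzx'
  have h2 : f y = f z := hr z fun u hu =>
    (hxy u (Amen.box_mono (Finset.le_sup hz) hu)).symm.trans (hzx' u hu)
  rw [h1, h2]
where
  isClopen_cyl (r : ℕ) (x : S.X) : IsClopen {y : S.X | S.AgreeOn (SFT.box r) y x} :=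
    Amen.isClopen_of_isLocal ⟨r, fun y y' h => by
      apply propext
      exact ⟨fun hy u hu => (h u hu).symm.trans (hy u hu),
        fun hy u hu => (h u hu).trans (hy u hu)⟩⟩
  exists_box {O : Set S.X} (hO : IsOpen O) {x : S.X} (hx : x ∈ O) :
      ∃ r, {y : S.X | S.AgreeOn (SFT.box r) y x} ⊆ O := by
    obtain ⟨O', hO', rfl⟩ := isOpen_induced_iff.1 hO
    obtain ⟨I, u, hu, hsub⟩ := isOpen_pi_iff.1 hO' x.1 hx
    refine ⟨I.sup fun v => max v.1.natAbs v.2.natAbs, fun y hy => hsub fun v hv => ?_⟩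
    rw [Finset.mem_coe] at hv
    have hle := Finset.le_sup (f := fun v : V => max v.1.natAbs v.2.natAbs) hv
    rw [hy v (mem_box_iff.2 ⟨(le_max_left _ _).trans hle, (le_max_right _ _).trans hle⟩)]
    exact (hu v hv).2

end Vale.Agent.P196.Tile
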