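import Vale.Agent.P196.Tile.Count.Record
import Vale.Agent.P196.Tile.Compact

/-!
P196, module D: the fibres over a compatible point of an odometer are nonempty.
-/

noncomputable section

namespace Vale.Agent.P196.Tile

variable {S : SFT}

theorem fibre₁_nonempty (O : S.Odometer) [Nonempty S.X] (ξ : ∀ n, ZMod (O.Q n))
    (hξ : ∀ n, ZMod.castHom (O.Q_dvd n) (ZMod (O.Q n)) (ξ (n + 1)) = ξ n) :
    (O.fibre₁ ξ).Nonempty := by
  set F : ℕ → Set S.X := fun n => {x | (O.pos n x).1 = ξ n} with hF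
  have hclosed : ∀ n, IsClosed (F n) := fun n =>
    (Amen.isClopen_of_isLocal (Amen.isLocal_comp (O.pos_local n) fun p => p.1 = ξ n)).isClosed
  have hdec : ∀ n, F (n + 1) ⊆ F n := fun n x hx => by
    have h := congrArg Prod.fst (O.pos_compat n x)
    simp only [hF, Set.mem_ofPred_eq] at hx ⊢
    simp only at h
    rw [← h, hx, hξ]
  have hne : ∀ n, (F n).Nonempty := fun n => by
    have : NeZero (O.Q n) := ⟨(O.Q_pos n).ne'⟩
    obtain ⟨x⟩ := ‹Nonempty S.X›
    refine ⟨S.act (((ξ n - (O.pos n x).1).val : ℤ), 0) x, ?_⟩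
    simp [hF, O.pos_act]
  obtain ⟨x, hx⟩ := IsCompact.nonempty_iInter_of_sequence_nonempty_isCompact_isClosed F hdec hne
    ((hclosed 0).isCompact) hclosed
  exact ⟨x, fun n => Set.mem_iInter.1 hx n⟩

theorem fibre₂_nonempty (O : S.Odometer) [Nonempty S.X] (η : ∀ n, ZMod (O.Q n))
    (hη : ∀ n, ZMod.castHom (O.Q_dvd n) (ZMod (O.Q n)) (η (n + 1)) = η n) :
    (O.fibre₂ η).Nonempty := by
  set F : ℕ → Set S.X := fun n => {x | (O.pos n x).2 = η n} with hF
  have hclosed : ∀ n, IsClosed (F n) := fun n =>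
    (Amen.isClopen_of_isLocal (Amen.isLocal_comp (O.pos_local n) fun p => p.2 = η n)).isClosed
  have hdec : ∀ n, F (n + 1) ⊆ F n := fun n x hx => by
    have h := congrArg Prod.snd (O.pos_compat n x)
    simp only [hF, Set.mem_ofPred_eq] at hx ⊢
    simp only at h
    rw [← h, hx, hη]
  have hne : ∀ n, (F n).Nonempty := fun n => by
    have : NeZero (O.Q n) := ⟨(O.Q_pos n).ne'⟩
    obtain ⟨x⟩ := ‹Nonempty S.X›
    refine ⟨S.act (0, ((η n - (O.pos n x).2).val : ℤ)) x, ?_⟩
    simp [hF, O.pos_act]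
  obtain ⟨x, hx⟩ := IsCompact.nonempty_iInter_of_sequence_nonempty_isCompact_isClosed F hdec hne
    ((hclosed 0).isCompact) hclosed
  exact ⟨x, fun n => Set.mem_iInter.1 hx n⟩

/-- The quarter points form a compatible point. -/
theorem basePoint_compat (O : S.Odometer) (n : ℕ) :
    ZMod.castHom (O.Q_dvd n) (ZMod (O.Q n)) (basePoint O (n + 1)) = basePoint O n := by
  rw [basePoint, map_natCast, quarter, basePoint]
  simp

end Vale.Agent.P196.Tile
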