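import Vale.Agent.P196.Tile.Tiles
import Vale.Agent.P196.Tile.Fibres
import Vale.Agent.P196.Tile.Complete

/-!
P196, module D: the tiling statement from local determinism of the next level, primitivity and
rigidity of the tile system.
-/

namespace Vale.Agent.P196.Tile

/-- The tiling statement from the remaining properties of the tile system. -/
theorem tiling_of (hD : DesubStatement) (hP : hier.Primitive) (hR : hier.sft.Rigid) :
    TilingStatement := by
  have hC : CompleteStatement := completeStatement
  have hS : ∀ L, L₀ ≤ L → ∃ q, Valid L q := fun L hL => exists_valid L hL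
  have hs := selfSimilar hD hC hS
  obtain ⟨h1, h2⟩ := cohomology hD hC hS
  have : Nonempty hier.sft.X := Hier.nonempty hs
  exact ⟨hier.sft, tileOdometer hs, basePoint _, basePoint _, Hier.minimalFree hs hP, hR, h1, h2,
    fibre₁_nonempty _ _ (basePoint_compat _), bands hs,
    fibre₂_nonempty _ _ (basePoint_compat _), strips hs⟩

end Vale.Agent.P196.Tile
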