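import Vale.Agent.P196.Tile.Levels

/-!
P196, module D: the numerical rules and the table on windows of children.
-/

namespace Vale.Agent.P196.Tile.ChildRules

lemma M_pos (L : ℕ) : 0 < M L := Nat.two_pow_pos L

lemma H_pos (L : ℕ) : 0 < H L := pow_pos (M_pos L) 3

lemma M_dvd_H (L : ℕ) : M L ∣ H L := dvd_pow_self _ (by norm_num)

lemma two_le_M {L : ℕ} (hL : L₀ ≤ L) : 2 ≤ M L := by
  have h := le_L₀
  calc 2 = 2 ^ 1 := rfl
    _ ≤ 2 ^ L := Nat.pow_le_pow_right (by norm_num) (by omega)

lemma pred'_lt (L X : ℕ) : pred' L X < side L :=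
  Nat.mod_lt _ (by have := H_pos L; unfold side; omega)

lemma pred'_zero (L : ℕ) : pred' L 0 = side L - 1 := by
  have h : 0 < side L := by have := H_pos L; unfold side; omega
  unfold pred'
  rw [Nat.zero_add, Nat.mod_eq_of_lt (by omega)]

lemma pred'_succ (L X : ℕ) (hX : X < side L) (h0 : X ≠ 0) : pred' L X = X - 1 := by
  unfold pred'
  rw [show X + side L - 1 = (X - 1) + side L from by omega, Nat.add_mod_right,
    Nat.mod_eq_of_lt (by omega)]

/-- The coordinate after the predecessor. -/
lemma succ_pred' (L X : ℕ) (hX : X < side L) :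
    (pred' L X % H L + 1) % H L = X % H L := by
  rcases Nat.eq_zero_or_pos X with h0 | h0
  · subst h0
    rw [pred'_zero, Nat.mod_add_mod, Nat.zero_mod]
    have h : side L - 1 + 1 = 2 * H L := by have := H_pos L; unfold side; omega
    rw [h, Nat.mul_mod_left]
  · rw [pred'_succ L X hX (by omega), Nat.mod_add_mod]
    congr 1
    omega

lemma child_bounds {L : ℕ} (hL : L₀ ≤ L) (τ : ℕ → Bool) (b : ℕ → Quad) (X Y : ℕ) :
    (child L τ b X Y).x < H L ∧ (child L τ b X Y).y < H L ∧ (child L τ b X Y).u < M L ∧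
      ((child L τ b X Y).xk = false → (child L τ b X Y).x = 0) := by
  have hH := H_pos L
  have hM := two_le_M hL
  refine ⟨?_, Nat.mod_lt _ hH, ?_, ?_⟩
  · unfold child
    simp only
    split_ifs
    · exact Nat.mod_lt _ hH
    · exact hH
  · unfold child
    simp only
    split_ifs
    · exact Nat.mod_lt _ (by omega)
    · omega
  · unfold child
    simp only
    intro h
    simp [h]

lemma knownX_of_col {L x y m : ℕ} (h : IsCol L x m) (hm : m ≤ 7) : knownX L x y = true := by
  simp [knownX, h.1, h.2, hm]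

/-- The step of the counter. -/
lemma counter_child {L : ℕ} (hL : L₀ ≤ L) (τ : ℕ → Bool) (b b' : ℕ → Quad) (X Y Y' : ℕ)
    (hYY : (Y' % H L + 1) % H L = Y % H L) :
    CounterNum L (child L τ b X Y) (child L τ b' X Y') := by
  have hM := two_le_M hL
  have hH := H_pos L
  set x := X % H L with hx
  set y := Y % H L with hy
  set y' := Y' % H L with hy'
  have hyH : y < H L := Nat.mod_lt _ hH
  have hy'H : y' < H L := Nat.mod_lt _ hH
  set c := claims L (child L τ b X Y) with hc
  have hcol : (c.xk && c.cx.xh0 && c.cx.xl0 && decide (c.cx.xmC.val = 3)) = true ↔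
      (IsCol L x 3 ∧ lo L x = 0) := by
    simp only [hc, claims, child, ← hx, ← hy, Bool.and_eq_true, decide_eq_true_eq]
    constructor
    · rintro ⟨⟨⟨h1, h2⟩, h3⟩, h4⟩
      rw [h1] at h2 h3 h4
      simp only [if_true] at h2 h3 h4
      exact ⟨⟨h2, by omega⟩, h3⟩
    · rintro ⟨h1, h2⟩
      have hk : knownX L x y = true := knownX_of_col h1 (by norm_num)
      rw [hk]
      simp [h1.1, h1.2, h2]
  have hyC : c.cy.yhC.val = min (hi L y) YB := by simp [hc, claims, child, ← hy]
  unfold CounterNum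
  simp only [← hc]
  by_cases hg : (IsCol L x 3 ∧ lo L x = 0) ∧ y ≠ 0 ∧ A ≤ hi L y
  · obtain ⟨hg1, hy0, hA⟩ := hg
    have hYB : A < YB := by unfold YB; omega
    have hy1 : y' + 1 = y := by
      rcases Nat.lt_or_ge (y' + 1) (H L) with h | h
      · rw [Nat.mod_eq_of_lt h] at hYY; exact hYY
      · rw [show y' + 1 = H L from by omega, Nat.mod_self] at hYY
        omega
    set m := M L with hm
    have hsq : 0 < m ^ 2 := pow_pos (by omega) 2
    have hhi : hi L y * m ^ 2 ≤ y := Nat.div_mul_le_self _ _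
    have hA1 : A * m ^ 2 ≤ y := le_trans (Nat.mul_le_mul_right _ hA) hhi
    have hA2 : m ^ 2 ≤ A * m ^ 2 := Nat.le_mul_of_pos_left _ (by norm_num [A])
    have hm2 : 2 * m ≤ m ^ 2 := by rw [sq]; exact Nat.mul_le_mul_right _ hM
    have hiff : (c.cy.yl0 && decide (c.cy.ymC.val = 1)) = true ↔ (y - m) % m ^ 2 = 0 := by
      simp only [hc, claims, child, ← hy, Bool.and_eq_true, decide_eq_true_eq]
      have e1 : y % m ^ 2 = y % m + m * (y / m % m) := by rw [sq, Nat.mod_mul]
      have hylo : y % m < m := Nat.mod_lt _ (by omega)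
      have hymid : y / m % m < m := Nat.mod_lt _ (by omega)
      constructor
      · rintro ⟨h1, h2⟩
        have h1' : y % m = 0 := h1
        have h2' : y / m % m = 1 := by
          have : min (mid L y) 3 = 1 := h2
          have : mid L y = 1 := by omega
          exact this
        rw [h1', h2', mul_one, Nat.zero_add] at e1
        have := Nat.div_add_mod y (m ^ 2)
        rw [e1] at this
        rw [show y - m = m ^ 2 * (y / m ^ 2) from by omega, Nat.mul_mod_right]
      · intro h
        obtain ⟨t, ht⟩ := Nat.dvd_of_mod_eq_zero h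
        have hy2 : y = m + m ^ 2 * t := by omega
        have e2 : y % m ^ 2 = m := by
          rw [hy2, Nat.add_mul_mod_self_left, Nat.mod_eq_of_lt (by omega)]
        have e3 : y % m = 0 := by
          rw [hy2, sq, mul_assoc, Nat.add_mul_mod_self_left, Nat.mod_self]
        refine ⟨e3, ?_⟩
        show min (y / m % m) 3 = 1
        rw [e2, e3, Nat.zero_add] at e1
        have : y / m % m = 1 := by
          have h4 : m * 1 = m * (y / m % m) := by rw [mul_one]; exact e1
          exact (Nat.eq_of_mul_eq_mul_left (by omega) h4).symm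
        omega
    have hk : rowIdx L y' = if (y - m) % m ^ 2 = 0 then rowIdx L y - 1 else rowIdx L y := by
      show (y' - m) / m ^ 2 = _
      have e := Nat.div_add_mod (y - m) (m ^ 2)
      have hr := Nat.mod_lt (y - m) hsq
      split_ifs with h0
      · rw [h0, Nat.add_zero] at e
        show (y' - m) / m ^ 2 = (y - m) / m ^ 2 - 1
        have hpos : 1 ≤ (y - m) / m ^ 2 := (Nat.one_le_div_iff hsq).2 (by
          by_contra hlt
          have := Nat.mod_eq_of_lt (show y - m < m ^ 2 by omega)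
          omega)
        refine Nat.div_eq_of_lt_le ?_ ?_
        · rw [Nat.sub_mul, one_mul, Nat.mul_comm ((y - m) / m ^ 2)]
          omega
        · rw [Nat.sub_add_cancel hpos, Nat.mul_comm ((y - m) / m ^ 2)]
          omega
      · show (y' - m) / m ^ 2 = (y - m) / m ^ 2
        have hr1 : 1 ≤ (y - m) % m ^ 2 := Nat.one_le_iff_ne_zero.2 h0
        refine Nat.div_eq_of_lt_le ?_ ?_
        · rw [Nat.mul_comm ((y - m) / m ^ 2)]
          omega
        · rw [Nat.add_mul, one_mul, Nat.mul_comm ((y - m) / m ^ 2)]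
          omega
    have hrow : (y - m) % m ^ 2 = 0 → rowIdx L y = hi L y := by
      intro h
      show (y - m) / m ^ 2 = y / m ^ 2
      obtain ⟨t, ht⟩ := Nat.dvd_of_mod_eq_zero h
      rw [ht, Nat.mul_div_cancel_left _ hsq, show y = m + m ^ 2 * t from by omega,
        Nat.add_mul_div_left _ _ hsq, Nat.div_eq_of_lt (show m < m ^ 2 by omega), Nat.zero_add]
    have hrowle : hi L y - 1 ≤ rowIdx L y := by
      show y / m ^ 2 - 1 ≤ (y - m) / m ^ 2
      refine (Nat.le_div_iff_mul_le hsq).2 ?_
      rw [Nat.sub_mul, one_mul]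
      have := Nat.div_mul_le_self y (m ^ 2)
      omega
    have hcT : (c.xk && c.cx.xh0 && c.cx.xl0 && decide (c.cx.xmC.val = 3) &&
        !(decide ((child L τ b X Y).y = 0)) && decide (A ≤ c.cy.yhC.val)) = true := by
      rw [Bool.and_eq_true, Bool.and_eq_true]
      refine ⟨⟨hcol.2 hg1, by simpa [child] using hy0⟩, ?_⟩
      rw [hyC]
      simpa using ⟨hA, hYB.le⟩
    rw [if_pos hcT]
    have huT : (child L τ b X Y).u =
        if A ≤ rowIdx L y then 2 ^ ((rowIdx L y - A) / 8) % m else 0 := by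
      simp only [child, ← hx, ← hy]
      by_cases h : A ≤ rowIdx L y
      · rw [if_pos ⟨hg1.1, hg1.2, by omega, h⟩, if_pos h]
      · rw [if_neg (fun hh => h hh.2.2.2), if_neg h]
    have huD : (child L τ b' X Y').u =
        if A ≤ rowIdx L y' then 2 ^ ((rowIdx L y' - A) / 8) % m else 0 := by
      simp only [child, ← hx, ← hy']
      by_cases h : A ≤ rowIdx L y'
      · rw [if_pos ⟨hg1.1, hg1.2, by omega, h⟩, if_pos h]
      · rw [if_neg (fun hh => h hh.2.2.2), if_neg h]
    have hA8 : A = 8 * 128 := rfl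
    by_cases hw : (y - m) % m ^ 2 = 0
    · have h2 := hrow hw
      rw [if_pos hw] at hk
      by_cases hp : hi L y % 8 = 0
      · have hcond : (c.cy.yl0 && decide (c.cy.ymC.val = 1) && decide (c.cy.yhMod.val = 0)) = true := by
          rw [Bool.and_eq_true]
          exact ⟨hiff.2 hw, by simpa [hc, claims, child, ← hy] using hp⟩
        rw [if_pos hcond]
        by_cases heq : hi L y = A
        · rw [if_pos (by rw [hyC, heq]; omega), huT, h2, heq, if_pos le_rfl, Nat.sub_self]
          rw [Nat.zero_div, pow_zero, Nat.mod_eq_of_lt (by omega)]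
        · rw [if_neg (by rw [hyC]; omega), huT, huD, hk, h2, if_pos hA, if_pos (by omega)]
          rw [show (hi L y - A) / 8 = (hi L y - 1 - A) / 8 + 1 from by omega, pow_succ',
            Nat.mul_mod_mod]
      · have hcond : ¬ (c.cy.yl0 && decide (c.cy.ymC.val = 1) && decide (c.cy.yhMod.val = 0)) = true := by
          rw [Bool.and_eq_true]
          rintro ⟨-, h⟩
          apply hp
          simpa [hc, claims, child, ← hy] using h
        rw [if_neg hcond, huT, huD, hk, h2, if_pos hA, if_pos (by omega),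
          show (hi L y - 1 - A) / 8 = (hi L y - A) / 8 from by omega]
    · have hcond : ¬ (c.cy.yl0 && decide (c.cy.ymC.val = 1) && decide (c.cy.yhMod.val = 0)) = true := by
        rw [Bool.and_eq_true]
        exact fun h => hw (hiff.1 h.1)
      rw [if_neg hw] at hk
      rw [if_neg hcond, huT, huD, hk]
  · have hcT : ¬ (c.xk && c.cx.xh0 && c.cx.xl0 && decide (c.cx.xmC.val = 3) &&
        !(decide ((child L τ b X Y).y = 0)) && decide (A ≤ c.cy.yhC.val)) = true := by
      rw [Bool.and_eq_true, Bool.and_eq_true]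
      rintro ⟨⟨h1, h2⟩, h3⟩
      apply hg
      refine ⟨hcol.1 h1, by simpa [child] using h2, ?_⟩
      rw [hyC] at h3
      simp only [decide_eq_true_eq] at h3
      omega
    rw [if_neg hcT]
    simp only [child, ← hx, ← hy]
    rw [if_neg]
    rintro ⟨h1, h2, h3, h4⟩
    apply hg
    refine ⟨⟨h1, h2⟩, by have := M_pos L; omega, le_trans h4 ?_⟩
    exact Nat.div_le_div_right (Nat.sub_le _ _)

lemma vertNum_child (L : ℕ) (τ : ℕ → Bool) (b b' : ℕ → Quad) (X Y Y' : ℕ)
    (hYY : (Y' % H L + 1) % H L = Y % H L) :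
    VertNum L (child L τ b X Y) (child L τ b' X Y') := by
  unfold VertNum child
  simp only
  refine ⟨hYY.symm, fun h h' => ?_⟩
  rw [h, h']

lemma horNum_child (L : ℕ) (τ : ℕ → Bool) (b b' : ℕ → Quad) (X X' Y : ℕ)
    (hXX : (X' % H L + 1) % H L = X % H L) :
    HorNum L (child L τ b X Y) (child L τ b' X' Y) := by
  unfold HorNum child
  simp only
  refine ⟨trivial, fun h h' => ?_⟩
  rw [h, h', if_pos rfl, if_pos rfl, hXX]

/-- Windows of children satisfy the numerical rules. -/
theorem window_num {L : ℕ} (hL : L₀ ≤ L) (τ : ℕ → Bool) (b : ℕ → Quad) (X Y : ℕ)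
    (hX : X < side L) (hY : Y < side L) :
    (∀ j, (window L τ b X Y j).x < H L ∧ (window L τ b X Y j).y < H L ∧
      (window L τ b X Y j).u < M L ∧
      ((window L τ b X Y j).xk = false → (window L τ b X Y j).x = 0)) ∧
    VertNum L (window L τ b X Y 0) (window L τ b X Y 2) ∧
    VertNum L (window L τ b X Y 1) (window L τ b X Y 3) ∧
    HorNum L (window L τ b X Y 0) (window L τ b X Y 1) ∧
    HorNum L (window L τ b X Y 2) (window L τ b X Y 3) ∧
    CounterNum L (window L τ b X Y 0) (window L τ b X Y 2) ∧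
    CounterNum L (window L τ b X Y 1) (window L τ b X Y 3) := by
  refine ⟨fun j => child_bounds hL τ _ _ _, ?_, ?_, ?_, ?_, ?_, ?_⟩
  · exact vertNum_child L τ _ _ _ _ _ (succ_pred' L Y hY)
  · exact vertNum_child L τ _ _ _ _ _ (succ_pred' L Y hY)
  · exact horNum_child L τ _ _ _ _ _ (succ_pred' L X hX)
  · exact horNum_child L τ _ _ _ _ _ (succ_pred' L X hX)
  · exact counter_child hL τ _ _ _ _ _ (succ_pred' L Y hY)
  · exact counter_child hL τ _ _ _ _ _ (succ_pred' L Y hY)

lemma window_snd_x (L : ℕ) (τ : ℕ → Bool) (b : ℕ → Quad) (X Y : ℕ) (j : Fin 4)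
    (hz : (claims L (window L τ b X Y j)).zone = true) :
    ∃ x, (IsZone L x 4 ∨ IsZone L x 6) ∧ (x = X % H L ∨ x = pred' L X % H L) ∧
      (window L τ b X Y j).x = x ∧ (window L τ b X Y j).fin.v = τ (lo L x) := by
  unfold Claims.zone claims at hz
  simp only [window] at hz ⊢
  unfold child at hz ⊢
  simp only [Bool.and_eq_true, Bool.or_eq_true, decide_eq_true_eq] at hz ⊢
  obtain ⟨⟨⟨⟨hk, hh⟩, he⟩, hs⟩, hm⟩ := hz
  rw [hk] at hh he hs hm ⊢
  simp only [if_true] at hh he hs hm ⊢
  refine ⟨_, ?_, ?_, rfl, ?_⟩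
  · rcases hm with ⟨hm, -⟩ | hm
    · exact Or.inl ⟨⟨hh, by omega⟩, hs⟩
    · exact Or.inr ⟨⟨hh, by omega⟩, hs⟩
  · split_ifs
    · exact Or.inr rfl
    · exact Or.inl rfl
  · rw [if_pos]
    rcases hm with ⟨hm, hv⟩ | hm
    · exact Or.inl ⟨⟨⟨hh, by omega⟩, hs⟩, le_trans hv (min_le_left _ _)⟩
    · exact Or.inr ⟨⟨hh, by omega⟩, hs⟩

lemma table_of_input {s : Sig} {xl : ℕ} (hs : InS s) (h : tableInput s xl) : table xl = true := by
  unfold table
  simpa using ⟨s, hs, h⟩

lemma shape_window {L : ℕ} (hL : L₀ ≤ L) (τ : ℕ → Bool) (b : ℕ → Quad) (X Y : ℕ)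
    (hX : X < side L) (hY : Y < side L) : Shape (sig L (window L τ b X Y)) :=
  ⟨L, τ, b, X, Y, hL, hX, hY, rfl⟩

/-- A window of children of a tiling with the table is valid as soon as it passes the checks. -/
theorem valid_window {L : ℕ} (hL : L₀ ≤ L) (b : ℕ → Quad) (X Y : ℕ)
    (hX : X < side L) (hY : Y < side L) (h : Accept (sig L (window L table b X Y))) :
    Valid L (window L table b X Y) := by
  obtain ⟨h1, h2, h3, h4, h5, h6, h7⟩ := window_num hL table b X Y hX hY
  refine ⟨⟨h1, h2, h3, h4, h5, h6, h7, shape_window hL table b X Y hX hY, h⟩, fun j hz => ?_⟩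
  obtain ⟨x, -, -, hxx, hv⟩ := window_snd_x L table b X Y j hz
  rw [hv, hxx]

end Vale.Agent.P196.Tile.ChildRules
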