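import Vale.Agent.P196.Tile.Pairing
import Vale.Agent.P196.Tile.ChildRules

/-!
P196, module D: a window of children is seen by the parents of its four tiles.
-/

noncomputable section

namespace Vale.Agent.P196.Tile

open ChildRules in
/-- The position before `X` is in range. -/
theorem pred'_facts (L X : ℕ) (hX : X < side L) :
    pred' L X < side L ∧ pred' L 0 = side L - 1 ∧ (X ≠ 0 → pred' L X = X - 1) :=
  ⟨pred'_lt L X, pred'_zero L, fun h => pred'_succ L X hX h⟩

/-- The child at the corner shows no parent bits. -/
theorem child_corner (L : ℕ) (τ : ℕ → Bool) (b b' : ℕ → Quad) :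
    child L τ b 0 0 = child L τ b' 0 0 := by
  have hw : ¬ IsWire L (0 % H L) := by simp [IsWire, mid, Nat.zero_mod]
  have c1 : ∀ m, m ≠ 0 → ¬ IsCol L (0 % H L) m := by
    intro m hm hc
    apply hm
    simp [IsCol, mid, Nat.zero_mod] at hc
    omega
  have z4 : ¬ IsZone L (0 % H L) 4 := fun h => c1 4 (by norm_num) h.1
  have z6 : ¬ IsZone L (0 % H L) 6 := fun h => c1 6 (by norm_num) h.1
  have k1 : ¬ IsBundle L (0 % H L) := fun h => c1 1 (by norm_num) h.1
  have k3 := c1 3 (by norm_num)
  unfold child
  simp only [hw, k1, k3, z4, z6, false_and, if_false]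

/-- One coordinate of a tile of a window. -/
theorem window_axis (L X : ℕ) (hX : X < side L) (p : ℤ) (d : Bool) :
    ((side L : ℤ) * p + (pred' L X : ℕ) + 1 - if d then 1 else 0) / (side L : ℤ) =
        p + (if X = 0 ∧ d = false then 1 else 0) ∧
      (((side L : ℤ) * p + (pred' L X : ℕ) + 1 - if d then 1 else 0) % (side L : ℤ)).toNat =
        if d then pred' L X else X := by
  set s : ℤ := (side L : ℤ) with hs
  obtain ⟨hlt, p0, ps⟩ := pred'_facts L X hX
  have key : ∀ (q : ℤ) (r : ℕ), r < side L → (s * q + r) / s = q ∧ ((s * q + r) % s).toNat = r := by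
    intro q r hr
    have h1 : (0 : ℤ) < s := by omega
    rw [add_comm, Int.add_mul_ediv_left _ _ h1.ne', Int.add_mul_emod_self_left,
      Int.ediv_eq_zero_of_lt (by omega) (by omega), Int.emod_eq_of_lt (by omega) (by omega)]
    simp
  cases d
  · simp only [if_false, sub_zero, Bool.false_eq_true]
    by_cases h : X = 0
    · subst h
      have e : s * p + ((pred' L 0 : ℕ) : ℤ) + 1 = s * (p + 1) + ((0 : ℕ) : ℤ) := by
        rw [p0, mul_add, mul_one]
        omega
      rw [e]
      simpa using key (p + 1) 0 hX
    · have e : s * p + ((pred' L X : ℕ) : ℤ) + 1 = s * p + (X : ℤ) := by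
        rw [ps h]
        omega
      rw [e]
      simpa [h] using key p X hX
  · simp only [if_true, add_sub_cancel_right]
    simpa using key p _ hlt

/-- The tile of the window with upper right position `(X, Y)` in the children of `c`, `P` being
the parent of its lower left tile. -/
theorem window_child (L : ℕ) (c : V → St) (P : V) (X Y : ℕ) (hX : X < side L) (hY : Y < side L)
    (j : Fin 4) :
    window L table (quadBits (L + 1) (quadAt c P)) X Y j =
      expandTile L c (((side L : ℤ) * P.1 + (pred' L X : ℕ) + 1,
        (side L : ℤ) * P.2 + (pred' L Y : ℕ) + 1) - dir j) := by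
  obtain ⟨a1, a2⟩ := window_axis L X hX P.1 (decide (j = 1 ∨ j = 3))
  obtain ⟨b1, b2⟩ := window_axis L Y hY P.2 (decide (j = 2 ∨ j = 3))
  simp only [decide_eq_true_eq] at a1 a2 b1 b2
  simp only [expandTile, childAt, window, dir, Prod.fst_sub, Prod.snd_sub, a1, a2, b1, b2,
    decide_eq_true_eq]
  have sub : ∀ Q : V, ∀ i : Fin 4,
      quadAt c Q i = c (Q.1 - (dir i).1, Q.2 - (dir i).2) := fun Q i => rfl
  have gid : ∀ b : ℕ → Quad, guestBits false false b = b := fun b => by
    funext k j
    fin_cases j <;> rfl
  have p1 : pred' L 0 ≠ 0 := by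
    obtain ⟨-, p0, -⟩ := pred'_facts L X hX
    have : 0 < M L ^ 3 := pow_pos (M_pos L) 3
    rw [p0, side, H]
    omega
  by_cases hr : X = 0 <;> by_cases hu : Y = 0
  · subst hr hu
    fin_cases j <;> simp
    · exact child_corner L table _ _
    all_goals
      refine child_congr L table _ _ _ _ ?_ ?_ ?_ <;>
        simp [gid, p1, guestBits, quadBits, sub, dir]
  all_goals
    fin_cases j <;> simp [hr, hu] <;> by_cases px : pred' L X = 0 <;>
      by_cases py : pred' L Y = 0 <;> (try simp only [px, py]) <;>
      first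
      | exact child_corner L table _ _
      | (refine child_congr L table _ _ _ _ ?_ ?_ ?_ <;>
          simp [gid, p1, px, py, guestBits, quadBits, sub, dir, hr, hu])

end Vale.Agent.P196.Tile
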