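import Vale.Agent.P196.Tile.Cohomology
import Vale.Agent.P196.Tile.Window

/-!
P196, module D: a hierarchy whose states are read off the windows of children of tilings has even
sides and is balanced, hence has trivial coinvariants and cocycles modulo 2.
-/

noncomputable section

namespace Vale.Agent.P196.Tile

open Finset

/-- The states of level `l` of `H` are read off the windows of tiles: the children of a
configuration `y` are the windows with lower left tile `u + shift` of the children of the tiles
`tile l y`. -/
structure Reading (H : Hier) where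
  N_eq : ∀ l, H.N l = side (L₀ + l)
  shift : ℕ → V
  shift_small : ∀ l, (shift l).1.natAbs ≤ 1 ∧ (shift l).2.natAbs ≤ 1
  tile : ∀ l, (V → H.St (l + 1)) → V → St
  read : ∀ l, Quad4 St → H.St l
  expand_eq : ∀ l (y : V → H.St (l + 1)), H.Valid (l + 1) y → ∀ u : V,
    H.expand l y 0 u = read l fun j => expandTile (L₀ + l) (tile l y) (u + shift l + (1, 1) - dir j)

namespace Reading

variable {H : Hier} (R : Reading H)

include R in
theorem even (l : ℕ) : Even (H.N l) := ⟨Vale.Agent.P196.Tile.H (L₀ + l), by rw [R.N_eq, side]; ring⟩

/-- The displacement read at the place `j` of the member `d` of a patch. -/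
def off (l : ℕ) (d : Fin 3 × Fin 3) (j : Fin 4) : Parity.Off 3 :=
  ⟨(((d.1 : ℕ) : ℤ) - 1, ((d.2 : ℕ) : ℤ) - 1) + R.shift l + (1, 1) - dir j, by
    obtain ⟨a, b⟩ := R.shift_small l
    have := d.1.2
    have := d.2.2
    simp only [dir, Prod.fst_add, Prod.fst_sub, Prod.snd_add, Prod.snd_sub]
    refine ⟨?_, ?_, ?_, ?_⟩ <;> split_ifs <;> omega⟩

/-- A function of a patch as a function of the surrounding tiles. -/
def onTiles (l : ℕ) (F : (Fin 3 × Fin 3 → H.St l) → ZMod 2) (g : Parity.Off 3 → St) : ZMod 2 :=
  F fun d => R.read l fun j => g (R.off l d j)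

theorem patch_eq (l : ℕ) (F : (Fin 3 × Fin 3 → H.St l) → ZMod 2) (y : V → H.St (l + 1))
    (hy : H.Valid (l + 1) y) (q : V) :
    F (Hier.patchAt (H.expand l y 0) q) =
      R.onTiles l F fun u => expandTile (L₀ + l) (R.tile l y) (q + u.1) := by
  refine congrArg F (funext fun d => ?_)
  rw [Hier.patchAt, R.expand_eq l y hy]
  refine congrArg (R.read l) (funext fun j => congrArg _ ?_)
  simp only [off]
  abel

include R in
theorem balanced : H.Balanced where
  area l F y y' hy hy' := by
    simp only [R.patch_eq l F y hy, R.patch_eq l F y' hy', R.N_eq]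
    exact area_parity (Nat.le_add_right _ _) (r := 3) (by norm_num) _ _ _
  row l F y y' hy hy' := by
    simp only [R.patch_eq l F y hy, R.patch_eq l F y' hy', R.N_eq]
    exact row_parity (Nat.le_add_right _ _) (r := 3) (by norm_num) _ _ _
  col l F y y' hy hy' := by
    simp only [R.patch_eq l F y hy, R.patch_eq l F y' hy', R.N_eq]
    exact col_parity (Nat.le_add_right _ _) (r := 3) (by norm_num) _ _ _

include R in
theorem coinvariants (hs : H.SelfSimilar) : H.sft.CoinvariantsModTwoTrivial :=
  Hier.coinvariants hs R.even R.balanced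

include R in
theorem cocycles (hs : H.SelfSimilar) : H.sft.CocyclesModTwoTrivial :=
  Hier.cocycles hs R.even R.balanced

end Reading

end Vale.Agent.P196.Tile
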