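import Vale.Agent.P196.Tile.Tower

/-!
P196, module D: a self-similar hierarchy with even sides whose children of a parent, counted
modulo 2 with their surroundings, do not depend on the parent has trivial coinvariants and
trivial cocycles modulo 2.
-/

noncomputable section

namespace Vale.Agent.P196.Tile

open Finset SFT

namespace Hier

/-- The three by three patch around `v`. -/
def patchAt {H : Hier} {l : ℕ} (y : V → H.St l) (v : V) : Fin 3 × Fin 3 → H.St l :=
  fun q => y (v + (((q.1 : ℕ) : ℤ) - 1, ((q.2 : ℕ) : ℤ) - 1))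

/-- Modulo 2, the patches of the children in a whole parent, in its bottom row and in its left
column do not depend on the parent. -/
structure Balanced (H : Hier) : Prop where
  area : ∀ l (F : (Fin 3 × Fin 3 → H.St l) → ZMod 2) (y y' : V → H.St (l + 1)),
    H.Valid (l + 1) y → H.Valid (l + 1) y' →
      ∑ q ∈ range (H.N l) ×ˢ range (H.N l), F (patchAt (H.expand l y 0) (q.1, q.2)) =
      ∑ q ∈ range (H.N l) ×ˢ range (H.N l), F (patchAt (H.expand l y' 0) (q.1, q.2))
  row : ∀ l (F : (Fin 3 × Fin 3 → H.St l) → ZMod 2) (y y' : V → H.St (l + 1)),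
    H.Valid (l + 1) y → H.Valid (l + 1) y' →
      ∑ i ∈ range (H.N l), F (patchAt (H.expand l y 0) ((i : ℤ), 0)) =
      ∑ i ∈ range (H.N l), F (patchAt (H.expand l y' 0) ((i : ℤ), 0))
  col : ∀ l (F : (Fin 3 × Fin 3 → H.St l) → ZMod 2) (y y' : V → H.St (l + 1)),
    H.Valid (l + 1) y → H.Valid (l + 1) y' →
      ∑ j ∈ range (H.N l), F (patchAt (H.expand l y 0) (0, (j : ℤ))) =
      ∑ j ∈ range (H.N l), F (patchAt (H.expand l y' 0) (0, (j : ℤ)))

variable {H : Hier} (hs : H.SelfSimilar)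

/-- The indicator of a position. -/
def posInd (l : ℕ) (p : V) (x : H.sft.X) : ZMod 2 := if posV hs l x = p then 1 else 0

/-- The surroundings of the origin's tile. -/
def around (l : ℕ) (x : H.sft.X) : Fin 3 × Fin 3 → H.St l := patchAt (up hs l x) 0

theorem isLocal_posInd (l : ℕ) (p : V) : H.sft.IsLocal (posInd hs l p) :=
  Amen.isLocal_comp (isLocal_lev hs l) fun q => if q.1 = p then (1 : ZMod 2) else 0

theorem isLocal_sum {ι : Type} (s : Finset ι) {f : ι → H.sft.X → ZMod 2}
    (hf : ∀ i, H.sft.IsLocal (f i)) : H.sft.IsLocal fun x => ∑ i ∈ s, f i x :=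
  (congrArg H.sft.IsLocal (funext fun x => Finset.sum_coe_sort s (fun i => f i x))).mp
    (Amen.isLocal_comp (Amen.isLocal_pi fun i : s => hf i.1) (fun g => ∑ i : s, g i))

theorem isLocal_around (l : ℕ) : H.sft.IsLocal (around hs l) := by
  have h : ∀ v : V, H.sft.IsLocal fun x => up hs l x v := fun v => by
    have h1 := Amen.isLocal_act (isLocal_lev hs l) ((H.Q l : ℤ) • v)
    refine (congrArg H.sft.IsLocal (funext fun x => ?_)).mp (Amen.isLocal_comp h1 Prod.snd)
    rw [(up_act hs l _ x).2]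
    have e : vdiv ((H.Q l : ℤ) • v + posV hs l x) (H.Q l) = v := by
      rw [add_comm, vdiv_add_smul (Q_pos' l), (up_spec hs l x).2.1.vdiv_eq, zero_add]
    simp only [zero_add, e]
  exact Amen.isLocal_pi fun q : Fin 3 × Fin 3 => h _

theorem posV_act_eq_iff (l : ℕ) {p : V} (hp : InRange (H.Q l) p) (x : H.sft.X) :
    posV hs l (H.sft.act p x) = p ↔ posV hs l x = 0 := by
  obtain ⟨h1, h2, h3, h4⟩ := (up_spec hs l x).2.1
  obtain ⟨p1, p2, p3, p4⟩ := hp
  rw [(up_act hs l p x).1]
  constructor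
  · intro h
    have d : ∀ a b : ℤ, (a + b) % (H.Q l : ℤ) = a → 0 ≤ b → b < H.Q l → b = 0 := by
      intro a b hab hb hb'
      have := Int.emod_add_mul_ediv (a + b) (H.Q l)
      rw [hab] at this
      have hd : (H.Q l : ℤ) ∣ b := ⟨(a + b) / (H.Q l : ℤ), by linarith⟩
      exact Int.eq_zero_of_dvd_of_natAbs_lt_natAbs hd (by omega)
    exact Prod.ext (d _ _ (congrArg Prod.fst h) h1 h2) (d _ _ (congrArg Prod.snd h) h3 h4)
  · intro h
    rw [h, add_zero]
    exact InRange.vmod_eq ⟨p1, p2, p3, p4⟩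

theorem vdiv_mem {n : ℕ} {p u : V} {r : ℕ} (hp : InRange n p) (hr : r < n)
    (hu : u ∈ SFT.box r) :
    ∃ q : Fin 3 × Fin 3, vdiv (u + p) n = (((q.1 : ℕ) : ℤ) - 1, ((q.2 : ℕ) : ℤ) - 1) := by
  obtain ⟨p1, p2, p3, p4⟩ := hp
  rw [mem_box_iff] at hu
  have hn : (0 : ℤ) < n := by omega
  have key : ∀ a : ℤ, -(n : ℤ) ≤ a → a < 2 * n → ∃ q : Fin 3, a / n = ((q : ℕ) : ℤ) - 1 := by
    intro a ha ha'
    have m1 : -1 ≤ a / (n : ℤ) := by rw [Int.le_ediv_iff_mul_le hn]; linarith
    have m2 : a / (n : ℤ) < 2 := by rw [Int.ediv_lt_iff_lt_mul hn]; linarith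
    exact ⟨⟨(a / (n : ℤ) + 1).toNat, by omega⟩, by simp only; omega⟩
  obtain ⟨q, hq⟩ := key (u + p).1 (by simp; omega) (by simp; omega)
  obtain ⟨q', hq'⟩ := key (u + p).2 (by simp; omega) (by simp; omega)
  exact ⟨(q, q'), Prod.ext hq hq'⟩

/-- Below the size of a tile, a local function is a function of the surrounding tiles. -/
theorem exists_around_fun {β : Type} [Inhabited β] {f : H.sft.X → β} {r : ℕ}
    (hf : H.sft.LocalWith r f) {l : ℕ} (hl : r < H.Q l) {p : V} (hp : InRange (H.Q l) p) :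
    ∃ F : (Fin 3 × Fin 3 → H.St l) → β,
      ∀ x, posV hs l x = 0 → f (H.sft.act p x) = F (around hs l x) := by
  classical
  refine ⟨fun w => if h : ∃ x, posV hs l x = 0 ∧ around hs l x = w
    then f (H.sft.act p h.choose) else default, fun x hx => ?_⟩
  have h : ∃ x', posV hs l x' = 0 ∧ around hs l x' = around hs l x := ⟨x, hx, rfl⟩
  have key : ∀ x', posV hs l x' = 0 → around hs l x' = around hs l x →
      f (H.sft.act p x) = f (H.sft.act p x') := by
    intro x' hx' he
    refine hf _ _ fun u hu => ?_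
    rw [Amen.act_apply, Amen.act_apply, apply_eq hs l x, apply_eq hs l x', hx, hx', add_zero]
    obtain ⟨q, hq⟩ := vdiv_mem hp hl hu
    rw [hq]
    have hv := congrFun he q
    simp only [around, patchAt, zero_add] at hv
    rw [hv]
  simp only [dif_pos h]
  exact key _ h.choose_spec.1 h.choose_spec.2

/-- The children of the origin's tile of the next level. -/
theorem child_data (l : ℕ) {x : H.sft.X} (hx : posV hs (l + 1) x = 0) {u : V}
    (hu : InRange (H.N l) u) :
    posV hs l (H.sft.act ((H.Q l : ℤ) • u) x) = 0 ∧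
      around hs l (H.sft.act ((H.Q l : ℤ) • u) x) =
        patchAt (H.expand l (up hs (l + 1) x) 0) u := by
  set x' := H.sft.act ((H.Q l : ℤ) • u) x with hx'
  have hq := Q_pos' (H := H) l
  have hin : InRange (H.Q (l + 1)) ((H.Q l : ℤ) • u) := by
    obtain ⟨b1, b2, b3, b4⟩ := hu
    simp only [InRange, Q_succ', Prod.smul_fst, Prod.smul_snd, smul_eq_mul]
    refine ⟨?_, ?_, ?_, ?_⟩ <;> nlinarith
  obtain ⟨h1, h2⟩ := up_act hs (l + 1) ((H.Q l : ℤ) • u) x
  rw [hx, add_zero, hin.vmod_eq, ← hx'] at h1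
  rw [hx, add_zero, hin.vdiv_eq, ← hx'] at h2
  obtain ⟨h3, h4⟩ := posV_succ hs l x'
  rw [h1] at h3 h4
  constructor
  · rw [h3]
    exact Prod.ext (by simp [vmod]) (by simp [vmod])
  · funext q
    simp only [around, patchAt, h4, h2, expand, add_zero, zero_add]
    rw [show vdiv ((H.Q l : ℤ) • u) (H.Q l) = u from
      Prod.ext (Int.mul_ediv_cancel_left _ hq.ne') (Int.mul_ediv_cancel_left _ hq.ne'),
      add_comm _ u]

theorem inRange_cast {n : ℕ} {q : ℕ × ℕ} (h : q ∈ range n ×ˢ range n) :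
    InRange n ((q.1 : ℤ), (q.2 : ℤ)) := by
  simp only [Finset.mem_product, Finset.mem_range] at h
  simp [InRange, h.1, h.2]

section Coinvariants

variable {z : Set H.sft.X → ZMod 2}

/-- The additive functional on local functions. -/
def val (z : Set H.sft.X → ZMod 2) (φ : H.sft.X → ZMod 2) : ZMod 2 := z {x | φ x = 1}

theorem val_zero
    (hadd : ∀ U W : Set H.sft.X, IsClopen U → IsClopen W → Disjoint U W → z (U ∪ W) = z U + z W) :
    val z (fun _ => 0) = 0 := by
  have h := hadd ∅ ∅ isClopen_empty isClopen_empty disjoint_bot_left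
  rw [Set.union_empty] at h
  have e : {x : H.sft.X | (0 : ZMod 2) = 1} = ∅ := by simp
  rw [val, e]
  revert h
  generalize z ∅ = a
  revert a
  decide

theorem val_add
    (hadd : ∀ U W : Set H.sft.X, IsClopen U → IsClopen W → Disjoint U W → z (U ∪ W) = z U + z W)
    {φ ψ : H.sft.X → ZMod 2} (hφ : H.sft.IsLocal φ) (hψ : H.sft.IsLocal ψ) :
    val z (fun x => φ x + ψ x) = val z φ + val z ψ := by
  have hA : IsClopen {x | φ x = 1} := Amen.isClopen_of_isLocal (Amen.isLocal_comp hφ (· = 1))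
  have hB : IsClopen {x | ψ x = 1} := Amen.isClopen_of_isLocal (Amen.isLocal_comp hψ (· = 1))
  set A := {x | φ x = 1} with hA'
  set B := {x | ψ x = 1} with hB'
  have h1 := hadd _ _ (hA.diff hB) (hA.inter hB) Set.disjoint_sdiff_inter
  have h2 := hadd _ _ (hB.diff hA) (hB.inter hA) Set.disjoint_sdiff_inter
  rw [Set.sdiff_union_inter] at h1 h2
  have h3 := hadd _ _ (hA.diff hB) (hB.diff hA) disjoint_sdiff_sdiff
  have e : {x : H.sft.X | φ x + ψ x = 1} = A \ B ∪ B \ A := by
    ext x
    simp only [hA', hB', Set.mem_ofPred_eq, Set.mem_union, Set.mem_sdiff]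
    generalize φ x = a
    generalize ψ x = b
    revert a b
    decide
  unfold val
  rw [e, h3, ← hA', ← hB', h1, h2, Set.inter_comm B A]
  generalize z (A \ B) = a
  generalize z (B \ A) = b
  generalize z (A ∩ B) = c
  revert a b c
  decide

theorem val_sum
    (hadd : ∀ U W : Set H.sft.X, IsClopen U → IsClopen W → Disjoint U W → z (U ∪ W) = z U + z W)
    {ι : Type} (s : Finset ι) {f : ι → H.sft.X → ZMod 2} (hf : ∀ i, H.sft.IsLocal (f i)) :
    val z (fun x => ∑ i ∈ s, f i x) = ∑ i ∈ s, val z (f i) := by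
  classical
  induction s using Finset.induction_on with
  | empty => simpa using val_zero hadd
  | insert a s ha ih =>
    simp only [Finset.sum_insert ha]
    rw [val_add hadd (hf a) (isLocal_sum s hf), ih]

theorem val_act (hinv : ∀ (v : V) (U : Set H.sft.X), IsClopen U → z (H.sft.act v '' U) = z U)
    {φ : H.sft.X → ZMod 2} (hφ : H.sft.IsLocal φ) (v : V) :
    val z (fun x => φ (H.sft.act v x)) = val z φ := by
  have hA : IsClopen {x | φ x = 1} := Amen.isClopen_of_isLocal (Amen.isLocal_comp hφ (· = 1))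
  have e : {x | φ (H.sft.act v x) = 1} = H.sft.act (-v) '' {x | φ x = 1} := by
    ext x
    constructor
    · intro h
      exact ⟨H.sft.act v x, h, by rw [Amen.act_act, neg_add_cancel, Amen.act_zero]⟩
    · rintro ⟨y, hy, rfl⟩
      simpa [Amen.act_act, Amen.act_zero] using hy
  rw [val, e, hinv _ _ hA]
  rfl

include hs in
/-- Coinvariants modulo 2 vanish. -/
theorem coinvariants (heven : ∀ l, Even (H.N l)) (hb : H.Balanced) :
    H.sft.CoinvariantsModTwoTrivial := by
  intro z hadd hinv U hU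
  classical
  obtain ⟨x₀⟩ := nonempty hs
  -- one level of descent
  have step : ∀ l (G : (Fin 3 × Fin 3 → H.St l) → ZMod 2), ∃ c : ZMod 2,
      c = ∑ q ∈ range (H.N l) ×ˢ range (H.N l),
        G (patchAt (H.expand l (up hs (l + 1) x₀) 0) (q.1, q.2)) ∧
      val z (fun x => posInd hs l 0 x * G (around hs l x)) = c * val z (posInd hs (l + 1) 0) := by
    intro l G
    refine ⟨_, rfl, ?_⟩
    set R := range (H.N l) ×ˢ range (H.N l)
    set c := ∑ q ∈ R, G (patchAt (H.expand l (up hs (l + 1) x₀) 0) (q.1, q.2)) with hc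
    have hq := Q_pos' (H := H) l
    have hG : H.sft.IsLocal fun x => G (around hs l x) := Amen.isLocal_comp (isLocal_around hs l) G
    set pt : ℕ × ℕ → V := fun q => (H.Q l : ℤ) • ((q.1 : ℤ), (q.2 : ℤ)) with hpt
    have hloc : ∀ q, H.sft.IsLocal fun x => posInd hs (l + 1) (pt q) x * G (around hs l x) :=
      fun q => Amen.isLocal_comp₂ (isLocal_posInd hs _ _) hG (· * ·)
    have e1 : (fun x => posInd hs l 0 x * G (around hs l x)) =
        fun x => ∑ q ∈ R, posInd hs (l + 1) (pt q) x * G (around hs l x) := by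
      funext x
      rw [← Finset.sum_mul]
      congr 1
      obtain ⟨b1, b2, b3, b4⟩ := (up_spec hs (l + 1) x).2.1
      rw [Q_succ'] at b2 b4
      have hrec := vmod_add_smul (posV hs (l + 1) x) (H.Q l)
      set w := vdiv (posV hs (l + 1) x) (H.Q l) with hw
      have hw1 : InRange (H.N l) w := by
        refine ⟨Int.ediv_nonneg b1 hq.le, ?_, Int.ediv_nonneg b3 hq.le, ?_⟩
        · exact (Int.ediv_lt_iff_lt_mul hq).2 (by rw [mul_comm]; exact b2)
        · exact (Int.ediv_lt_iff_lt_mul hq).2 (by rw [mul_comm]; exact b4)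
      obtain ⟨w1, w2, w3, w4⟩ := hw1
      rw [← (posV_succ hs l x).1] at hrec
      by_cases h0 : posV hs l x = 0
      · rw [h0, zero_add] at hrec
        rw [Finset.sum_eq_single (w.1.toNat, w.2.toNat)]
        · have e : pt (w.1.toNat, w.2.toNat) = posV hs (l + 1) x := by
            rw [← hrec]
            simp only [hpt, Int.toNat_of_nonneg w1, Int.toNat_of_nonneg w3]
          simp [posInd, h0, e]
        · intro q _ hne
          refine if_neg fun hp => hne ?_
          rw [← hrec, hpt] at hp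
          have a1 := congrArg Prod.fst hp
          have a2 := congrArg Prod.snd hp
          simp only [Prod.smul_fst, Prod.smul_snd, smul_eq_mul] at a1 a2
          have a1' := mul_left_cancel₀ hq.ne' a1
          have a2' := mul_left_cancel₀ hq.ne' a2
          exact Prod.ext (by omega) (by omega)
        · intro h
          exact absurd (by simp only [R, Finset.mem_product, Finset.mem_range]; omega) h
      · rw [show posInd hs l 0 x = 0 from if_neg h0]
        refine (Finset.sum_eq_zero fun q _ => if_neg fun hp => h0 ?_).symm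
        rw [(posV_succ hs l x).1, hp, hpt]
        exact Prod.ext (by simp [vmod]) (by simp [vmod])
    rw [e1, val_sum hadd R hloc]
    have e2 : ∀ q ∈ R, val z (fun x => posInd hs (l + 1) (pt q) x * G (around hs l x)) =
        val z (fun x => posInd hs (l + 1) 0 x *
          G (patchAt (H.expand l (up hs (l + 1) x) 0) (q.1, q.2))) := by
      intro q hqR
      rw [← val_act hinv (hloc q) (pt q)]
      congr 1
      funext x
      have hu := inRange_cast hqR
      have hin : InRange (H.Q (l + 1)) (pt q) := by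
        obtain ⟨b1, b2, b3, b4⟩ := hu
        simp only [hpt, InRange, Q_succ', Prod.smul_fst, Prod.smul_snd, smul_eq_mul]
        refine ⟨?_, ?_, ?_, ?_⟩ <;> nlinarith
      by_cases h0 : posV hs (l + 1) x = 0
      · rw [(child_data hs l h0 hu).2]
        simp [posInd, h0, (posV_act_eq_iff hs (l + 1) hin x).2 h0]
      · rw [show posInd hs (l + 1) 0 x = 0 from if_neg h0,
          show posInd hs (l + 1) (pt q) (H.sft.act (pt q) x) = 0 from
            if_neg (mt (posV_act_eq_iff hs (l + 1) hin x).1 h0)]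
        simp
    rw [Finset.sum_congr rfl e2, ← val_sum hadd R fun q => by
      have h1 : H.sft.IsLocal fun x => G (patchAt (H.expand l (up hs (l + 1) x) 0) (q.1, q.2)) := by
        refine Amen.isLocal_comp (Amen.isLocal_pi fun d : Fin 3 × Fin 3 => ?_) G
        simp only [patchAt, expand]
        refine Amen.isLocal_comp ?_ fun s => H.child l s _
        have h1 := Amen.isLocal_act (isLocal_lev hs (l + 1)) ((H.Q (l + 1) : ℤ) •
          vdiv ((((q.1 : ℕ) : ℤ), ((q.2 : ℕ) : ℤ)) +
            (((d.1 : ℕ) : ℤ) - 1, ((d.2 : ℕ) : ℤ) - 1) + 0) (H.N l))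
        refine (congrArg H.sft.IsLocal (funext fun x => ?_)).mp (Amen.isLocal_comp h1 Prod.snd)
        rw [(up_act hs (l + 1) _ x).2]
        show up hs (l + 1) x (0 + _) = _
        rw [add_comm (_ • _) (posV hs (l + 1) x), vdiv_add_smul (Q_pos' (l + 1)),
          (up_spec hs (l + 1) x).2.1.vdiv_eq, zero_add, zero_add]
      exact Amen.isLocal_comp₂ (isLocal_posInd hs _ _) h1 (· * ·)]
    have e3 : (fun x => ∑ q ∈ R, posInd hs (l + 1) 0 x *
        G (patchAt (H.expand l (up hs (l + 1) x) 0) (q.1, q.2))) =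
        fun x => c * posInd hs (l + 1) 0 x := by
      funext x
      rw [← Finset.mul_sum, hc, mul_comm,
        hb.area l G _ _ (up_spec hs (l + 1) x₀).1 (up_spec hs (l + 1) x).1]
    rw [e3]
    obtain h | h := (by decide : ∀ a : ZMod 2, a = 0 ∨ a = 1) c <;> rw [h]
    · simp only [zero_mul]; exact val_zero hadd
    · simp only [one_mul]
  -- the origins of tiles have value zero
  have zero : ∀ l, val z (posInd hs l 0) = 0 := by
    intro l
    obtain ⟨c, hc, he⟩ := step l fun _ => 1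
    have hc0 : c = 0 := by
      rw [hc, Finset.sum_const, Finset.card_product, Finset.card_range, nsmul_one]
      obtain ⟨k, hk⟩ := heven l
      rw [ZMod.natCast_eq_zero_iff_even.2]
      exact ⟨k * H.N l, by rw [hk]; ring⟩
    simpa [hc0] using he
  -- decomposition of the set
  obtain ⟨r, hr⟩ : H.sft.IsLocal fun x => (if x ∈ U then (1 : ZMod 2) else 0) := by
    refine isLocal_of_closed_fibres _ fun b => ?_
    have : {x : H.sft.X | (if x ∈ U then (1 : ZMod 2) else 0) = b} = if b = 1 then U else Uᶜ := by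
      ext x
      obtain rfl | rfl := (by decide : ∀ a : ZMod 2, a = 0 ∨ a = 1) b <;>
        by_cases hx : x ∈ U <;> simp [hx]
    rw [this]
    split_ifs
    exacts [hU.isClosed, hU.compl.isClosed]
  set φ : H.sft.X → ZMod 2 := fun x => if x ∈ U then 1 else 0 with hφ
  have hφU : z U = val z φ := by
    rw [val]
    congr 1
    ext x
    by_cases hx : x ∈ U <;> simp [hφ, hx]
  rw [hφU]
  set l := r with hl
  have hrl : r < H.Q l := H.le_Q r
  choose! F hF using fun p (hp : InRange (H.Q l) p) => exists_around_fun hs hr hrl hp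
  set R := range (H.Q l) ×ˢ range (H.Q l)
  have hloc : ∀ q : ℕ × ℕ, H.sft.IsLocal fun x => posInd hs l (q.1, q.2) x * φ x :=
    fun q => Amen.isLocal_comp₂ (isLocal_posInd hs _ _) ⟨r, hr⟩ (· * ·)
  have e1 : φ = fun x => ∑ q ∈ R, posInd hs l (q.1, q.2) x * φ x := by
    funext x
    rw [← Finset.sum_mul]
    obtain ⟨b1, b2, b3, b4⟩ := (up_spec hs l x).2.1
    rw [Finset.sum_eq_single ((posV hs l x).1.toNat, (posV hs l x).2.toNat)]
    · simp [posInd, Int.toNat_of_nonneg b1, Int.toNat_of_nonneg b3]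
    · intro q _ hne
      refine if_neg fun hp => hne ?_
      rw [hp]
      simp
    · intro h
      exact absurd (by simp only [R, Finset.mem_product, Finset.mem_range]; omega) h
  have e2 : ∀ q ∈ R, val z (fun x => posInd hs l (q.1, q.2) x * φ x) =
      val z (fun x => posInd hs l 0 x * F ((q.1 : ℤ), (q.2 : ℤ)) (around hs l x)) := by
    intro q hqR
    have hp := inRange_cast hqR
    rw [← val_act hinv (hloc q) ((q.1 : ℤ), (q.2 : ℤ))]
    congr 1
    funext x
    by_cases h0 : posV hs l x = 0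
    · rw [← hF _ hp x h0]
      simp [posInd, h0, (posV_act_eq_iff hs l hp x).2 h0]
    · simp [posInd, h0, mt (posV_act_eq_iff hs l hp x).1 h0]
  rw [e1, val_sum hadd R hloc, Finset.sum_congr rfl e2, ← val_sum hadd R fun q =>
    Amen.isLocal_comp₂ (isLocal_posInd hs _ _)
      (Amen.isLocal_comp (isLocal_around hs l) (F ((q.1 : ℤ), (q.2 : ℤ)))) (· * ·)]
  obtain ⟨c, -, hc⟩ := step l fun w => ∑ q ∈ R, F ((q.1 : ℤ), (q.2 : ℤ)) w
  simp only [Finset.mul_sum] at hc
  rw [hc, zero, mul_zero]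

end Coinvariants

section Cocycles

variable {S : SFT} (c₁ c₂ : S.X → ZMod 2)

/-- The sum along the bottom and then the right side. -/
def path (y : S.X) (a b : ℕ) : ZMod 2 :=
  ∑ i ∈ range a, c₁ (S.act ((i : ℤ), 0) y) + ∑ j ∈ range b, c₂ (S.act ((a : ℤ), (j : ℤ)) y)

variable {c₁ c₂}

/-- The cocycle identity around a rectangle. -/
theorem rect_sum (h : ∀ x, c₁ (S.act (0, 1) x) + c₁ x = c₂ (S.act (1, 0) x) + c₂ x) (y : S.X)
    (a b : ℕ) :
    ∑ i ∈ range a, (c₁ (S.act ((i : ℤ), (b : ℤ)) y) + c₁ (S.act ((i : ℤ), 0) y)) =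
      ∑ j ∈ range b, (c₂ (S.act ((a : ℤ), (j : ℤ)) y) + c₂ (S.act (0, (j : ℤ)) y)) := by
  induction b with
  | zero => simp [CharTwo.add_self_eq_zero]
  | succ b ih =>
    rw [Finset.sum_range_succ, ← ih]
    have key : ∀ a : ℕ, ∑ i ∈ range a,
        (c₁ (S.act ((i : ℤ), ((b : ℤ) + 1)) y) + c₁ (S.act ((i : ℤ), (b : ℤ)) y)) =
        c₂ (S.act ((a : ℤ), (b : ℤ)) y) + c₂ (S.act (0, (b : ℤ)) y) := by
      intro a
      induction a with
      | zero => simp [CharTwo.add_self_eq_zero]
      | succ a iha =>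
        rw [Finset.sum_range_succ, iha]
        have h1 := h (S.act ((a : ℤ), (b : ℤ)) y)
        rw [Amen.act_act, Amen.act_act] at h1
        simp only [Prod.mk_add_mk, zero_add] at h1
        push_cast
        rw [add_comm (b : ℤ) 1, h1, add_comm (a : ℤ) 1]
        generalize c₂ (S.act ((a : ℤ), (b : ℤ)) y) = u
        generalize c₂ (S.act (0, (b : ℤ)) y) = v
        generalize c₂ (S.act (1 + (a : ℤ), (b : ℤ)) y) = w
        revert u v w
        decide
    rw [← key a, ← Finset.sum_add_distrib]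
    refine Finset.sum_congr rfl fun i _ => ?_
    push_cast
    generalize c₁ (S.act ((i : ℤ), (b : ℤ) + 1) y) = u
    generalize c₁ (S.act ((i : ℤ), (b : ℤ)) y) = v
    generalize c₁ (S.act ((i : ℤ), (0 : ℤ)) y) = w
    revert u v w
    decide

theorem sum_range_block (n q : ℕ) (f : ℕ → ZMod 2) :
    ∑ i ∈ range (n * q), f i = ∑ i ∈ range n, ∑ t ∈ range q, f (q * i + t) := by
  induction n with
  | zero => simp
  | succ n ih => rw [Nat.succ_mul, Finset.sum_range_add, ih, Finset.sum_range_succ, mul_comm n q]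

include hs in
/-- Sums of a local function along an edge of a large tile vanish. -/
theorem edge_zero (heven : ∀ l, Even (H.N l)) {c : H.sft.X → ZMod 2} (hc : H.sft.IsLocal c)
    (e : V) (he : e = (1, 0) ∨ e = (0, 1))
    (hb : ∀ l (F : (Fin 3 × Fin 3 → H.St l) → ZMod 2) (y y' : V → H.St (l + 1)),
      H.Valid (l + 1) y → H.Valid (l + 1) y' →
        ∑ i ∈ range (H.N l), F (patchAt (H.expand l y 0) ((i : ℤ) • e)) =
        ∑ i ∈ range (H.N l), F (patchAt (H.expand l y' 0) ((i : ℤ) • e))) :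
    ∃ m, ∀ m' ≥ m, ∀ x, posV hs m' x = 0 →
      ∑ i ∈ range (H.Q m'), c (H.sft.act ((i : ℤ) • e) x) = 0 := by
  classical
  obtain ⟨r, hr⟩ := hc
  refine ⟨r + 2, fun m' hm' => ?_⟩
  obtain ⟨d, rfl⟩ : ∃ d, m' = d + 2 := ⟨m' - 2, by omega⟩
  set l := d with hl
  have hrl : r < H.Q l := lt_of_le_of_lt (show r ≤ l by omega) (H.le_Q l)
  obtain ⟨x₀⟩ := nonempty hs
  have hin : ∀ (n i : ℕ), i < n → InRange n ((i : ℤ) • e) := by
    intro n i hi
    rcases he with rfl | rfl <;> simp [InRange, hi] <;> omega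
  choose! F hF using fun i (hi : i < H.Q l) => exists_around_fun hs hr hrl (hin _ i hi)
  set G : (Fin 3 × Fin 3 → H.St l) → ZMod 2 := fun w => ∑ i ∈ range (H.Q l), F i w
  have hsum : ∀ l' x, ∑ i ∈ range (H.Q (l' + 1)), c (H.sft.act ((i : ℤ) • e) x) =
      ∑ i ∈ range (H.N l'), ∑ t ∈ range (H.Q l'),
        c (H.sft.act ((t : ℤ) • e) (H.sft.act ((H.Q l' : ℤ) • ((i : ℤ) • e)) x)) := by
    intro l' x
    show ∑ i ∈ range (H.N l' * H.Q l'), _ = _
    rw [sum_range_block (f := fun i : ℕ => c (H.sft.act ((i : ℤ) • e) x))]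
    refine Finset.sum_congr rfl fun i _ => Finset.sum_congr rfl fun t _ => ?_
    rw [Amen.act_act, smul_smul, ← add_smul]
    push_cast
    ring_nf
  set k := ∑ i ∈ range (H.N l), G (patchAt (H.expand l (up hs (l + 1) x₀) 0) ((i : ℤ) • e))
  have h1 : ∀ x, posV hs (l + 1) x = 0 →
      ∑ i ∈ range (H.Q (l + 1)), c (H.sft.act ((i : ℤ) • e) x) = k := by
    intro x hx
    rw [hsum]
    refine (Finset.sum_congr rfl fun i hi => ?_).trans
      (hb l G _ _ (up_spec hs (l + 1) x).1 (up_spec hs (l + 1) x₀).1)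
    obtain ⟨a1, a2⟩ := child_data hs l hx (hin _ i (Finset.mem_range.1 hi))
    rw [← a2]
    exact Finset.sum_congr rfl fun t ht => hF t (Finset.mem_range.1 ht) _ a1
  intro x hx
  rw [hsum (l + 1) x, Finset.sum_congr rfl fun i hi =>
    h1 _ (child_data hs (l + 1) hx (hin _ i (Finset.mem_range.1 hi))).1,
    Finset.sum_const, Finset.card_range, nsmul_eq_mul, ZMod.natCast_eq_zero_iff_even.2 (heven _),
    zero_mul]

include hs in
/-- Cocycles modulo 2 are coboundaries. -/
theorem cocycles (heven : ∀ l, Even (H.N l)) (hb : H.Balanced) :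
    H.sft.CocyclesModTwoTrivial := by
  classical
  intro c₁ c₂ h1 h2 hcoc
  obtain ⟨m₁, hm₁⟩ := edge_zero hs heven h1 (1, 0) (Or.inl rfl) fun l F y y' hy hy' => by
    simpa using hb.row l F y y' hy hy'
  obtain ⟨m₂, hm₂⟩ := edge_zero hs heven h2 (0, 1) (Or.inr rfl) fun l F y y' hy hy' => by
    simpa using hb.col l F y y' hy hy'
  set m := max m₁ m₂ with hm
  have hE1 : ∀ y, posV hs m y = 0 →
      ∑ i ∈ range (H.Q m), c₁ (H.sft.act ((i : ℤ), 0) y) = 0 := fun y hy => by
    simpa using hm₁ m (le_max_left _ _) y hy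
  have hE2 : ∀ y, posV hs m y = 0 →
      ∑ j ∈ range (H.Q m), c₂ (H.sft.act (0, (j : ℤ)) y) = 0 := fun y hy => by
    simpa using hm₂ m (le_max_right _ _) y hy
  set g : H.sft.X → ZMod 2 := fun x => path c₁ c₂ (H.sft.act (-(posV hs m x)) x)
    (posV hs m x).1.toNat (posV hs m x).2.toNat with hg
  -- the value of `g` relative to any corner
  have hgc : ∀ y (a b : ℕ), posV hs m y = 0 → a < H.Q m → b < H.Q m →
      g (H.sft.act ((a : ℤ), (b : ℤ)) y) = path c₁ c₂ y a b := by
    intro y a b hy ha hb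
    have hp : InRange (H.Q m) ((a : ℤ), (b : ℤ)) := by simp [InRange, ha, hb]
    simp only [hg, (posV_act_eq_iff hs m hp y).2 hy, Amen.act_act, neg_add_cancel, Amen.act_zero,
      Int.toNat_natCast]
  have hcorner : ∀ x, ∃ y, ∃ a b : ℕ, posV hs m y = 0 ∧ a < H.Q m ∧ b < H.Q m ∧
      x = H.sft.act ((a : ℤ), (b : ℤ)) y := by
    intro x
    obtain ⟨b1, b2, b3, b4⟩ := (up_spec hs m x).2.1
    refine ⟨H.sft.act (-(posV hs m x)) x, (posV hs m x).1.toNat, (posV hs m x).2.toNat, ?_,
      by omega, by omega, ?_⟩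
    · rw [(up_act hs m _ x).1, neg_add_cancel]
      simp [vmod]
    · rw [Int.toNat_of_nonneg b1, Int.toNat_of_nonneg b3, Amen.act_act, add_neg_cancel,
        Amen.act_zero]
  have htile : ∀ y, posV hs m y = 0 →
      posV hs m (H.sft.act ((H.Q m : ℤ), 0) y) = 0 ∧
      posV hs m (H.sft.act (0, (H.Q m : ℤ)) y) = 0 := by
    intro y hy
    constructor <;>
    · rw [(up_act hs m _ y).1, hy, add_zero]
      simp [vmod]
  have hsq : ∀ y (a b : ℕ), path c₁ c₂ y (a + 1) b =
      path c₁ c₂ y a b + c₁ (H.sft.act ((a : ℤ), (b : ℤ)) y) := by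
    intro y a b
    have h := rect_sum hcoc (H.sft.act ((a : ℤ), 0) y) 1 b
    simp only [Finset.range_one, Finset.sum_singleton, Amen.act_act, Prod.mk_add_mk,
      Nat.cast_zero, Nat.cast_one, zero_add, add_zero, Finset.sum_add_distrib] at h
    simp only [path, Finset.sum_range_succ]
    push_cast
    rw [add_comm (a : ℤ) 1]
    revert h
    generalize ∑ i ∈ range a, c₁ (H.sft.act ((i : ℤ), 0) y) = u
    generalize c₁ (H.sft.act ((a : ℤ), (b : ℤ)) y) = v
    generalize c₁ (H.sft.act ((a : ℤ), 0) y) = w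
    generalize ∑ j ∈ range b, c₂ (H.sft.act ((1 : ℤ) + (a : ℤ), (j : ℤ)) y) = s
    generalize ∑ j ∈ range b, c₂ (H.sft.act ((a : ℤ), (j : ℤ)) y) = t
    revert u v w s t
    decide
  refine ⟨g, ?_, fun x => ?_, fun x => ?_⟩
  · have hpos : H.sft.IsLocal fun x => (posV hs m x) :=
      Amen.isLocal_comp (isLocal_lev hs m) Prod.fst
    have hfn : ∀ p : Fin (H.Q m) × Fin (H.Q m), H.sft.IsLocal fun x =>
        path c₁ c₂ (H.sft.act (-((p.1 : ℕ) : ℤ), -((p.2 : ℕ) : ℤ)) x) p.1 p.2 := by
      intro p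
      simp only [path]
      exact Amen.isLocal_comp₂
        (isLocal_sum (range (p.1 : ℕ)) fun i : ℕ => Amen.isLocal_act
          (Amen.isLocal_act h1 ((i : ℤ), 0)) (-((p.1 : ℕ) : ℤ), -((p.2 : ℕ) : ℤ)))
        (isLocal_sum (range (p.2 : ℕ)) fun j : ℕ => Amen.isLocal_act
          (Amen.isLocal_act h2 (((p.1 : ℕ) : ℤ), (j : ℤ))) (-((p.1 : ℕ) : ℤ), -((p.2 : ℕ) : ℤ)))
        (· + ·)
    have hQ := H.Q_pos m
    set key : V → Fin (H.Q m) × Fin (H.Q m) := fun p =>
      (⟨p.1.toNat % H.Q m, Nat.mod_lt _ hQ⟩, ⟨p.2.toNat % H.Q m, Nat.mod_lt _ hQ⟩)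
    refine (congrArg H.sft.IsLocal (funext fun x => ?_)).mp
      (Amen.isLocal_select (Amen.isLocal_comp hpos key) hfn)
    obtain ⟨b1, b2, b3, b4⟩ := (up_spec hs m x).2.1
    have k1 : (posV hs m x).1.toNat < H.Q m := by omega
    have k2 : (posV hs m x).2.toNat < H.Q m := by omega
    simp only [hg, key, Nat.mod_eq_of_lt k1, Nat.mod_eq_of_lt k2, Int.toNat_of_nonneg b1,
      Int.toNat_of_nonneg b3]
    rfl
  · obtain ⟨y, a, b, hy, ha, hb', rfl⟩ := hcorner x
    rw [Amen.act_act, hgc y a b hy ha hb', Prod.mk_add_mk, zero_add]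
    have h := hsq y a b
    by_cases hlt : a + 1 < H.Q m
    · rw [show ((1 : ℤ) + a, (b : ℤ)) = (((a + 1 : ℕ) : ℤ), (b : ℤ)) by push_cast; ring_nf,
        hgc y _ b hy hlt hb', h]
      generalize path c₁ c₂ y a b = u
      generalize c₁ _ = v
      revert u v
      decide
    · have hQ : a + 1 = H.Q m := by omega
      have h' := hgc _ 0 b (htile y hy).1 (H.Q_pos m) hb'
      simp only [Amen.act_act, Prod.mk_add_mk, Nat.cast_zero, zero_add, add_zero] at h'
      rw [show (1 : ℤ) + a = (H.Q m : ℤ) by omega, h']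
      rw [hQ] at h
      simp only [path, Finset.range_zero, Finset.sum_empty, Amen.act_act, Prod.mk_add_mk,
        Nat.cast_zero, zero_add, add_zero, hE1 y hy] at h ⊢
      revert h
      generalize c₁ _ = v
      generalize ∑ j ∈ range b, c₂ (H.sft.act ((H.Q m : ℤ), (j : ℤ)) y) = s
      generalize (∑ i ∈ range a, c₁ (H.sft.act ((i : ℤ), 0) y) +
        ∑ j ∈ range b, c₂ (H.sft.act ((a : ℤ), (j : ℤ)) y)) = u
      revert u v s
      decide
  · obtain ⟨y, a, b, hy, ha, hb', rfl⟩ := hcorner x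
    rw [Amen.act_act, hgc y a b hy ha hb', Prod.mk_add_mk, zero_add]
    have h : path c₁ c₂ y a (b + 1) = path c₁ c₂ y a b + c₂ (H.sft.act ((a : ℤ), (b : ℤ)) y) := by
      simp only [path, Finset.sum_range_succ, add_assoc]
    by_cases hlt : b + 1 < H.Q m
    · rw [show ((a : ℤ), (1 : ℤ) + b) = ((a : ℤ), ((b + 1 : ℕ) : ℤ)) by push_cast; ring_nf,
        hgc y a _ hy ha hlt, h]
      generalize path c₁ c₂ y a b = u
      generalize c₂ _ = v
      revert u v
      decide
    · have hQ : b + 1 = H.Q m := by omega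
      have h' := hgc _ a 0 (htile y hy).2 ha (H.Q_pos m)
      simp only [Amen.act_act, Prod.mk_add_mk, Nat.cast_zero, zero_add, add_zero] at h'
      rw [show (1 : ℤ) + b = (H.Q m : ℤ) by omega, h']
      rw [hQ] at h
      have hr := rect_sum hcoc y a (H.Q m)
      simp only [Finset.sum_add_distrib, hE2 y hy, add_zero] at hr
      simp only [path, Finset.range_zero, Finset.sum_empty, Amen.act_act, Prod.mk_add_mk,
        zero_add, add_zero] at h ⊢
      revert h hr
      generalize c₂ (H.sft.act ((a : ℤ), (b : ℤ)) y) = v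
      generalize ∑ i ∈ range a, c₁ (H.sft.act ((i : ℤ), (H.Q m : ℤ)) y) = w
      generalize ∑ i ∈ range a, c₁ (H.sft.act ((i : ℤ), 0) y) = u
      generalize ∑ j ∈ range (H.Q m), c₂ (H.sft.act ((a : ℤ), (j : ℤ)) y) = s
      generalize ∑ j ∈ range b, c₂ (H.sft.act ((a : ℤ), (j : ℤ)) y) = t
      revert v w u s t
      decide

end Cocycles

end Hier

end Vale.Agent.P196.Tile
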