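import Mathlib

/-!
P196, module D: the tile system.

Level `L`: numbers have `L` bits, `M = 2^L`, a half macro-tile has side `H = M^3` and a macro-tile
side `2*H`.  A coordinate is split as `low + M*mid + M^2*high`.  The state of a parent tile
(level `L+1`) is displayed bit by bit on the wire rows (`low = 0, mid = 1, high = k`) and on the
bundle columns (`low = 2*k`, `mid = 1`), which meet at `low x = 2 * high y`.  A tile shows the bits of its parent, of the parent on the left, of the
parent below and of the one below on the left; those of the parent on the left only up to the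
column `x = 7*M` of the right half, those of the parent below only up to the middle row
`high = M/2, mid = 2, low = 0` of the upper half.
-/

namespace Vale.Agent.P196.Tile

/-! ### Constants -/

/-- Number of wire rows carrying finite data. -/
def A : ℕ := 1024

/-- Bits of the `Fin` part. -/
def AF : ℕ := 900

/-- Bits queried in table columns. -/
def B : ℕ := 4 * A + 2

/-- Saturation bound for the high part of the vertical coordinate. -/
def YB : ℕ := A + 8 * (B + 2)

lemma exists_baseLevel : ∃ n : ℕ, 50000 ≤ n := ⟨50000, le_rfl⟩

/-- The least level used. It is kept opaque, so that huge powers are never evaluated. -/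
noncomputable def L₀ : ℕ := Classical.choose exists_baseLevel

lemma le_L₀ : 50000 ≤ L₀ := Classical.choose_spec exists_baseLevel

abbrev Quad := Fin 4 → Bool

/-- Own tile, left, below, below-left. -/
abbrev Quad4 (α : Type) := Fin 4 → α

/-! ### Finite data -/

/-- Finite predicates of the horizontal coordinate. -/
structure XClaims where
  xl0 : Bool
  xlTop : Bool
  xlEven : Bool
  /-- the low part is that of a table column -/
  xlSmall : Bool
  xmC : Fin 9
  xh0 : Bool
deriving DecidableEq, Fintype

/-- Finite predicates of the vertical coordinate. -/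
structure YClaims where
  yl0 : Bool
  ymC : Fin 4
  yhC : Fin (YB + 1)
  yhMod : Fin 8
  yhTop : Bool
  yhHalf : Bool
deriving DecidableEq, Fintype

/-- Finite predicates relating the coordinates, and of the counter. -/
structure MixClaims where
  diag : Bool
  q : Quad
  ql : Bool
  u0 : Bool
  u1 : Bool
deriving DecidableEq, Fintype

/-- Finite predicates of the numbers of one tile. -/
structure Claims where
  xk : Bool
  cx : XClaims
  cy : YClaims
  cm : MixClaims
deriving DecidableEq, Fintype

/-- Bitwise comparison of two numbers, least significant bit first. -/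
structure Cmp where
  eq : Bool
  inc : Bool
  carry : Bool
deriving DecidableEq, Fintype

def Cmp.init : Cmp := ⟨true, true, true⟩

/-- Feed bit `t` of the new number and bit `d` of the old one. -/
def Cmp.step (c : Cmp) (t d : Bool) : Cmp :=
  ⟨c.eq && (t == d), c.inc && (t == xor d c.carry), c.carry && d⟩

/-- `value = old + carry_in`, three parts, least significant first. -/
def incThree (a b c : Cmp) : Bool :=
  a.inc && (if a.carry then b.inc else b.eq) &&
    (if a.carry && b.carry then c.inc else c.eq)

/-- Saturating addition of `2^i` when `b`. -/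
def satAdd {n : ℕ} (acc : Fin (n + 1)) (i : ℕ) (b : Bool) : Fin (n + 1) :=
  if b then ⟨min (acc.val + 2 ^ min i (n + 1)) n, by omega⟩ else acc

/-- The comparisons with the tile below and with the tile on the left. -/
structure CmpAcc where
  xD : Fin 3 → Cmp
  xL : Fin 3 → Cmp
  yD : Fin 3 → Cmp
  yL : Fin 3 → Cmp
deriving DecidableEq, Fintype

/-- Comparisons of the counter with the tile below. -/
structure UAcc where
  uEq : Bool
  uDbl : Bool
  uPrev : Bool
deriving DecidableEq, Fintype

set_option synthInstance.maxSize 2000 in
/-- The state of the scanning column: copies of the claims of the own, left and lower tile, and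
the values recomputed from the numbers of the own tile. -/
structure Carry where
  copy : Fin 3 → Fin (2 ^ (A - 2 - AF))
  i : Fin (B + 2)
  cx : XClaims
  cy : YClaims
  cm : MixClaims
  /-- the previous bit of the high `Y` part, to be compared with the low `X` part -/
  yhBit : Bool
  cmp : CmpAcc
  cu : UAcc
deriving DecidableEq, Fintype

/-- The lookup state of a column of the second table zone: the parent's table value, a copy of its
claims, and the comparison of its low `X` part with the column. -/
structure Look where
  copy : Fin (2 ^ (A - 2 - AF))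
  vv : Bool
  eq : Bool
deriving DecidableEq, Fintype

set_option synthInstance.maxSize 2000 in
/-- The stored finite part of a state. -/
structure Fin' where
  qx : Option Bool
  qy : Option Bool
  h : Quad
  vb : Quad
  carry : Option Carry
  eq : Option Bool
  v : Bool
  look : Option Look
  /-- the row is a wire row in use -/
  live : Bool
deriving DecidableEq, Fintype

/-- A tile state. -/
structure St where
  xk : Bool
  x : ℕ
  y : ℕ
  u : ℕ
  fin : Fin'
deriving DecidableEq

/-! ### Numbers -/

def M (L : ℕ) : ℕ := 2 ^ L
def H (L : ℕ) : ℕ := M L ^ 3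
def side (L : ℕ) : ℕ := 2 * H L
def lo (L x : ℕ) : ℕ := x % M L
def mid (L x : ℕ) : ℕ := x / M L % M L
def hi (L x : ℕ) : ℕ := x / M L ^ 2

/-- Position in `Claims.q` and `Claims.ql`. -/
def lidx (yhC : ℕ) : ℕ := (yhC - A) / 8

/-- The claims of a state. -/
def claims (L : ℕ) (t : St) : Claims where
  xk := t.xk
  cx :=
    { xl0 := decide (lo L t.x = 0)
      xlTop := decide (lo L t.x = M L - 1)
      xlEven := decide (lo L t.x % 2 = 0)
      xlSmall := decide (lo L t.x % 4 = 2 ∧ 2 ^ (B - 1) ≤ lo L t.x ∧ lo L t.x < 2 ^ B)
      xmC := ⟨min (mid L t.x) 8, by omega⟩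
      xh0 := decide (hi L t.x = 0) }
  cy :=
    { yl0 := decide (lo L t.y = 0)
      ymC := ⟨min (mid L t.y) 3, by omega⟩
      yhC := ⟨min (hi L t.y) YB, by omega⟩
      yhMod := ⟨hi L t.y % 8, Nat.mod_lt _ (by norm_num)⟩
      yhTop := decide (hi L t.y = M L - 1)
      yhHalf := decide (hi L t.y = M L / 2) }
  cm :=
    { diag := decide (lo L t.x = 2 * hi L t.y)
      q := fun j => decide (min (hi L t.y) YB < A) &&
        (lo L t.x).testBit (4 * min (hi L t.y) YB + j.val + 2)
      ql := decide (A ≤ min (hi L t.y) YB) && decide (lidx (min (hi L t.y) YB) < B) &&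
        (lo L t.x).testBit (lidx (min (hi L t.y) YB))
      u0 := decide (t.u = 0)
      u1 := decide (t.u = 1) }

/-- A number encoding a finite value. -/
noncomputable def code {α : Type} [Fintype α] (a : α) : ℕ := (Fintype.equivFin α a).val

/-- The signature of a window. -/
abbrev Sig := Quad4 (Fin' × Claims)

def sig (L : ℕ) (w : Quad4 St) : Sig := fun j => ((w j).fin, claims L (w j))

/-- The fields of a finite part which have no row of their own. -/
abbrev Rest := Option Bool × Option Bool × Option Carry × Option Look × Bool

/-- The fields without a row of their own. -/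
def Fin'.rest (f : Fin') : Rest := (f.qx, f.qy, f.carry, f.look, f.live)

/-- The bits of a finite part and claims on rows `k < A`: the table bit, the four horizontal
bits, the four vertical bits, the two bits of the equality state, the other fields, the claims,
and two constant ones. -/
noncomputable def finBits (s : Fin' × Claims) (k : ℕ) : Bool :=
  if k = 0 then s.1.v
  else if k < 5 then s.1.h ⟨(k - 1) % 4, Nat.mod_lt _ (by norm_num)⟩
  else if k < 9 then s.1.vb ⟨(k - 5) % 4, Nat.mod_lt _ (by norm_num)⟩
  else if k = 9 then s.1.eq.isSome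
  else if k = 10 then decide (s.1.eq = some true)
  else if k < AF then (code s.1.rest).testBit (k - 11)
  else if k < A - 2 then (code s.2).testBit (k - AF)
  else decide (k < A)

/-- The number of type `τ` of a state with `L`-bit numbers. -/
def num (L : ℕ) (t : St) (τ : ℕ) : ℕ :=
  match τ with
  | 0 => lo L t.x
  | 1 => mid L t.x
  | 2 => hi L t.x
  | 3 => lo L t.y
  | 4 => mid L t.y
  | 5 => hi L t.y
  | 6 => t.u
  | _ => 0

/-- The bits displayed for a parent with `L'`-bit numbers. -/
noncomputable def enc (L' : ℕ) (t : St) (k : ℕ) : Bool :=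
  if k < A then finBits (t.fin, claims L' t) k
  else decide ((k - A) / 8 < L') && (num L' t ((k - A) % 8)).testBit ((k - A) / 8)

/-- The bits of a quadruple of parents. -/
noncomputable def quadBits (L' : ℕ) (w : Quad4 St) : ℕ → Quad := fun k j => enc L' (w j) k

/-! ### The scanning column -/

def Carry.init : Carry where
  copy := fun _ => 0
  i := 0
  cx := ⟨true, true, true, true, 0, true⟩
  cy := ⟨true, 0, 0, 0, true, false⟩
  cm := ⟨true, fun _ => false, false, true, true⟩
  yhBit := false
  cmp := ⟨fun _ => Cmp.init, fun _ => Cmp.init, fun _ => Cmp.init, fun _ => Cmp.init⟩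
  cu := ⟨true, true, false⟩

/-- The claims with the given code. -/
noncomputable def claimsOfCopy (c : ℕ) : Option Claims :=
  if h : c < Fintype.card Claims then some ((Fintype.equivFin Claims).symm ⟨c, h⟩) else none

/-- Read bit `n` of the claims of the own, left and lower tile. -/
def Carry.readClaim (c : Carry) (n : ℕ) (b : Quad) : Carry :=
  { c with copy := fun s => ⟨((c.copy s).val + if b s.castSucc then 2 ^ n else 0) %
      2 ^ (A - 2 - AF), Nat.mod_lt _ (Nat.two_pow_pos _)⟩ }

/-- Update one part of a comparison. -/
def cmpUpd (f : Fin 3 → Cmp) (p : Fin 3) (t d : Bool) : Fin 3 → Cmp :=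
  Function.update f p ((f p).step t d)

/-- Read the bit of the number of type `τ` at the current index. -/
noncomputable def Carry.readNum (c : Carry) (τ : Fin 8) (b : Quad) : Carry :=
  let i := c.i.val
  match τ with
  | 0 =>
    let k := (claimsOfCopy (c.copy 0).val).elim 0 (fun m => m.cy.yhC.val)
    { c with
      cx :=
        { c.cx with
          xl0 := c.cx.xl0 && !b 0
          xlTop := c.cx.xlTop && b 0
          xlEven := c.cx.xlEven && (decide (i ≠ 0) || !b 0)
          xlSmall := c.cx.xlSmall && (decide (i ≠ 0) || !b 0) && (decide (i ≠ 1) || b 0) &&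
            (decide (i < B) || !b 0) && (decide (i ≠ B - 1) || b 0) }
      cm :=
        { c.cm with
          diag := c.cm.diag && (c.yhBit == b 0)
          q := fun j => c.cm.q j ||
            (decide (k < A) && decide (i = 4 * k + j.val + 2) && b 0)
          ql := c.cm.ql ||
            (decide (A ≤ k) && decide (lidx k < B) && decide (i = lidx k) && b 0) }
      cmp :=
        { c.cmp with xD := cmpUpd c.cmp.xD 0 (b 0) (b 2), xL := cmpUpd c.cmp.xL 0 (b 0) (b 1) } }
  | 1 =>
    { c with
      cx := { c.cx with xmC := satAdd (n := 8) c.cx.xmC i (b 0) }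
      cmp :=
        { c.cmp with xD := cmpUpd c.cmp.xD 1 (b 0) (b 2), xL := cmpUpd c.cmp.xL 1 (b 0) (b 1) } }
  | 2 =>
    { c with
      cx := { c.cx with xh0 := c.cx.xh0 && !b 0 }
      cmp :=
        { c.cmp with xD := cmpUpd c.cmp.xD 2 (b 0) (b 2), xL := cmpUpd c.cmp.xL 2 (b 0) (b 1) } }
  | 3 =>
    { c with
      cy := { c.cy with yl0 := c.cy.yl0 && !b 0 }
      cmp :=
        { c.cmp with yD := cmpUpd c.cmp.yD 0 (b 0) (b 2), yL := cmpUpd c.cmp.yL 0 (b 0) (b 1) } }
  | 4 =>
    { c with
      cy := { c.cy with ymC := satAdd (n := 3) c.cy.ymC i (b 0) }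
      cmp :=
        { c.cmp with yD := cmpUpd c.cmp.yD 1 (b 0) (b 2), yL := cmpUpd c.cmp.yL 1 (b 0) (b 1) } }
  | 5 =>
    { c with
      cy :=
        { c.cy with
          yhC := satAdd c.cy.yhC i (b 0)
          yhMod := if i < 3 then satAdd (n := 7) c.cy.yhMod i (b 0) else c.cy.yhMod
          yhTop := c.cy.yhTop && b 0
          yhHalf := decide (c.cy.yhC.val = 0) && b 0 }
      yhBit := b 0
      cmp :=
        { c.cmp with yD := cmpUpd c.cmp.yD 2 (b 0) (b 2), yL := cmpUpd c.cmp.yL 2 (b 0) (b 1) } }
  | 6 =>
    { c with
      cm := { c.cm with u0 := c.cm.u0 && !b 0, u1 := c.cm.u1 && (b 0 == decide (i = 0)) }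
      cu :=
        { uEq := c.cu.uEq && (b 0 == b 2)
          uDbl := c.cu.uDbl && (b 0 == c.cu.uPrev)
          uPrev := b 2 } }
  | _ => { c with i := ⟨min (i + 1) (B + 1), by omega⟩ }

/-- The transition at row `k`. -/
noncomputable def Carry.step (c : Carry) (k : ℕ) (b : ℕ → Quad) : Carry :=
  if k < AF then c
  else if k < A - 2 then c.readClaim (k - AF) (b k)
  else if k < A then c
  else c.readNum ⟨(k - A) % 8, Nat.mod_lt _ (by norm_num)⟩ (b k)

/-- The state after the rows `0, …, k`. -/
noncomputable def scan (b : ℕ → Quad) : ℕ → Carry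
  | 0 => Carry.init.step 0 b
  | k + 1 => (scan b k).step (k + 1) b

/-! ### The child at a position -/

/-- The last wire row in use. -/
def lastK (L : ℕ) : ℕ := A + 8 * L + 7

/-- Greatest `k` with wire row `k` at height at most `y` (for `M ≤ y`). -/
def rowIdx (L y : ℕ) : ℕ := (y - M L) / M L ^ 2

def IsWire (L y : ℕ) : Prop := lo L y = 0 ∧ mid L y = 1

instance (L y : ℕ) : Decidable (IsWire L y) := by unfold IsWire; infer_instance

/-- Number of wire rows strictly below `y`. -/
def rowsBelow (L y : ℕ) : ℕ :=
  if y < M L then 0 else if IsWire L y then rowIdx L y else rowIdx L y + 1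

/-- A column of the band with the given middle part. -/
def IsCol (L x m : ℕ) : Prop := hi L x = 0 ∧ mid L x = m

instance (L x m : ℕ) : Decidable (IsCol L x m) := by unfold IsCol; infer_instance

/-- Table columns: the low parts below `2 ^ B` with last two bits `10` and top table bit `B - 1`
(a constant row) set. So changing the other bits moves neither the last bits of the two
neighbouring columns, nor the column out of the zone. -/
def IsZone (L x m : ℕ) : Prop :=
  IsCol L x m ∧ lo L x % 4 = 2 ∧ 2 ^ (B - 1) ≤ lo L x ∧ lo L x < 2 ^ B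

instance (L x m : ℕ) : Decidable (IsZone L x m) := by unfold IsZone; infer_instance

/-- A wire row in use. -/
def IsLive (L y : ℕ) : Prop := IsWire L y ∧ hi L y ≤ lastK L

instance (L y : ℕ) : Decidable (IsLive L y) := by unfold IsLive; infer_instance

/-- `X` is known on row `0`, in the band and on the wire rows in use. -/
def knownX (L x y : ℕ) : Bool :=
  decide (y = 0) || (decide (hi L x = 0) && decide (mid L x ≤ 7)) || decide (IsLive L y)

/-- The columns of the bundle: the bit `k` is on the column with low part `2*k`. -/
def IsBundle (L x : ℕ) : Prop := IsCol L x 1 ∧ lo L x % 2 = 0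

instance (L x : ℕ) : Decidable (IsBundle L x) := by unfold IsBundle; infer_instance

/-- The middle row storing the vertical half. -/
def IsHalfRow (L y : ℕ) : Prop := lo L y = 0 ∧ mid L y = 2 ∧ hi L y = M L / 2

instance (L y : ℕ) : Decidable (IsHalfRow L y) := by unfold IsHalfRow; infer_instance

/-- The height of the middle row. -/
def halfY (L : ℕ) : ℕ := M L / 2 * M L ^ 2 + 2 * M L

/-- The last column showing the bits of the parent on the left in the right half. -/
def cutX (L : ℕ) : ℕ := 7 * M L

/-- The colour (below all wires) of the bit `k`. -/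
noncomputable def zoneMatch (L x k : ℕ) (b : ℕ → Quad) : Bool :=
  decide (∀ j : Fin 4, b k j = (lo L x).testBit (4 * k + j.val + 2))

/-- The row in which the bit `i` of the low `X` part of the parent is displayed. -/
def xlRow (i : ℕ) : ℕ := A + 8 * i

/-- Lookup state before processing row `n`. -/
noncomputable def lookAt (L x n : ℕ) (b : ℕ → Quad) : Look where
  copy := ⟨(∑ m ∈ Finset.range (min (n - AF) (A - 2 - AF)),
      if b (AF + m) 0 then 2 ^ m else 0) % 2 ^ (A - 2 - AF), Nat.mod_lt _ (Nat.two_pow_pos _)⟩
  vv := decide (0 < n) && b 0 0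
  eq := decide (∀ i < B, xlRow i < n → b (xlRow i) 0 = (lo L x).testBit i)

/-- Is the claim record that of a tile storing the table value: a table column of the second zone,
or of the first zone above the compared rows? -/
def Claims.zone (c : Claims) : Bool :=
  c.xk && c.cx.xh0 && c.cx.xlEven && c.cx.xlSmall &&
    ((decide (c.cx.xmC.val = 4) && decide (A - 1 ≤ c.cy.yhC.val)) || decide (c.cx.xmC.val = 6))

/-- The claims held by a lookup state. -/
noncomputable def Look.claims (l : Look) : Option Claims := claimsOfCopy l.copy.val

/-- The child at `(X, Y)` of a parent with bits `b`, given the table column value `τ`. -/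
noncomputable def child (L : ℕ) (τ : ℕ → Bool) (b : ℕ → Quad) (X Y : ℕ) : St :=
  let x := X % H L
  let y := Y % H L
  let qx := decide (H L ≤ X)
  let qy := decide (H L ≤ Y)
  let k := rowIdx L y
  { xk := knownX L x y
    x := if knownX L x y then x else 0
    y := y
    u := if IsCol L x 3 ∧ lo L x = 0 ∧ M L ≤ y ∧ A ≤ k then 2 ^ ((k - A) / 8) % M L else 0
    fin :=
      { qx := if x = 0 ∨ (IsCol L x 7 ∧ lo L x = 0) ∨ (lo L y = 0 ∧ mid L y = 2 ∧ hi L y = 0)
          then some qx else none
        qy := if y = 0 ∨ (IsCol L x 2 ∧ lo L x = 0) ∨ IsHalfRow L y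
          then some qy else none
        h := fun j =>
          if IsWire L y ∧ hi L y ≤ lastK L ∧ (x = 0 → qx = false → (j = 1 ∨ j = 3)) ∧
            (qx = true → cutX L < x → (j = 0 ∨ j = 2))
          then b (hi L y) j else false
        vb := fun j =>
          if IsBundle L x ∧ lo L x / 2 ≤ lastK L ∧ (y = 0 → qy = false → (j = 2 ∨ j = 3)) ∧
            (qy = true → halfY L < y → (j = 0 ∨ j = 1))
          then b (lo L x / 2) j else false
        carry :=
          if IsCol L x 3 ∧ lo L x = 0 ∧ M L ≤ y ∧ AF ≤ k ∧ k ≤ lastK L
          then some (scan b k) else none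
        eq :=
          if IsZone L x 4 ∧ M L ≤ y ∧ rowsBelow L y ≤ A - 1
          then some (decide (∀ k' < rowsBelow L y, zoneMatch L x k' b = true)) else none
        v := if (IsZone L x 4 ∧ A - 1 ≤ hi L y) ∨ IsZone L x 6 then τ (lo L x) else false
        look :=
          if IsZone L x 6 ∧ M L ≤ y ∧ rowsBelow L y ≤ xlRow (B - 1)
          then some (lookAt L x (rowsBelow L y) b)
          else none
        live := decide (IsLive L y) } }

/-- The position left of `X`. -/
def pred' (L X : ℕ) : ℕ := (X + side L - 1) % side L

/-- The bits shown by the tiles of a window that lie in the parent to the right of or above the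
parent with bits `b`; only their guest bits are visible. -/
def guestBits (right up : Bool) (b : ℕ → Quad) : ℕ → Quad := fun k j =>
  match j with
  | 0 => if right || up then false else b k 0
  | 1 => if up then false else if right then b k 0 else b k 1
  | 2 => if right then false else if up then b k 0 else b k 2
  | _ => if right && up then b k 0 else if right then b k 2 else if up then b k 1 else b k 3

/-- The window with upper right tile at `(X, Y)`; `b` are the bits of the parent of its lower left
tile. -/
noncomputable def window (L : ℕ) (τ : ℕ → Bool) (b : ℕ → Quad) (X Y : ℕ) : Quad4 St :=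
  fun j =>
    let dx : Bool := decide (j = 1 ∨ j = 3)
    let dy : Bool := decide (j = 2 ∨ j = 3)
    let X' := if dx then pred' L X else X
    let Y' := if dy then pred' L Y else Y
    child L τ (guestBits (decide (X = 0) && !dx) (decide (Y = 0) && !dy) b) X' Y'

/-- The input of the table read on column `xl`. -/
noncomputable def tableInput (s : Sig) (xl : ℕ) : Prop :=
  ∀ k < A, ∀ j : Fin 4, finBits (s j) k = xl.testBit (4 * k + j.val + 2)

/-- The window is made of children. -/
def Shape (s : Sig) : Prop :=
  ∃ (L : ℕ) (τ : ℕ → Bool) (b : ℕ → Quad) (X Y : ℕ),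
    L₀ ≤ L ∧ X < side L ∧ Y < side L ∧ sig L (window L τ b X Y) = s

/-- The claims are those of a wire row. -/
def Claims.isWire (c : Claims) : Bool := c.cy.yl0 && decide (c.cy.ymC.val = 1)

/-- The claims of the column `x = 3*M`. -/
def Claims.isScan (c : Claims) : Bool :=
  c.xk && c.cx.xh0 && c.cx.xl0 && decide (c.cx.xmC.val = 3)

/-- The claims of the row `y = 0`. -/
def Claims.isY0 (c : Claims) : Bool :=
  c.cy.yl0 && decide (c.cy.ymC.val = 0) && decide (c.cy.yhC.val = 0)

/-- Three parts are equal. -/
def eqThree (f : Fin 3 → Cmp) : Bool := (f 0).eq && (f 1).eq && (f 2).eq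

/-- The final state of the scanning column: the recomputed claims are the copied ones, and the
numbers of the parent satisfy the relations with its neighbours on the left and below. -/
def Carry.endOK (c : Carry) : Prop :=
  ∃ m₀ m₁ m₂ : Claims,
    claimsOfCopy (c.copy 0).val = some m₀ ∧ claimsOfCopy (c.copy 1).val = some m₁ ∧
    claimsOfCopy (c.copy 2).val = some m₂ ∧
    m₀.cx = c.cx ∧ m₀.cy = c.cy ∧ m₀.cm = { c.cm with diag := c.cm.diag && !c.yhBit } ∧
    (m₀.xk = false → (c.cx.xl0 = true ∧ c.cx.xh0 = true ∧ c.cx.xmC.val = 0)) ∧
    incThree (c.cmp.yD 0) (c.cmp.yD 1) (c.cmp.yD 2) = true ∧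
    (m₀.xk = true → m₂.xk = true → eqThree c.cmp.xD = true) ∧
    eqThree c.cmp.yL = true ∧
    (m₀.xk = true → m₁.xk = true →
      incThree (c.cmp.xL 0) (c.cmp.xL 1) (c.cmp.xL 2) = true) ∧
    (if m₀.isScan && !m₀.isY0 && decide (A ≤ m₀.cy.yhC.val) then
      (if m₀.isWire && decide (m₀.cy.yhMod.val = 0) then
        (if m₀.cy.yhC.val = A then c.cm.u1 = true else c.cu.uDbl = true)
       else c.cu.uEq = true)
     else c.cm.u0 = true)

/-- The checks made on a tile and the tile below it. -/
def AcceptPair (t d : Fin' × Claims) : Prop :=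
  (∀ c, d.1.carry = some c → t.1.carry = none → c.endOK) ∧
  (d.2.isWire = true → d.1.eq = some true → t.1.eq = none → d.1.h = d.2.cm.q →
    t.1.v = true) ∧
  (∀ l m, d.2.isWire = true → d.1.look = some l → t.1.look = none → l.eq = true →
    d.1.h 0 = d.2.cm.ql → l.claims = some m → m.zone = true → t.1.v = l.vv)

/-- The spare rows of the numbers are empty, and the last constant row is one where it meets its
column of the bundle. -/
def SpareOK (t : Fin' × Claims) : Prop :=
  (t.2.isWire = true → A ≤ t.2.cy.yhC.val → t.2.cy.yhMod.val = 7 → ∀ j, t.1.h j = false) ∧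
  (t.2.isWire = true → t.2.cy.yhC.val = A - 1 →
    (t.2.xk && t.2.cx.xh0 && t.2.cx.xlEven && decide (t.2.cx.xmC.val = 1)) = true →
    t.2.cm.diag = true → ∀ j, t.1.h j = true)

/-- The checks made in a window. -/
def Accept (s : Sig) : Prop :=
  AcceptPair (s 0) (s 2) ∧ AcceptPair (s 1) (s 3) ∧ ∀ j, SpareOK (s j)

/-- The signatures accepted by the table. -/
def InS (s : Sig) : Prop := Shape s ∧ Accept s

/-- The table. -/
noncomputable def table (xl : ℕ) : Bool :=
  haveI := Classical.propDecidable (∃ s, InS s ∧ tableInput s xl)
  decide (∃ s, InS s ∧ tableInput s xl)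

/-- The numerical relations between a tile and the tile below it. -/
def VertNum (L : ℕ) (T D : St) : Prop :=
  T.y = (D.y + 1) % H L ∧ (T.xk = true → D.xk = true → T.x = D.x)

/-- The numerical relations between a tile and the tile on its left. -/
def HorNum (L : ℕ) (T Lf : St) : Prop :=
  T.y = Lf.y ∧ (T.xk = true → Lf.xk = true → T.x = (Lf.x + 1) % H L)

/-- Evolution of the counter of the scanning column. -/
def CounterNum (L : ℕ) (T D : St) : Prop :=
  let c := claims L T
  if c.xk && c.cx.xh0 && c.cx.xl0 && decide (c.cx.xmC.val = 3) && !(decide (T.y = 0)) &&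
      decide (A ≤ c.cy.yhC.val) then
    (if c.cy.yl0 && decide (c.cy.ymC.val = 1) && decide (c.cy.yhMod.val = 0) then
      (if c.cy.yhC.val = A then T.u = 1 else T.u = 2 * D.u % M L)
     else T.u = D.u)
  else T.u = 0

/-- The local rule at level `L`. -/
def Rule (L : ℕ) (w : Quad4 St) : Prop :=
  (∀ j, (w j).x < H L ∧ (w j).y < H L ∧ (w j).u < M L ∧ ((w j).xk = false → (w j).x = 0)) ∧
  VertNum L (w 0) (w 2) ∧ VertNum L (w 1) (w 3) ∧
  HorNum L (w 0) (w 1) ∧ HorNum L (w 2) (w 3) ∧
  CounterNum L (w 0) (w 2) ∧ CounterNum L (w 1) (w 3) ∧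
  InS (sig L w)

/-- The table values of the zone tiles are correct. -/
def TableOK (L : ℕ) (w : Quad4 St) : Prop :=
  ∀ j, (claims L (w j)).zone = true → (w j).fin.v = table (lo L (w j).x)

/-- A valid window. -/
def Valid (L : ℕ) (w : Quad4 St) : Prop := Rule L w ∧ TableOK L w

/-- A tiling by states of level `L` all of whose windows are valid; the state at `p` is the upper
right tile of its window. -/
def ValidTiling (L : ℕ) (c : ℤ × ℤ → St) : Prop :=
  ∀ p : ℤ × ℤ,
    Valid L (fun j => c (if j = 1 ∨ j = 3 then p.1 - 1 else p.1,
      if j = 2 ∨ j = 3 then p.2 - 1 else p.2))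

end Vale.Agent.P196.Tile
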