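import Vale.Agent.P196.Tile.Scan

/-!
P196, module D: at its last row the scanning column accepts exactly the numbers satisfying the
local rules of the parent with its left and lower neighbours, with correctly copied claims.
-/

namespace Vale.Agent.P196.Tile.Scanning

open Vale.Agent.P196.Tile.Num

/-- The numbers of three tiles. -/
def numsOf (L' : ℕ) (q : Quad4 St) : Fin 3 → ℕ → ℕ := fun s τ => num L' (q s.castSucc) τ

/-- A number within bounds. -/
def Bounded (L' : ℕ) (t : St) : Prop := t.x < H L' ∧ t.y < H L' ∧ t.u < M L'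

lemma num_lt {L' : ℕ} {t : St} (h : Bounded L' t) (τ : ℕ) : num L' t τ < 2 ^ L' := by
  have hM : 0 < M L' := M_pos L'
  match τ with
  | 0 => exact lo_lt L' _
  | 1 => exact mid_lt L' _
  | 2 => exact hi_lt h.1
  | 3 => exact lo_lt L' _
  | 4 => exact mid_lt L' _
  | 5 => exact hi_lt h.2.1
  | 6 => exact h.2.2
  | n + 7 => exact hM

lemma cmpPre_top {t d n : ℕ} (ht : t < 2 ^ n) (hd : d < 2 ^ n) :
    cmpPre t d n = ⟨decide (t = d), decide (t = (d + 1) % 2 ^ n), decide (d = 2 ^ n - 1)⟩ := by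
  simp only [cmpPre, Nat.mod_eq_of_lt ht, Nat.mod_eq_of_lt hd]

lemma eqThree_iff {L' t d : ℕ} (ht : t < H L') (hd : d < H L') :
    ((cmpPre (lo L' t) (lo L' d) L').eq && (cmpPre (mid L' t) (mid L' d) L').eq &&
      (cmpPre (hi L' t) (hi L' d) L').eq) = true ↔ t = d := by
  have lt := @lo_lt L'
  have mt := @mid_lt L'
  rw [cmpPre_top (lt t) (lt d), cmpPre_top (mt t) (mt d), cmpPre_top (hi_lt ht) (hi_lt hd),
    eq_iff_parts L' t d]
  simp only [Bool.and_eq_true, decide_eq_true_eq, and_assoc]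

lemma incThree_iff {L' t d : ℕ} (ht : t < H L') (hd : d < H L') :
    incThree (cmpPre (lo L' t) (lo L' d) L') (cmpPre (mid L' t) (mid L' d) L')
      (cmpPre (hi L' t) (hi L' d) L') = true ↔ t = (d + 1) % H L' := by
  have lt := @lo_lt L'
  have mt := @mid_lt L'
  obtain ⟨e1, e2, e3⟩ := succ_parts_mod L' d
  rw [cmpPre_top (lt t) (lt d), cmpPre_top (mt t) (mt d), cmpPre_top (hi_lt ht) (hi_lt hd),
    eq_iff_parts L' t ((d + 1) % H L'), ← e1, e2, e3 hd]
  simp only [incThree, show (2 : ℕ) ^ L' = M L' from rfl]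
  by_cases h1 : lo L' d = M L' - 1
  · by_cases h2 : mid L' d = M L' - 1
    · simp [h1, h2, and_assoc]
    · simp [h1, h2, and_assoc]
  · simp [h1, and_assoc]

lemma isY0_claims (L' : ℕ) (t : St) : (claims L' t).isY0 = decide (t.y = 0) := by
  have hY : 0 < YB := by unfold YB; omega
  have h : t.y = 0 ↔ lo L' t.y = 0 ∧ mid L' t.y = 0 ∧ hi L' t.y = 0 := by
    rw [eq_iff_parts L' t.y 0, lo_zero, mid_zero, hi_zero]
  rw [Bool.eq_iff_iff, decide_eq_true_iff, h]
  simp only [Claims.isY0, Bool.and_eq_true, decide_eq_true_iff, and_assoc]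
  simp only [claims, decide_eq_true_iff]
  clear h
  refine and_congr Iff.rfl (and_congr ?_ ?_) <;> omega

lemma diag_last {a h n : ℕ} (hn : 0 < n) (ha : a < 2 ^ n) (hh : h < 2 ^ n) :
    (decide (a % 2 ^ n = 2 * h % 2 ^ n) && !(2 * h).testBit n) = decide (a = 2 * h) := by
  obtain ⟨i, rfl⟩ : ∃ i, n = i + 1 := ⟨n - 1, by omega⟩
  rw [Nat.mod_eq_of_lt ha, testBit_two_mul_succ, pow_succ] at *
  by_cases hb : h < 2 ^ i
  · rw [Nat.testBit_lt_two_pow hb, Nat.mod_eq_of_lt (show 2 * h < 2 ^ i * 2 by omega)]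
    simp
  · have : h.testBit i = true := by
      rw [Nat.testBit_eq_decide_div_mod_eq]
      have : h / 2 ^ i = 1 := Nat.div_eq_of_lt_le (by omega) (by omega)
      simp [this]
    rw [this]
    simp
    omega

variable {L : ℕ} {b : ℕ → Quad} {q : Quad4 St} {m : Fin 3 → Claims}

lemma claims_copy (s : Fin 3) :
    claimsOfCopy (copyPre (fun s => code (m s)) (A - 2 - AF) s).val = some (m s) := by
  have h := code_claims_lt (m s)
  show claimsOfCopy (code (m s) % 2 ^ (A - 2 - AF) % 2 ^ (A - 2 - AF)) = _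
  rw [Nat.mod_eq_of_lt h, Nat.mod_eq_of_lt h, claimsOfCopy_code]

lemma copyK_eq : copyK (fun s => code (m s)) = (m 0).cy.yhC.val := by
  rw [copyK, claims_copy]
  rfl

lemma zone_last {n x : ℕ} (hB : B ≤ n) :
    ((0 < n → x.testBit 0 = false) ∧ (1 < n → x.testBit 1 = true) ∧ x < 2 ^ B ∧
      (B - 1 < n → x.testBit (B - 1) = true)) ↔
    x % 4 = 2 ∧ 2 ^ (B - 1) ≤ x ∧ x < 2 ^ B := by
  have hB2 : 2 ≤ B := by unfold B; omega
  obtain ⟨m, hm⟩ : ∃ m, B = m + 1 := ⟨B - 1, by omega⟩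
  simp only [show (0 < n) = True from eq_true (by omega), show (1 < n) = True from eq_true (by omega),
    show (B - 1 < n) = True from eq_true (by omega), true_implies]
  rw [hm] at hB2 ⊢
  rw [Nat.add_sub_cancel]
  have e0 : x.testBit 0 = decide (x % 2 = 1) := Nat.testBit_zero _
  have e1 : x.testBit 1 = decide (x / 2 % 2 = 1) := by
    rw [Nat.testBit_succ, Nat.testBit_zero]
  constructor
  · rintro ⟨h0, h1, h2, h3⟩
    rw [e0, decide_eq_false_iff_not] at h0
    rw [e1, decide_eq_true_iff] at h1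
    exact ⟨by omega, Nat.ge_two_pow_of_testBit h3, h2⟩
  · rintro ⟨h0, h1, h2⟩
    refine ⟨by rw [e0]; simp; omega, by rw [e1]; simp; omega, h2, ?_⟩
    rw [Nat.testBit_eq_decide_div_mod_eq]
    have : x / 2 ^ m = 1 := Nat.div_eq_of_lt_le (by rw [pow_succ] at h2; omega)
      (by rw [pow_succ] at h2; omega)
    simp [this]

lemma pre_cx (hL : L₀ ≤ L) (h : Bounded (L + 1) (q 0)) (K : Fin 3 → ℕ) :
    (pre (numsOf (L + 1) q) K (L + 1)).cx = (claims (L + 1) (q 0)).cx := by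
  simp only [pre, claims, numsOf, Fin.castSucc_zero, Nat.mod_eq_of_lt (num_lt h _)]
  simp only [zone_last (show B ≤ L + 1 by have := le_L₀.trans hL; unfold B A; omega)]
  rfl

lemma pre_cy (h : Bounded (L + 1) (q 0)) (K : Fin 3 → ℕ) :
    (pre (numsOf (L + 1) q) K (L + 1)).cy = (claims (L + 1) (q 0)).cy := by
  simp only [pre, claims, numsOf, Fin.castSucc_zero, Nat.mod_eq_of_lt (num_lt h _),
    Nat.succ_pos, decide_true, Bool.true_and]
  rfl

lemma pre_cm (h : Bounded (L + 1) (q 0)) (K : Fin 3 → ℕ)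
    (hk : copyK K = (claims (L + 1) (q 0)).cy.yhC.val) :
    ({ (pre (numsOf (L + 1) q) K (L + 1)).cm with
      diag := (pre (numsOf (L + 1) q) K (L + 1)).cm.diag &&
        !(pre (numsOf (L + 1) q) K (L + 1)).yhBit } : MixClaims) =
      (claims (L + 1) (q 0)).cm := by
  have hd := diag_last (n := L + 1) (Nat.succ_pos L) (num_lt h 0) (num_lt h 5)
  have e0 := Nat.mod_eq_of_lt (num_lt h 0)
  have e6 := Nat.mod_eq_of_lt (num_lt h 6)
  have h1M : (1 : ℕ) % 2 ^ (L + 1) = 1 :=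
    Nat.mod_eq_of_lt (Nat.one_lt_two_pow (Nat.succ_ne_zero L))
  simp only [pre, hk, claims, MixClaims.mk.injEq]
  refine ⟨hd, ?_, ?_, ?_, ?_⟩
  · funext j
    exact congrArg (fun a : ℕ => _ && a.testBit _) e0
  · exact congrArg (fun a : ℕ => _ && a.testBit _) e0
  · exact congrArg (fun a : ℕ => decide (a = 0)) e6
  · exact congrArg₂ (fun a c : ℕ => decide (a = c)) e6 h1M

/-- The check at the last row is the numerical rule of the parent. -/
theorem endOK_iff (hL : L₀ ≤ L) (hr : Reads L b (numsOf (L + 1) q) fun s => code (m s))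
    (hq : ∀ s : Fin 3, Bounded (L + 1) (q s.castSucc))
    (hxk : ∀ s : Fin 3, (m s).xk = (q s.castSucc).xk) :
    (scan b (lastK L)).endOK ↔
      m 0 = claims (L + 1) (q 0) ∧ ((q 0).xk = false → (q 0).x = 0) ∧
        VertNum (L + 1) (q 0) (q 2) ∧ HorNum (L + 1) (q 0) (q 1) ∧
        CounterNum (L + 1) (q 0) (q 2) := by
  rw [scan_lastK hr]
  set K : Fin 3 → ℕ := fun s => code (m s) with hK
  have b0 : Bounded (L + 1) (q 0) := hq 0
  have b1 : Bounded (L + 1) (q 1) := hq 1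
  have b2 : Bounded (L + 1) (q 2) := hq 2
  have x0 : (m 0).xk = (q 0).xk := hxk 0
  have x1 : (m 1).xk = (q 1).xk := hxk 1
  have x2 : (m 2).xk = (q 2).xk := hxk 2
  set c := pre (numsOf (L + 1) q) K (L + 1) with hc
  have hcopy : ∀ s, claimsOfCopy (c.copy s).val = some (m s) := fun s => claims_copy s
  have eyD : incThree (c.cmp.yD 0) (c.cmp.yD 1) (c.cmp.yD 2) = true ↔
      (q 0).y = ((q 2).y + 1) % H (L + 1) := incThree_iff b0.2.1 b2.2.1
  have exL : incThree (c.cmp.xL 0) (c.cmp.xL 1) (c.cmp.xL 2) = true ↔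
      (q 0).x = ((q 1).x + 1) % H (L + 1) := incThree_iff b0.1 b1.1
  have exD : eqThree c.cmp.xD = true ↔ (q 0).x = (q 2).x := eqThree_iff b0.1 b2.1
  have eyL : eqThree c.cmp.yL = true ↔ (q 0).y = (q 1).y := eqThree_iff b0.2.1 b1.2.1
  have ex0 : (c.cx.xl0 = true ∧ c.cx.xh0 = true ∧ c.cx.xmC.val = 0) ↔ (q 0).x = 0 := by
    rw [hc, pre_cx hL b0, eq_iff_parts (L + 1) (q 0).x 0, lo_zero, mid_zero, hi_zero]
    simp only [claims, decide_eq_true_iff]
    constructor <;> rintro ⟨h1, h2, h3⟩ <;> refine ⟨h1, ?_, ?_⟩ <;> omega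
  have hu : (q 0).u < 2 ^ (L + 1) := b0.2.2
  have hu2 : (q 2).u < 2 ^ (L + 1) := b2.2.2
  have h1M : (1 : ℕ) % 2 ^ (L + 1) = 1 :=
    Nat.mod_eq_of_lt (Nat.one_lt_two_pow (Nat.succ_ne_zero L))
  have eu0 : c.cm.u0 = true ↔ (q 0).u = 0 := by
    show decide ((q 0).u % 2 ^ (L + 1) = 0) = true ↔ _
    rw [decide_eq_true_iff, Nat.mod_eq_of_lt hu]
  have eu1 : c.cm.u1 = true ↔ (q 0).u = 1 := by
    show decide ((q 0).u % 2 ^ (L + 1) = 1 % 2 ^ (L + 1)) = true ↔ _
    rw [decide_eq_true_iff, Nat.mod_eq_of_lt hu, h1M]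
  have euE : c.cu.uEq = true ↔ (q 0).u = (q 2).u := by
    show decide ((q 0).u % 2 ^ (L + 1) = (q 2).u % 2 ^ (L + 1)) = true ↔ _
    rw [decide_eq_true_iff, Nat.mod_eq_of_lt hu, Nat.mod_eq_of_lt hu2]
  have euD : c.cu.uDbl = true ↔ (q 0).u = 2 * (q 2).u % M (L + 1) := by
    show decide ((q 0).u % 2 ^ (L + 1) = 2 * (q 2).u % 2 ^ (L + 1)) = true ↔ _
    rw [decide_eq_true_iff, Nat.mod_eq_of_lt hu]
    rfl
  have core : m 0 = claims (L + 1) (q 0) →
      ((if (m 0).isScan && !(m 0).isY0 && decide (A ≤ (m 0).cy.yhC.val) then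
        (if (m 0).isWire && decide ((m 0).cy.yhMod.val = 0) then
          (if (m 0).cy.yhC.val = A then c.cm.u1 = true else c.cu.uDbl = true)
         else c.cu.uEq = true)
       else c.cm.u0 = true) ↔ CounterNum (L + 1) (q 0) (q 2)) := by
    intro hm
    rw [hm, CounterNum, isY0_claims]
    simp only [Claims.isScan, Claims.isWire]
    split_ifs <;> simp_all
  constructor
  · rintro ⟨m0, m1, m2, h0, h1, h2, hcx, hcy, hcm, hx, hyD, hxD, hyL, hxL, hu'⟩
    rw [hcopy] at h0 h1 h2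
    obtain rfl := Option.some.inj h0
    obtain rfl := Option.some.inj h1
    obtain rfl := Option.some.inj h2
    have hk : copyK K = (claims (L + 1) (q 0)).cy.yhC.val := by
      rw [hK, copyK_eq, hcy, hc, pre_cy b0]
    have hm : m 0 = claims (L + 1) (q 0) := by
      have e : m 0 = ⟨(m 0).xk, (m 0).cx, (m 0).cy, (m 0).cm⟩ := rfl
      rw [e, hcx, hcy, hcm, hc, pre_cx hL b0, pre_cy b0, pre_cm b0 K hk, x0]
      rfl
    exact ⟨hm, fun h => ex0.1 (hx (x0.trans h)),
      ⟨eyD.1 hyD, fun a a' => exD.1 (hxD (x0.trans a) (x2.trans a'))⟩,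
      ⟨eyL.1 hyL, fun a a' => exL.1 (hxL (x0.trans a) (x1.trans a'))⟩, (core hm).1 hu'⟩
  · rintro ⟨hm, hx, hV, hH, hC⟩
    have hk : copyK K = (claims (L + 1) (q 0)).cy.yhC.val := by rw [hK, copyK_eq, hm]
    refine ⟨m 0, m 1, m 2, hcopy 0, hcopy 1, hcopy 2, ?_, ?_, ?_,
      fun h => ex0.2 (hx (x0.symm.trans h)), eyD.2 hV.1,
      fun a a' => exD.2 (hV.2 (x0.symm.trans a) (x2.symm.trans a')), eyL.2 hH.1,
      fun a a' => exL.2 (hH.2 (x0.symm.trans a) (x1.symm.trans a')), (core hm).2 hC⟩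
    · rw [hm, hc, pre_cx hL b0]
    · rw [hm, hc, pre_cy b0]
    · rw [hm, hc, pre_cm b0 K hk]

/-- The rows of a quadruple of parents. -/
theorem reads_quadBits (L : ℕ) (q : Quad4 St) :
    Reads L (quadBits (L + 1) q) (numsOf (L + 1) q)
      fun s => code (claims (L + 1) (q s.castSucc)) := by
  have hAF : AF + (A - 2 - AF) = A - 2 := by norm_num [A, AF]
  constructor
  · intro n hn s
    have h1 : AF + n < A := by omega
    have h11 : ¬ AF + n ≤ 10 := by
      have : 10 < AF := by norm_num [AF]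
      omega
    show enc (L + 1) (q s.castSucc) (AF + n) = _
    rw [enc, if_pos h1, finBits, if_neg (by omega), if_neg (by omega), if_neg (by omega),
      if_neg (by omega), if_neg (by omega), if_neg (by omega), if_pos (by omega),
      Nat.add_sub_cancel_left]
  · intro i hi τ hτ s
    show enc (L + 1) (q s.castSucc) (A + 8 * i + τ) = _
    have e1 : (A + 8 * i + τ - A) / 8 = i := by omega
    have e2 : (A + 8 * i + τ - A) % 8 = τ := by omega
    rw [enc, if_neg (by omega), e1, e2]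
    simp [numsOf, Nat.lt_succ_of_le hi]

end Vale.Agent.P196.Tile.Scanning
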