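import Vale.Agent.P196.Tile.Compact

/-!
P196, module D: the generic layer of desubstitution.

A level-indexed family of states: a state of level `l + 1` stands for an `N l × N l` square of
states of level `l`. If every valid configuration of a level is uniquely the expansion of a valid
configuration of the next level, the level zero subshift is nonempty, free, carries an odometer,
and is minimal as soon as every window of a valid configuration occurs inside every state of some
higher level.
-/

namespace Vale.Agent.P196.Tile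

/-- States of all levels with their substitution and their allowed two by two windows. -/
structure Hier where
  N : ℕ → ℕ
  two_le : ∀ l, 2 ≤ N l
  St : ℕ → Type
  [fintypeSt : ∀ l, Fintype (St l)]
  [decEqSt : ∀ l, DecidableEq (St l)]
  ok : ∀ l, (Fin 2 × Fin 2 → St l) → Prop
  child : ∀ l, St (l + 1) → V → St l

attribute [instance] Hier.fintypeSt Hier.decEqSt

namespace Hier

variable (H : Hier)

/-- The window of a configuration with lower left corner `v`. -/
def win {l : ℕ} (x : V → H.St l) (v : V) : Fin 2 × Fin 2 → H.St l :=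
  fun q => x (v.1 + (q.1 : ℕ), v.2 + (q.2 : ℕ))

/-- All windows are allowed. -/
def Valid (l : ℕ) (x : V → H.St l) : Prop := ∀ v, H.ok l (H.win x v)

/-- Division of both coordinates. -/
def vdiv (u : V) (n : ℤ) : V := (u.1 / n, u.2 / n)

/-- Residues of both coordinates. -/
def vmod (u : V) (n : ℤ) : V := (u.1 % n, u.2 % n)

/-- The configuration of level `l` made of the children of `y`, seen from offset `o`. -/
def expand (l : ℕ) (y : V → H.St (l + 1)) (o : V) : V → H.St l := fun u =>
  H.child l (y (vdiv (u + o) (H.N l))) (vmod (u + o) (H.N l))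

/-- Offsets inside a tile of side `n`. -/
def InRange (n : ℕ) (o : V) : Prop := 0 ≤ o.1 ∧ o.1 < n ∧ 0 ≤ o.2 ∧ o.2 < n

/-- The side of a tile of level `l` in level zero cells. -/
def Q : ℕ → ℕ
  | 0 => 1
  | l + 1 => H.N l * Q l

lemma Q_pos : ∀ l, 0 < H.Q l
  | 0 => Nat.one_pos
  | l + 1 => Nat.mul_pos (by have := H.two_le l; omega) (Q_pos l)

lemma N_pos (l : ℕ) : 0 < H.N l := by have := H.two_le l; omega

lemma le_Q : ∀ l, l + 1 ≤ H.Q l
  | 0 => le_rfl
  | l + 1 => by
    have h1 := le_Q l
    have h2 := Nat.mul_le_mul_right (H.Q l) (H.two_le l)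
    show l + 1 + 1 ≤ H.N l * H.Q l
    omega

lemma Q_lt (l : ℕ) : H.Q l < H.Q (l + 1) := by
  have h1 := H.Q_pos l
  have h2 := Nat.mul_le_mul_right (H.Q l) (H.two_le l)
  show H.Q l < H.N l * H.Q l
  omega

/-- The level zero cell at `u` inside a tile of level `l`. -/
def deep : ∀ l, H.St l → V → H.St 0
  | 0, s, _ => s
  | l + 1, s, u => deep l (H.child l s (vmod (vdiv u (H.Q l)) (H.N l))) (vmod u (H.Q l))

/-- The hierarchy above level `k`. -/
@[reducible] def above (k : ℕ) : Hier where
  N l := H.N (k + l)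
  two_le l := H.two_le (k + l)
  St l := H.St (k + l)
  ok l := H.ok (k + l)
  child l := H.child (k + l)

lemma Q_above (k : ℕ) : ∀ d, H.Q (k + d) = (H.above k).Q d * H.Q k
  | 0 => (Nat.one_mul _).symm
  | d + 1 => by
    show H.N (k + d) * H.Q (k + d) = (H.N (k + d) * (H.above k).Q d) * H.Q k
    rw [Q_above k d, Nat.mul_assoc]

lemma mod_mul_div (a : ℤ) {b c : ℤ} (hb : 0 < b) (hc : 0 < c) : a % (b * c) / b = a / b % c := by
  have h2 : a / b = a % (b * c) / b + c * (a / (b * c)) := by
    conv_lhs => rw [← Int.emod_add_mul_ediv a (b * c), mul_assoc,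
      Int.add_mul_ediv_left _ _ hb.ne']
  rw [h2, Int.add_mul_emod_self_left, Int.emod_eq_of_lt
    (Int.ediv_nonneg (Int.emod_nonneg _ (by positivity)) hb.le)]
  rw [Int.ediv_lt_iff_lt_mul hb, mul_comm c b]
  exact Int.emod_lt_of_pos _ (by positivity)

lemma deep_vmod : ∀ (l : ℕ) (s : H.St l) (u : V), H.deep l s (vmod u (H.Q l)) = H.deep l s u
  | 0, _, _ => rfl
  | l + 1, s, u => by
    have hq : (0 : ℤ) < H.Q l := by exact_mod_cast H.Q_pos l
    have hn : (0 : ℤ) < H.N l := by exact_mod_cast H.N_pos l
    have e : ((H.Q (l + 1) : ℕ) : ℤ) = H.Q l * H.N l := by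
      show ((H.N l * H.Q l : ℕ) : ℤ) = _
      push_cast; ring
    simp only [deep, e, vdiv, vmod, mod_mul_div _ hq hn, Int.emod_emod,
      Int.emod_emod_of_dvd _ (dvd_mul_right _ _)]

lemma deep_above (k : ℕ) : ∀ (d : ℕ) (s : H.St (k + d)) (u : V),
    H.deep (k + d) s u = H.deep k ((H.above k).deep d s (vdiv u (H.Q k))) (vmod u (H.Q k))
  | 0, s, u => (H.deep_vmod k s u).symm
  | d + 1, s, u => by
    have hk : (0 : ℤ) < H.Q k := by exact_mod_cast H.Q_pos k
    have hd : (0 : ℤ) < (H.above k).Q d := by exact_mod_cast (H.above k).Q_pos d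
    have e : ((H.Q (k + d) : ℕ) : ℤ) = H.Q k * (H.above k).Q d := by
      rw [H.Q_above k d]; push_cast; ring
    show H.deep (k + d) (H.child (k + d) s (vmod (vdiv u (H.Q (k + d))) (H.N (k + d))))
        (vmod u (H.Q (k + d))) =
      H.deep k ((H.above k).deep d (H.child (k + d) s
        (vmod (vdiv (vdiv u (H.Q k)) ((H.above k).Q d)) (H.N (k + d))))
        (vmod (vdiv u (H.Q k)) ((H.above k).Q d))) (vmod u (H.Q k))
    rw [deep_above k d, e]
    simp only [vdiv, vmod, ← Int.ediv_ediv_of_nonneg hk.le,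
      Int.emod_emod_of_dvd _ (dvd_mul_right _ _), mod_mul_div _ hk hd]

end Hier

end Vale.Agent.P196.Tile
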