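import Vale.Agent.P196.Tile.Balanced
import Vale.Agent.P196.Tile.ChildRules

/-!
P196, module D: the tile system as a hierarchy. A state of level `l` is a window of tiles of level
`L₀ + l`; the state at `u` has its lower left tile at `u`.
-/

noncomputable section

namespace Vale.Agent.P196.Tile

open Hier

/-- The windows within bounds. -/
def InWindow (L : ℕ) (q : Quad4 St) : Prop := ∀ j, InBounds L (q j)

/-- The states of level `l`. -/
abbrev State (l : ℕ) : Type := {q : Quad4 St // InWindow (L₀ + l) q}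

theorem finite_state (l : ℕ) : Finite (State l) := by
  refine Finite.of_injective (β := Fin 4 → Bool × Fin (Tile.H (L₀ + l)) × Fin (Tile.H (L₀ + l)) ×
    Fin (M (L₀ + l)) × Fin')
    (fun q j => ((q.1 j).xk, ⟨(q.1 j).x, (q.2 j).1⟩, ⟨(q.1 j).y, (q.2 j).2.1⟩,
      ⟨(q.1 j).u, (q.2 j).2.2⟩, (q.1 j).fin)) ?_
  intro a b h
  refine Subtype.ext (funext fun j => ?_)
  have hj := congrFun h j
  simp only [Prod.mk.injEq, Fin.mk.injEq] at hj
  obtain ⟨h1, h2, h3, h4, h5⟩ := hj
  rcases ha : a.1 j with ⟨_, _, _, _, _⟩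
  rcases hb : b.1 j with ⟨_, _, _, _, _⟩
  simp_all

theorem inBounds_child {L : ℕ} (hL : L₀ ≤ L) (τ : ℕ → Bool) (b : ℕ → Quad) (X Y : ℕ) :
    InBounds L (child L τ b X Y) :=
  ⟨(ChildRules.child_bounds hL τ b X Y).1, (ChildRules.child_bounds hL τ b X Y).2.1,
    (ChildRules.child_bounds hL τ b X Y).2.2.1⟩

theorem inWindow_valid {L : ℕ} {q : Quad4 St} (h : Valid L q) : InWindow L q := fun j =>
  ⟨(h.1.1 j).1, (h.1.1 j).2.1, (h.1.1 j).2.2.1⟩

/-- The tile system as a hierarchy. -/
@[reducible] def hier : Hier where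
  N l := side (L₀ + l)
  two_le l := by
    have : 0 < M (L₀ + l) ^ 3 := pow_pos (M_pos _) 3
    rw [side, Tile.H]
    omega
  St := State
  fintypeSt l := @Fintype.ofFinite _ (finite_state l)
  decEqSt l := Classical.decEq _
  ok l w := ∃ c : V → St, ∀ a : Fin 2 × Fin 2, Valid (L₀ + l) (w a).1 ∧
    (w a).1 = quadAt c (((a.1 : ℕ) : ℤ) + 1, ((a.2 : ℕ) : ℤ) + 1)
  child l s v := ⟨window (L₀ + l) table (quadBits (L₀ + l + 1) s.1)
      ((v.1.toNat + 1) % side (L₀ + l)) ((v.2.toNat + 1) % side (L₀ + l)),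
    fun _ => inBounds_child (Nat.le_add_right _ _) _ _ _ _⟩

theorem side_pos' (L : ℕ) : 0 < side L := by
  have : 0 < M L ^ 3 := pow_pos (M_pos L) 3
  rw [side, Tile.H]
  omega

/-- The upper right tile of each state. -/
def upper {l : ℕ} (y : V → State l) (v : V) : St := (y v).1 0

theorem pred'_succ_mod {L X : ℕ} (hX : X < side L) : pred' L ((X + 1) % side L) = X := by
  obtain ⟨-, p0, ps⟩ := pred'_facts L ((X + 1) % side L) (Nat.mod_lt _ (by omega))
  rcases Nat.lt_or_ge (X + 1) (side L) with h | h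
  · rw [Nat.mod_eq_of_lt h] at ps ⊢
    rw [ps (Nat.succ_ne_zero X)]
    rfl
  · rw [show X + 1 = side L by omega, Nat.mod_self, p0]
    omega

theorem expandTile_add (L : ℕ) (c : V → St) (t k : V) :
    expandTile L c (t + (side L : ℤ) • k) = expandTile L (fun Q => c (Q + k)) t := by
  have hs : (0 : ℤ) < side L := by exact_mod_cast side_pos' L
  have e : ∀ P, quadAt (fun Q => c (Q + k)) P = quadAt c (P + k) := fun P => funext fun j => by
    simp only [quadAt]
    congr 1
    abel
  simp only [expandTile, childAt, e, Prod.fst_add, Prod.snd_add, Prod.smul_fst, Prod.smul_snd,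
    smul_eq_mul, Int.add_mul_ediv_left _ _ hs.ne', Int.add_mul_emod_self_left]
  rfl

/-- The windows of children are those of the children of the parents. -/
theorem expand_tile (l : ℕ) (y : V → State (l + 1)) (c : V → St) (o u : V)
    (h : (y (vdiv (u + o) (side (L₀ + l)))).1 = quadAt c (vdiv (u + o) (side (L₀ + l)))) :
    (hier.expand l y o u).1 = quadAt (expandTile (L₀ + l) c) (u + o + (1, 1)) := by
  have hs : (0 : ℤ) < side (L₀ + l) := by exact_mod_cast side_pos' _
  set v := u + o with hv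
  set X := (v.1 % (side (L₀ + l) : ℤ)).toNat with hX
  set Y := (v.2 % (side (L₀ + l) : ℤ)).toNat with hY
  have x0 := Int.emod_nonneg v.1 hs.ne'
  have y0 := Int.emod_nonneg v.2 hs.ne'
  have x1 := Int.emod_lt_of_pos v.1 hs
  have y1 := Int.emod_lt_of_pos v.2 hs
  funext j
  show window (L₀ + l) table (quadBits (L₀ + l + 1) (y (vdiv v (side (L₀ + l)))).1)
    ((X + 1) % side (L₀ + l)) ((Y + 1) % side (L₀ + l)) j = _
  rw [h, window_child _ _ _ _ _ (Nat.mod_lt _ (by omega)) (Nat.mod_lt _ (by omega)),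
    pred'_succ_mod (by omega), pred'_succ_mod (by omega), quadAt]
  congr 2
  simp only [vdiv, hX, hY, Int.toNat_of_nonneg x0, Int.toNat_of_nonneg y0]
  refine Prod.ext ?_ ?_ <;> simp only [Prod.fst_add, Prod.snd_add]
  · rw [add_comm ((side (L₀ + l) : ℤ) * (v.1 / _)) (v.1 % _), Int.emod_add_mul_ediv]
  · rw [add_comm ((side (L₀ + l) : ℤ) * (v.2 / _)) (v.2 % _), Int.emod_add_mul_ediv]

/-- A valid configuration is the windows of a valid tiling. -/
theorem valid_upper {l : ℕ} {y : V → State l} (hy : hier.Valid l y) :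
    (∀ P, (y P).1 = quadAt (upper y) P) ∧ ValidTiling (L₀ + l) (upper y) := by
  have key : ∀ P, (y P).1 = quadAt (upper y) P ∧ Valid (L₀ + l) (y P).1 := by
    intro P
    obtain ⟨c, hc⟩ := hy (P - (1, 1))
    have h11 : hier.win y (P - (1, 1)) (1, 1) = y P := by
      show y _ = y P
      congr 1
      ext <;> simp
    obtain ⟨hv, he⟩ := hc (1, 1)
    rw [h11] at hv he
    refine ⟨funext fun j => ?_, hv⟩
    rw [he]
    set a : Fin 2 × Fin 2 :=
      (if j = 1 ∨ j = 3 then 0 else 1, if j = 2 ∨ j = 3 then 0 else 1) with ha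
    have h1 : hier.win y (P - (1, 1)) a = y (P - dir j) := by
      show y _ = y _
      congr 1
      fin_cases j <;> ext <;> simp [ha, dir]
    show _ = (y (P - dir j)).1 0
    rw [← h1, (hc a).2]
    simp only [quadAt]
    congr 1
    fin_cases j <;> ext <;> simp [ha, dir]
  refine ⟨fun P => (key P).1, (validTiling_iff _ _).2 fun P => ?_⟩
  rw [← (key P).1]
  exact (key P).2

/-- The windows of a valid tiling form a valid configuration. -/
theorem valid_of_tiling {l : ℕ} {y : V → State l} {c : V → St} (hc : ValidTiling (L₀ + l) c)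
    (hy : ∀ P, (y P).1 = quadAt c P) : hier.Valid l y := by
  intro v
  refine ⟨fun Q => c (Q + v - (1, 1)), fun a => ?_⟩
  show Valid _ (y _).1 ∧ (y _).1 = _
  rw [hy]
  refine ⟨(validTiling_iff _ _).1 hc _, funext fun j => ?_⟩
  simp only [quadAt]
  congr 1
  ext <;> simp <;> ring

/-- Children of allowed windows form allowed windows. -/
theorem ok_expand (hC : CompleteStatement) (l : ℕ) (y : V → State (l + 1)) (c : V → St) (v : V)
    (h : ∀ a : Fin 2 × Fin 2,
      let P := vdiv (v.1 + ((a.1 : ℕ) : ℤ), v.2 + ((a.2 : ℕ) : ℤ)) (side (L₀ + l))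
      (y P).1 = quadAt c P ∧ Valid (L₀ + l + 1) (y P).1) :
    hier.ok l (hier.win (hier.expand l y 0) v) := by
  refine ⟨fun Q => expandTile (L₀ + l) c (Q + v), fun a => ⟨?_, ?_⟩⟩
  · have hw := (h a).2
    refine hC _ (Nat.le_add_right _ _) _ ?_ _ _ (Nat.mod_lt _ ?_) (Nat.mod_lt _ ?_)
    · simpa only [Hier.win, add_zero] using hw
    all_goals exact side_pos' _
  · show (hier.expand l y 0 _).1 = _
    rw [expand_tile l y c 0 _ (by simpa only [add_zero] using (h a).1), add_zero]
    funext j
    simp only [quadAt]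
    congr 1
    ext <;> simp <;> ring

/-- The position of `j` in a window. -/
def placeOf (Q : V) : Fin 4 :=
  if Q.1 = 0 then (if Q.2 = 0 then 0 else 2) else (if Q.2 = 0 then 1 else 3)

theorem expandTile_place (L : ℕ) (c c' : V → St) (o : V) :
    (∀ (P : V) (X Y : ℕ), X < side L → Y < side L → c (place L o P X Y) = childAt L c' P X Y) ↔
      ∀ t, c (t + o) = expandTile L c' t := by
  have hs : (0 : ℤ) < side L := by exact_mod_cast side_pos' L
  constructor
  · intro h t
    have h1 := Int.emod_nonneg t.1 hs.ne'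
    have h2 := Int.emod_nonneg t.2 hs.ne'
    have h3 := Int.emod_lt_of_pos t.1 hs
    have h4 := Int.emod_lt_of_pos t.2 hs
    have := h (t.1 / side L, t.2 / side L) (t.1 % side L).toNat (t.2 % side L).toNat
      (by omega) (by omega)
    rw [expandTile, ← this]
    congr 1
    simp only [place, Int.toNat_of_nonneg h1, Int.toNat_of_nonneg h2]
    have e1 := Int.emod_add_mul_ediv t.1 (side L)
    have e2 := Int.emod_add_mul_ediv t.2 (side L)
    ext <;> simp <;> linarith
  · intro h P X Y hX hY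
    have e : place L o P X Y = ((X : ℤ) + side L * P.1, (Y : ℤ) + side L * P.2) + o := by
      ext <;> simp [place] <;> ring
    rw [e, h, expandTile]
    simp only [Int.add_mul_ediv_left _ _ hs.ne', Int.add_mul_emod_self_left,
      Int.ediv_eq_zero_of_lt (by omega : (0 : ℤ) ≤ X) (by omega : (X : ℤ) < side L),
      Int.ediv_eq_zero_of_lt (by omega : (0 : ℤ) ≤ Y) (by omega : (Y : ℤ) < side L),
      Int.emod_eq_of_lt (by omega : (0 : ℤ) ≤ X) (by omega : (X : ℤ) < side L),
      Int.emod_eq_of_lt (by omega : (0 : ℤ) ≤ Y) (by omega : (Y : ℤ) < side L), zero_add,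
      Int.toNat_natCast, Prod.mk.eta]

/-- Every valid configuration is an expansion. -/
theorem desub (hD : DesubStatement) (l : ℕ) (x : V → State l) (hx : hier.Valid l x) :
    ∃ y o, InRange (side (L₀ + l)) o ∧ hier.Valid (l + 1) y ∧ x = hier.expand l y o := by
  obtain ⟨hq, ht⟩ := valid_upper hx
  obtain ⟨⟨o₀, c'⟩, ⟨-, hp, he⟩, -⟩ := hD _ (Nat.le_add_right _ _) _ ht
  rw [expandTile_place] at he
  set z : V := -o₀ - (1, 1)
  set n : ℤ := (side (L₀ + l) : ℤ) with hn
  set c'' : V → St := fun Q => c' (Q + vdiv z n)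
  have hv : ValidTiling (L₀ + l + 1) c'' := (validTiling_iff _ _).2 fun P => by
    have := (validTiling_iff _ _).1 hp (P + vdiv z n)
    convert this using 1
    funext j
    simp only [quadAt, c'']
    congr 1
    abel
  let y : V → State (l + 1) := fun P =>
    ⟨quadAt c'' P, inWindow_valid ((validTiling_iff _ _).1 hv P)⟩
  refine ⟨y, vmod z n, inRange_vmod (side_pos' _) z,
    valid_of_tiling hv fun _ => rfl, funext fun u => Subtype.ext ?_⟩
  rw [expand_tile l y c'' _ u rfl, hq u]
  funext j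
  simp only [quadAt, c'']
  rw [← expandTile_add, ← hn, ← he]
  congr 1
  have := vmod_add_smul z n
  rw [show u + vmod z n + (1, 1) - dir j + n • vdiv z n + o₀ =
    u - dir j + ((vmod z n + n • vdiv z n) + o₀ + (1, 1)) by abel, this]
  simp only [z]
  abel

/-- The expansion is unique. -/
theorem uniq (hD : DesubStatement) (hC : CompleteStatement) (l : ℕ)
    (y y' : V → State (l + 1)) (o o' : V) (hy : hier.Valid (l + 1) y)
    (hy' : hier.Valid (l + 1) y') (ho : InRange (side (L₀ + l)) o)
    (ho' : InRange (side (L₀ + l)) o') (h : hier.expand l y o = hier.expand l y' o') :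
    o = o' ∧ y = y' := by
  obtain ⟨hq, ht⟩ := valid_upper hy
  obtain ⟨hq', ht'⟩ := valid_upper hy'
  set n : ℤ := (side (L₀ + l) : ℤ) with hn
  have hn0 : 0 < n := by
    rw [hn]
    exact_mod_cast side_pos' _
  set c : V → St := fun t => expandTile (L₀ + l) (upper y) (t + o + (1, 1)) with hc
  have hc' : ∀ t, c t = expandTile (L₀ + l) (upper y') (t + o' + (1, 1)) := fun t => by
    have h1 : (hier.expand l y o t).1 = (hier.expand l y' o' t).1 := by rw [h]
    rw [expand_tile l y _ o t (hq _), expand_tile l y' _ o' t (hq' _)] at h1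
    have h2 := congrFun h1 0
    rw [quadAt, quadAt, show dir 0 = 0 from rfl, sub_zero, sub_zero] at h2
    exact h2
  have hcv : ValidTiling (L₀ + l) c := (validTiling_iff _ _).2 fun t => by
    have e : quadAt c t = (hier.expand l y o t).1 := by
      rw [expand_tile l y _ o t (hq _)]
      funext j
      simp only [quadAt, hc]
      congr 1
      abel
    rw [e]
    exact hC _ (Nat.le_add_right _ _) _ (hq _ ▸ (validTiling_iff _ _).1 ht _) _ _
      (Nat.mod_lt _ (side_pos' _)) (Nat.mod_lt _ (side_pos' _))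
  have par : ∀ (d : V → St) (p : V), ValidTiling (L₀ + l + 1) d →
      (∀ t, c t = expandTile (L₀ + l) d (t + p + (1, 1))) →
      IsOffset (L₀ + l) (vmod (-(p + (1, 1))) n) ∧
        IsParent (L₀ + l) c (fun Q => d (Q - vdiv (-(p + (1, 1))) n))
          (vmod (-(p + (1, 1))) n) := by
    intro d p hd hcd
    refine ⟨inRange_vmod (side_pos' _) _, ?_, (expandTile_place _ _ _ _).2 ?_⟩
    · refine (validTiling_iff _ _).2 fun P => ?_
      have := (validTiling_iff _ _).1 hd (P - vdiv (-(p + (1, 1))) n)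
      convert this using 1
      funext j
      simp only [quadAt]
      congr 1
      abel
    · intro t
      rw [hcd]
      simp only [sub_eq_add_neg]
      rw [← expandTile_add, ← hn]
      congr 1
      have := vmod_add_smul (-(p + (1, 1))) n
      rw [smul_neg]
      calc t + vmod (-(p + (1, 1))) n + p + (1, 1)
          = t + vmod (-(p + (1, 1))) n + -(-(p + (1, 1))) := by abel
        _ = t + vmod (-(p + (1, 1))) n +
            -(vmod (-(p + (1, 1))) n + n • vdiv (-(p + (1, 1))) n) := by rw [this]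
        _ = _ := by abel
  have he := (hD _ (Nat.le_add_right _ _) c hcv).unique
    (y₁ := (_, _)) (par _ o ht fun _ => rfl) (y₂ := (_, _)) (par _ o' ht' hc')
  have e1 := congrArg Prod.fst he
  have e2 := congrArg Prod.snd he
  dsimp only at e1 e2
  have hoo : o = o' := by
    obtain ⟨a1, a2, a3, a4⟩ := ho
    obtain ⟨b1, b2, b3, b4⟩ := ho'
    have d : ∀ a b : ℤ, 0 ≤ a → a < n → 0 ≤ b → b < n → (-(a + 1)) % n = (-(b + 1)) % n →
        a = b := by
      intro a b _ _ _ _ hab
      have hd : n ∣ (-(b + 1)) - (-(a + 1)) := Int.dvd_of_emod_eq_zero (Int.emod_eq_emod_iff_emod_sub_eq_zero.mp hab.symm)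
      have : (-(b + 1)) - (-(a + 1)) = 0 := Int.eq_zero_of_dvd_of_natAbs_lt_natAbs hd (by omega)
      omega
    exact Prod.ext (d _ _ a1 a2 b1 b2 (congrArg Prod.fst e1))
      (d _ _ a3 a4 b3 b4 (congrArg Prod.snd e1))
  subst hoo
  refine ⟨rfl, funext fun P => Subtype.ext ?_⟩
  have hu : upper y = upper y' := funext fun Q => by
    have := congrFun e2 (Q + vdiv (-(o + (1, 1))) n)
    simp only [add_sub_cancel_right] at this
    exact this
  rw [hq, hq', hu]

/-- A valid window at every level gives a nonempty system. -/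
theorem ok_ne (hC : CompleteStatement) (hS : ∀ L, L₀ ≤ L → ∃ q, Valid L q) (l : ℕ) :
    ∃ y : V → State l, hier.ok l (hier.win y 0) := by
  obtain ⟨q, hq⟩ := hS (L₀ + l + 1) (by omega)
  let c : V → St := fun Q => q (placeOf Q)
  let y : V → State (l + 1) := fun P => ⟨quadAt c P, fun j => inWindow_valid hq _⟩
  have h0 : quadAt c 0 = q := funext fun j => by
    fin_cases j <;> simp [quadAt, c, placeOf, dir]
  refine ⟨hier.expand l y 0, ok_expand hC l y c 0 fun a => ?_⟩
  have hP : vdiv ((0 : V).1 + ((a.1 : ℕ) : ℤ), (0 : V).2 + ((a.2 : ℕ) : ℤ))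
      (side (L₀ + l)) = 0 := by
    have hs : 2 ≤ side (L₀ + l) := hier.two_le l
    have := a.1.2
    have := a.2.2
    refine Prod.ext (Int.ediv_eq_zero_of_lt ?_ ?_) (Int.ediv_eq_zero_of_lt ?_ ?_) <;>
      simp <;> omega
  refine ⟨rfl, ?_⟩
  rw [hP]
  show Valid (L₀ + l + 1) (quadAt c 0)
  rw [h0]
  exact hq

/-- The tile system is self-similar. -/
theorem selfSimilar (hD : DesubStatement) (hC : CompleteStatement)
    (hS : ∀ L, L₀ ≤ L → ∃ q, Valid L q) : hier.SelfSimilar where
  ok_ne := ok_ne hC hS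
  ok_child l y v h := by
    obtain ⟨c, hc⟩ := h
    set P₀ := vdiv v (side (L₀ + l))
    refine ok_expand hC l y (fun Q => c (Q - P₀ + (1, 1))) v fun a => ?_
    set P := vdiv (v.1 + ((a.1 : ℕ) : ℤ), v.2 + ((a.2 : ℕ) : ℤ)) (side (L₀ + l)) with hP
    have hs : (1 : ℤ) < side (L₀ + l) := by exact_mod_cast hier.two_le l
    have key : ∀ (z : ℤ) (i : Fin 2), ∃ k : Fin 2,
        (z + ((i : ℕ) : ℤ)) / (side (L₀ + l) : ℤ) = z / (side (L₀ + l) : ℤ) + ((k : ℕ) : ℤ) := by
      intro z i
      have m1 : z / (side (L₀ + l) : ℤ) ≤ (z + ((i : ℕ) : ℤ)) / (side (L₀ + l) : ℤ) :=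
        Int.ediv_le_ediv (by omega) (by omega)
      have m2 : (z + ((i : ℕ) : ℤ)) / (side (L₀ + l) : ℤ) ≤
          (z + (side (L₀ + l) : ℤ) * 1) / (side (L₀ + l) : ℤ) :=
        Int.ediv_le_ediv (by omega) (by have := i.2; omega)
      rw [Int.add_mul_ediv_left _ _ (by omega)] at m2
      exact ⟨⟨((z + ((i : ℕ) : ℤ)) / (side (L₀ + l) : ℤ) - z / (side (L₀ + l) : ℤ)).toNat,
        by omega⟩, by simp only; omega⟩
    obtain ⟨k, hk⟩ := key v.1 a.1
    obtain ⟨k', hk'⟩ := key v.2 a.2
    obtain ⟨hv, he⟩ := hc (k, k')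
    have e : hier.win y P₀ (k, k') = y P := by
      show y _ = y P
      congr 1
      exact Prod.ext hk.symm hk'.symm
    rw [e] at hv he
    refine ⟨?_, hv⟩
    rw [he]
    funext j
    simp only [quadAt]
    congr 1
    refine Prod.ext ?_ ?_ <;> simp [hP, P₀, vdiv, hk, hk'] <;> ring
  desub := desub hD
  uniq := uniq hD hC

/-- A window as a state. -/
def toState (l : ℕ) (q : Quad4 St) : State l :=
  haveI := Classical.propDecidable (InWindow (L₀ + l) q)
  if h : InWindow (L₀ + l) q then ⟨q, h⟩ else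
    ⟨fun _ => child (L₀ + l) table (fun _ _ => false) 0 0,
      fun _ => inBounds_child (Nat.le_add_right _ _) _ _ _ _⟩

/-- The states are read off the windows of children. -/
def reading : Reading hier where
  N_eq _ := rfl
  shift _ := 0
  shift_small _ := by simp
  tile _ y := upper y
  read := toState
  expand_eq l y hy u := by
    have e := expand_tile l y (upper y) 0 u ((valid_upper hy).1 _)
    rw [add_zero] at e
    have hw : InWindow (L₀ + l) fun j => expandTile (L₀ + l) (upper y) (u + 0 + (1, 1) - dir j) :=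
      fun j => inBounds_child (Nat.le_add_right _ _) _ _ _ _
    refine Subtype.ext ?_
    rw [toState, dif_pos hw, e]
    funext j
    simp [quadAt]

/-- Coinvariants and cocycles modulo 2 of the tile system vanish. -/
theorem cohomology (hD : DesubStatement) (hC : CompleteStatement)
    (hS : ∀ L, L₀ ≤ L → ∃ q, Valid L q) :
    hier.sft.CoinvariantsModTwoTrivial ∧ hier.sft.CocyclesModTwoTrivial :=
  ⟨reading.coinvariants (selfSimilar hD hC hS), reading.cocycles (selfSimilar hD hC hS)⟩

end Vale.Agent.P196.Tile
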