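import Vale.Agent.P196.Defs
import Vale.Agent.P196.Tile.Spec

/-!
P196, module D: the subshift cut out by the valid windows of the base level, and the interface
between consecutive levels.
-/

namespace Vale.Agent.P196.Tile

/-! ### Tiles and their neighbours -/

/-- The direction of the `j`-th tile of a window, seen from the upper right one. -/
def dir (j : Fin 4) : V := (if j = 1 ∨ j = 3 then 1 else 0, if j = 2 ∨ j = 3 then 1 else 0)

/-- The window with upper right tile at `P`. -/
def quadAt (c : V → St) (P : V) : Quad4 St := fun j => c (P - dir j)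

lemma quadAt_eq (c : V → St) (p : V) :
    (fun j : Fin 4 => c (if j = 1 ∨ j = 3 then p.1 - 1 else p.1,
      if j = 2 ∨ j = 3 then p.2 - 1 else p.2)) = quadAt c p := by
  funext j
  unfold quadAt dir
  congr 1
  ext <;> simp only [Prod.fst_sub, Prod.snd_sub] <;> split_ifs <;> simp

lemma validTiling_iff (L : ℕ) (c : V → St) :
    ValidTiling L c ↔ ∀ P, Valid L (quadAt c P) := by
  unfold ValidTiling
  simp only [quadAt_eq]

/-- The child at `(X, Y)` of the tile `P` of a tiling of the next level, with the table. -/
noncomputable def childAt (L : ℕ) (c' : V → St) (P : V) (X Y : ℕ) : St :=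
  child L table (quadBits (L + 1) (quadAt c' P)) X Y

/-- The base position of the child at `(X, Y)` of the parent `P`. -/
def place (L : ℕ) (o P : V) (X Y : ℕ) : V :=
  (o.1 + (side L : ℤ) * P.1 + X, o.2 + (side L : ℤ) * P.2 + Y)

/-- `c'` is the tiling of the parents of `c`, the parent `(0, 0)` having lower left corner `o`. -/
def IsParent (L : ℕ) (c c' : V → St) (o : V) : Prop :=
  ValidTiling (L + 1) c' ∧
    ∀ (P : V) (X Y : ℕ), X < side L → Y < side L → c (place L o P X Y) = childAt L c' P X Y

/-- A normalised offset. -/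
def IsOffset (L : ℕ) (o : V) : Prop :=
  0 ≤ o.1 ∧ o.1 < (side L : ℤ) ∧ 0 ≤ o.2 ∧ o.2 < (side L : ℤ)

/-! ### Statements of the pieces -/

/-- Local rules force the next level, uniquely. -/
def DesubStatement : Prop :=
  ∀ L, L₀ ≤ L → ∀ c, ValidTiling L c → ∃! oc : V × (V → St),
    IsOffset L oc.1 ∧ IsParent L c oc.2 oc.1

/-- The windows of the children of a valid window are valid. -/
def CompleteStatement : Prop :=
  ∀ L, L₀ ≤ L → ∀ q, Valid (L + 1) q → ∀ X Y, X < side L → Y < side L →
    Valid L (window L table (quadBits (L + 1) q) X Y)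

/-! ### The subshift -/

/-- The states within bounds. -/
def InBounds (L : ℕ) (t : St) : Prop := t.x < H L ∧ t.y < H L ∧ t.u < M L

/-- The alphabet. -/
def Letter : Type := {t : St // InBounds L₀ t}

noncomputable instance : Fintype Letter :=
  @Fintype.ofFinite _ (by
    refine Finite.of_injective (β := Bool × Fin (H L₀) × Fin (H L₀) × Fin (M L₀) × Fin')
      (fun t : Letter => (t.1.xk, ⟨t.1.x, t.2.1⟩, ⟨t.1.y, t.2.2.1⟩, ⟨t.1.u, t.2.2.2⟩, t.1.fin)) ?_
    intro a b h
    simp only [Prod.mk.injEq, Fin.mk.injEq] at h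
    obtain ⟨h1, h2, h3, h4, h5⟩ := h
    apply Subtype.ext
    rcases a with ⟨⟨_, _, _, _, _⟩, _⟩
    rcases b with ⟨⟨_, _, _, _, _⟩, _⟩
    simp_all)

noncomputable instance : DecidableEq Letter := Classical.decEq _

/-- The window in `Fin 2 × Fin 2` coordinates turned into a quadruple. -/
def toQuad (q : Fin 2 × Fin 2 → Letter) : Quad4 St := fun j =>
  (q (if j = 1 ∨ j = 3 then 0 else 1, if j = 2 ∨ j = 3 then 0 else 1)).1

instance : TopologicalSpace Letter := ⊥

instance : DiscreteTopology Letter := ⟨rfl⟩

/-- The subshift. -/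
noncomputable def system : SFT where
  A := Letter
  w := 1
  allowed q := Valid L₀ (toQuad q)

/-- The tiling of a point. -/
def tiling (x : V → Letter) : V → St := fun v => (x v).1

lemma toQuad_window (x : V → Letter) (v : V) :
    toQuad (system.window x v) = quadAt (tiling x) (v + (1, 1)) := by
  funext j
  unfold toQuad quadAt tiling dir
  fin_cases j <;> simp [SFT.window, system] <;> congr 2 <;> ext <;> simp

lemma mem_carrier_iff (x : V → Letter) :
    x ∈ system.carrier ↔ ValidTiling L₀ (tiling x) := by
  rw [validTiling_iff]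
  constructor
  · intro h P
    have h1 : Valid L₀ (toQuad (system.window x (P - (1, 1)))) := h (P - (1, 1))
    rwa [toQuad_window, sub_add_cancel] at h1
  · intro h v
    show Valid L₀ (toQuad (system.window x v))
    rw [toQuad_window]
    exact h _

/-- A valid base tiling as a point of the subshift. -/
noncomputable def toPoint (c : V → St) (h : ValidTiling L₀ c) : system.X :=
  ⟨fun v => ⟨c v, by
      have h1 := (((validTiling_iff _ _).1 h v).1.1 0)
      have e : quadAt c v 0 = c v := by simp [quadAt, dir]; congr 1; ext <;> simp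
      rw [e] at h1
      exact ⟨h1.1, h1.2.1, h1.2.2.1⟩⟩,
    (mem_carrier_iff _).2 h⟩

lemma tiling_valid (x : system.X) : ValidTiling L₀ (tiling x.1) := (mem_carrier_iff _).1 x.2

/-! ### Children of neighbouring parents seen from one window -/

/-- The bits visible at the column `X = 0` or the row `Y = 0` of a parent. -/
lemma child_congr (L : ℕ) (τ : ℕ → Bool) (b b' : ℕ → Quad) (X Y : ℕ)
    (hX : X = 0 → ∀ k, b k 1 = b' k 1 ∧ b k 3 = b' k 3)
    (hY : Y = 0 → ∀ k, b k 2 = b' k 2 ∧ b k 3 = b' k 3)
    (h : (X ≠ 0 ∧ Y ≠ 0) → b = b') :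
    child L τ b X Y = child L τ b' X Y := by
  by_cases hX0 : X = 0
  · subst hX0
    have hb := hX rfl
    have c1 : ∀ m, m ≠ 0 → ¬ IsCol L (0 % H L) m := by
      intro m hm hc
      apply hm
      simp [IsCol, mid, Nat.zero_mod] at hc
      omega
    have z4 : ¬ IsZone L (0 % H L) 4 := fun hz => c1 4 (by norm_num) hz.1
    have z6 : ¬ IsZone L (0 % H L) 6 := fun hz => c1 6 (by norm_num) hz.1
    have c1' : ¬ IsBundle L (0 % H L) := fun hb => c1 1 (by norm_num) hb.1
    have c7' := c1 7 (by norm_num)
    have c3' := c1 3 (by norm_num)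
    have hH : H L ≠ 0 := by simp [H, M]
    unfold child
    simp only [Nat.zero_mod] at c1' c3' z4 z6 ⊢
    simp only [c1', c3', z4, z6, false_and, if_false, nonpos_iff_eq_zero, hH, decide_false,
      St.mk.injEq, true_and, Fin'.mk.injEq, and_true]
    funext j
    by_cases hj : j = 1 ∨ j = 3
    · rcases hj with rfl | rfl
      · simp [(hb _).1]
      · simp [(hb _).2]
    · simp [hj]
  · by_cases hY0 : Y = 0
    · subst hY0
      have hb := hY rfl
      have hH : H L ≠ 0 := by simp [H, M]
      have hw : ¬ IsWire L (0 % H L) := by simp [IsWire, mid, Nat.zero_mod]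
      have hM : ¬ M L ≤ 0 % H L := by simp [M, Nat.zero_mod]
      unfold child
      simp only [Nat.zero_mod] at hw hM ⊢
      simp only [hw, hM, false_and, and_false, if_false, nonpos_iff_eq_zero, hH, decide_false,
        St.mk.injEq, true_and, Fin'.mk.injEq, and_true]
      funext j
      by_cases hj : j = 2 ∨ j = 3
      · rcases hj with rfl | rfl
        · simp [(hb _).1]
        · simp [(hb _).2]
      · simp [hj]
    · rw [h ⟨hX0, hY0⟩]

end Vale.Agent.P196.Tile
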