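import Vale.Agent.P196.Tile.Spec

/-!
P196, module D: arithmetic of the bit encoding.  The finite codes fit into their rows, a coordinate
is determined by its three parts, the three part increment is the successor modulo `H`, and the
wire rows below a height are counted by `rowsBelow`.
-/

namespace Vale.Agent.P196.Tile.Num

/-! ### Codes -/

lemma code_lt_card {α : Type} [Fintype α] (a : α) : code a < Fintype.card α :=
  (Fintype.equivFin α a).isLt

lemma code_injective {α : Type} [Fintype α] : Function.Injective (code (α := α)) := fun _ _ h =>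
  (Fintype.equivFin α).injective (Fin.ext h)

lemma claimsOfCopy_code (c : Claims) : claimsOfCopy (code c) = some c := by
  rw [claimsOfCopy, dif_pos (code_lt_card c)]
  exact congrArg some ((Equiv.symm_apply_eq _).2 (Fin.ext rfl))

lemma card_quad : Fintype.card Quad = 16 := by simp

lemma card_cmp_tuple : Fintype.card (Fin 3 → Bool × Bool × Bool) = 512 := by simp

lemma card_x_tuple : Fintype.card (Bool × Bool × Bool × Bool × Fin 9 × Bool) = 288 := by
  simp only [Fintype.card_prod, Fintype.card_bool, Fintype.card_fin]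

lemma card_y_tuple (y : ℕ) : Fintype.card (Bool × Fin 4 × Fin y × Fin 8 × Bool × Bool) = 256 * y := by
  simp only [Fintype.card_prod, Fintype.card_bool, Fintype.card_fin]
  omega

lemma card_m_tuple : Fintype.card (Bool × Quad × Bool × Bool × Bool) = 256 := by
  simp only [Fintype.card_prod, Fintype.card_bool, card_quad]

lemma card_claims_tuple (y : ℕ) :
    Fintype.card (Bool × (Bool × Bool × Bool × Bool × Fin 9 × Bool) ×
      (Bool × Fin 4 × Fin y × Fin 8 × Bool × Bool) × (Bool × Quad × Bool × Bool × Bool)) =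
        2 * (288 * (256 * y * 256)) := by
  rw [Fintype.card_prod, Fintype.card_bool, Fintype.card_prod, card_x_tuple, Fintype.card_prod,
    card_y_tuple, card_m_tuple]

lemma card_claims_arith {y b : ℕ} (hy : y ≤ 2 ^ b) :
    2 * (288 * (256 * y * 256)) ≤ 2 ^ (b + 26) := by
  calc 2 * (288 * (256 * y * 256)) ≤ 2 * (512 * (256 * 2 ^ b * 256)) := by gcongr; norm_num
    _ = 2 ^ (b + 26) := by ring

lemma card_carry_tuple (m i y : ℕ) :
    Fintype.card ((Fin 3 → Fin m) × Fin i × (Bool × Bool × Bool × Bool × Fin 9 × Bool) ×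
      (Bool × Fin 4 × Fin y × Fin 8 × Bool × Bool) × (Bool × Quad × Bool × Bool × Bool) × Bool ×
      ((Fin 3 → Bool × Bool × Bool) × (Fin 3 → Bool × Bool × Bool) ×
        (Fin 3 → Bool × Bool × Bool) × (Fin 3 → Bool × Bool × Bool)) ×
      (Bool × Bool × Bool)) =
        m ^ 3 * (i * (288 * (256 * y * (256 * (2 * (512 * (512 * (512 * 512)) * (2 * (2 * 2)))))))) := by
  have h3 : Fintype.card (Fin 3 → Fin m) = m ^ 3 := by simp
  have hb : Fintype.card (Bool × Bool × Bool) = 2 * (2 * 2) := by simp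
  rw [Fintype.card_prod, h3, Fintype.card_prod, Fintype.card_fin, Fintype.card_prod, card_x_tuple,
    Fintype.card_prod, card_y_tuple, Fintype.card_prod, card_m_tuple, Fintype.card_prod,
    Fintype.card_bool]
  have hc : Fintype.card ((Fin 3 → Bool × Bool × Bool) × (Fin 3 → Bool × Bool × Bool) ×
      (Fin 3 → Bool × Bool × Bool) × (Fin 3 → Bool × Bool × Bool)) = 512 * (512 * (512 * 512)) := by
    rw [Fintype.card_prod, Fintype.card_prod, Fintype.card_prod, card_cmp_tuple]
  rw [Fintype.card_prod, hc, hb]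

lemma card_carry_arith {m i y a : ℕ} (hm : m ≤ 2 ^ a) (hi : i ≤ 2 ^ 13) (hy : y ≤ 2 ^ 16) :
    m ^ 3 * (i * (288 * (256 * y * (256 * (2 * (512 * (512 * (512 * 512)) * (2 * (2 * 2)))))))) ≤
      2 ^ (3 * a + 96) := by
  calc m ^ 3 * (i * (288 * (256 * y * (256 * (2 * (512 * (512 * (512 * 512)) * (2 * (2 * 2))))))))
      ≤ (2 ^ a) ^ 3 * (2 ^ 13 * (512 * (256 * 2 ^ 16 *
          (256 * (2 * (512 * (512 * (512 * 512)) * (2 * (2 * 2)))))))) := by
        gcongr
        norm_num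
    _ = 2 ^ (3 * a) * 2 ^ 94 := by rw [← pow_mul, mul_comm a 3]; norm_num
    _ ≤ 2 ^ (3 * a + 96) := by
      rw [← pow_add]; exact Nat.pow_le_pow_right (by norm_num) (by omega)

lemma card_claims : Fintype.card Claims ≤ 2 ^ (A - 2 - AF) := by
  refine le_trans (Fintype.card_le_of_injective (fun c : Claims =>
    (c.xk, (c.cx.xl0, c.cx.xlTop, c.cx.xlEven, c.cx.xlSmall, c.cx.xmC, c.cx.xh0),
      (c.cy.yl0, c.cy.ymC, c.cy.yhC, c.cy.yhMod, c.cy.yhTop,
        c.cy.yhHalf),
      (c.cm.diag, c.cm.q, c.cm.ql, c.cm.u0, c.cm.u1))) ?_) ?_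
  · rintro ⟨_, ⟨⟩, ⟨⟩, ⟨⟩⟩ ⟨_, ⟨⟩, ⟨⟩, ⟨⟩⟩ h
    simp_all
  · rw [card_claims_tuple (YB + 1)]
    exact (card_claims_arith (b := 16) (by norm_num [A, B, YB])).trans
      (Nat.pow_le_pow_right (by norm_num) (by norm_num [A, AF]))

lemma card_carry : Fintype.card Carry ≤ 2 ^ (3 * (A - 2 - AF) + 96) := by
  refine le_trans (Fintype.card_le_of_injective (fun c : Carry => (c.copy, c.i,
    (c.cx.xl0, c.cx.xlTop, c.cx.xlEven, c.cx.xlSmall, c.cx.xmC, c.cx.xh0),
    (c.cy.yl0, c.cy.ymC, c.cy.yhC, c.cy.yhMod, c.cy.yhTop,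
        c.cy.yhHalf),
    (c.cm.diag, c.cm.q, c.cm.ql, c.cm.u0, c.cm.u1), c.yhBit,
    ((fun p => ((c.cmp.xD p).eq, (c.cmp.xD p).inc, (c.cmp.xD p).carry)),
     (fun p => ((c.cmp.xL p).eq, (c.cmp.xL p).inc, (c.cmp.xL p).carry)),
     (fun p => ((c.cmp.yD p).eq, (c.cmp.yD p).inc, (c.cmp.yD p).carry)),
     (fun p => ((c.cmp.yL p).eq, (c.cmp.yL p).inc, (c.cmp.yL p).carry))),
    (c.cu.uEq, c.cu.uDbl, c.cu.uPrev))) ?_) ?_
  · rintro ⟨_, _, ⟨⟩, ⟨⟩, ⟨⟩, _, ⟨f1, f2, f3, f4⟩, ⟨⟩⟩ ⟨_, _, ⟨⟩, ⟨⟩, ⟨⟩, _, ⟨g1, g2, g3, g4⟩, ⟨⟩⟩ h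
    simp only [Prod.mk.injEq] at h
    obtain ⟨h1, h2, ⟨a1, a2, a3, a4, a5, a6⟩, ⟨b1, b2, b3, b4, b5, b6⟩, ⟨c1, c2, c3, c4, c5⟩, hx,
      ⟨e1, e2, e3, e4⟩, d1, d2, d3⟩ := h
    have key : ∀ f g : Fin 3 → Cmp,
        (fun p => ((f p).eq, (f p).inc, (f p).carry)) = (fun p => ((g p).eq, (g p).inc, (g p).carry)) →
          f = g := fun f g e => funext fun p => by
      have := congrFun e p
      rcases hf : f p with ⟨⟩
      rcases hg : g p with ⟨⟩
      simp_all
    obtain rfl := key _ _ e1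
    obtain rfl := key _ _ e2
    obtain rfl := key _ _ e3
    obtain rfl := key _ _ e4
    subst_vars
    rfl
  · rw [card_carry_tuple (2 ^ (A - 2 - AF)) (B + 2) (YB + 1)]
    exact card_carry_arith le_rfl (by norm_num [A, B]) (by norm_num [A, B, YB])

lemma card_rest_tuple (C : Type) [Fintype C] (n : ℕ) :
    Fintype.card (Option Bool × Option Bool × Option C × Option (Fin n × Bool × Bool) × Bool) =
      3 * 3 * (Fintype.card C + 1) * (4 * n + 1) * 2 := by
  simp only [Fintype.card_prod, Fintype.card_bool, Fintype.card_option, Fintype.card_fin]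
  ring

lemma card_rest_arith {x n a b : ℕ} (hn : n ≤ 2 ^ a) (hx : x ≤ 2 ^ b) :
    3 * 3 * (x + 1) * (4 * n + 1) * 2 ≤ 2 ^ (a + b + 8) := by
  have ha := Nat.two_pow_pos a
  have hb := Nat.two_pow_pos b
  calc 3 * 3 * (x + 1) * (4 * n + 1) * 2 ≤ 3 * 3 * (2 * 2 ^ b) * (5 * 2 ^ a) * 2 := by
        gcongr <;> omega
    _ = 180 * (2 ^ a * 2 ^ b) := by ring
    _ ≤ 2 ^ 8 * (2 ^ a * 2 ^ b) := by gcongr; norm_num
    _ = 2 ^ (a + b + 8) := by ring

lemma card_rest : Fintype.card Rest ≤ 2 ^ (AF - 11) := by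
  refine le_trans (Fintype.card_le_of_injective (fun f : Rest =>
    (f.1, f.2.1, f.2.2.1, f.2.2.2.1.map fun l => (l.copy, l.vv, l.eq), f.2.2.2.2)) ?_) ?_
  · rintro ⟨_, _, _, l, _⟩ ⟨_, _, _, l', _⟩ h
    cases l <;> cases l' <;> simp_all
    rename_i l l'
    cases l; cases l'; simp_all
  · rw [card_rest_tuple Carry (2 ^ (A - 2 - AF))]
    exact (card_rest_arith le_rfl card_carry).trans
      (Nat.pow_le_pow_right (by norm_num) (by norm_num [A, AF]))

lemma code_claims_lt (c : Claims) : code c < 2 ^ (A - 2 - AF) :=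
  (code_lt_card c).trans_le card_claims

lemma code_rest_lt (f : Fin') : code f.rest < 2 ^ (AF - 11) :=
  (code_lt_card f.rest).trans_le card_rest

/-! ### Bits -/

lemma mod_two_pow_succ_bit (x i : ℕ) :
    x % 2 ^ (i + 1) = x % 2 ^ i + if x.testBit i then 2 ^ i else 0 := by
  rw [Nat.mod_pow_succ, Nat.testBit_eq_decide_div_mod_eq]
  rcases Nat.mod_two_eq_zero_or_one (x / 2 ^ i) with h | h <;> simp [h]

lemma sum_testBit (x : ℕ) : ∀ n,
    (∑ m ∈ Finset.range n, if x.testBit m then 2 ^ m else 0) = x % 2 ^ n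
  | 0 => by simp [Nat.mod_one]
  | n + 1 => by rw [Finset.sum_range_succ, sum_testBit x n, mod_two_pow_succ_bit]

lemma testBit_succ_add (d i : ℕ) :
    (d + 1).testBit i = xor (d.testBit i) (decide (d % 2 ^ i = 2 ^ i - 1)) := by
  have hp := Nat.two_pow_pos i
  have key : (d + 1) / 2 ^ i = d / 2 ^ i + if d % 2 ^ i = 2 ^ i - 1 then 1 else 0 := by
    rw [Nat.succ_div]
    congr 1
    refine if_congr ?_ rfl rfl
    rw [Nat.dvd_iff_mod_eq_zero, Nat.add_mod]
    have := Nat.mod_lt d hp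
    rcases Nat.lt_or_ge 1 (2 ^ i) with h | h
    · rw [Nat.mod_eq_of_lt h]
      rcases Nat.lt_or_ge (d % 2 ^ i + 1) (2 ^ i) with h' | h'
      · rw [Nat.mod_eq_of_lt h']; omega
      · have e : d % 2 ^ i + 1 = 2 ^ i := by omega
        rw [e, Nat.mod_self]; omega
    · have e : 2 ^ i = 1 := by omega
      simp [e, Nat.mod_one]
  rw [Nat.testBit_eq_decide_div_mod_eq, Nat.testBit_eq_decide_div_mod_eq, key]
  rcases Nat.mod_two_eq_zero_or_one (d / 2 ^ i) with h | h <;>
    by_cases h' : d % 2 ^ i = 2 ^ i - 1 <;> simp [h, h', Nat.add_mod]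

/-! ### Parts of a coordinate -/

lemma M_pos (L : ℕ) : 0 < M L := Nat.two_pow_pos L

lemma H_pos (L : ℕ) : 0 < H L := Nat.pow_pos (M_pos L)

lemma lo_lt (L x : ℕ) : lo L x < M L := Nat.mod_lt _ (M_pos L)

lemma mid_lt (L x : ℕ) : mid L x < M L := Nat.mod_lt _ (M_pos L)

lemma hi_lt {L x : ℕ} (h : x < H L) : hi L x < M L := by
  rw [hi, Nat.div_lt_iff_lt_mul (Nat.pow_pos (M_pos L))]
  exact h.trans_eq (pow_succ' (M L) 2)

lemma parts_eq (L x : ℕ) : lo L x + M L * mid L x + M L ^ 2 * hi L x = x := by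
  rw [lo, mid, hi, pow_two, ← Nat.div_div_eq_div_mul, mul_assoc, add_assoc, ← Nat.mul_add,
    Nat.mod_add_div, Nat.mod_add_div]

lemma eq_iff_parts (L x y : ℕ) :
    x = y ↔ lo L x = lo L y ∧ mid L x = mid L y ∧ hi L x = hi L y := by
  refine ⟨fun h => by subst h; exact ⟨rfl, rfl, rfl⟩, fun h => ?_⟩
  rw [← parts_eq L x, ← parts_eq L y, h.1, h.2.1, h.2.2]

lemma parts_of_eq {L a m h : ℕ} (ha : a < M L) (hm : m < M L) :
    lo L (a + M L * m + M L ^ 2 * h) = a ∧ mid L (a + M L * m + M L ^ 2 * h) = m ∧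
      hi L (a + M L * m + M L ^ 2 * h) = h := by
  have e : a + M L * m + M L ^ 2 * h = a + M L * (m + M L * h) := by ring
  have hdiv : (a + M L * (m + M L * h)) / M L = m + M L * h := by
    rw [Nat.add_mul_div_left _ _ (M_pos L), Nat.div_eq_of_lt ha, zero_add]
  refine ⟨?_, ?_, ?_⟩
  · rw [lo, e, Nat.add_mul_mod_self_left, Nat.mod_eq_of_lt ha]
  · rw [mid, e, hdiv, Nat.add_mul_mod_self_left, Nat.mod_eq_of_lt hm]
  · rw [hi, e, pow_two, ← Nat.div_div_eq_div_mul, hdiv, Nat.add_mul_div_left _ _ (M_pos L),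
      Nat.div_eq_of_lt hm, zero_add]

lemma lo_zero (L : ℕ) : lo L 0 = 0 := Nat.zero_mod _

lemma mid_zero (L : ℕ) : mid L 0 = 0 := by simp [mid]

lemma hi_zero (L : ℕ) : hi L 0 = 0 := Nat.zero_div _

/-! ### Successor by parts -/

lemma parts_succ (L y : ℕ) :
    (lo L (y + 1) = if lo L y = M L - 1 then 0 else lo L y + 1) ∧
    (mid L (y + 1) =
      if lo L y = M L - 1 then (if mid L y = M L - 1 then 0 else mid L y + 1) else mid L y) ∧
    (hi L (y + 1) =
      if lo L y = M L - 1 ∧ mid L y = M L - 1 then hi L y + 1 else hi L y) := by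
  have hM := M_pos L
  have ha := lo_lt L y
  have hm := mid_lt L y
  have e := parts_eq L y
  by_cases h1 : lo L y = M L - 1
  · by_cases h2 : mid L y = M L - 1
    · have e' : y + 1 = 0 + M L * 0 + M L ^ 2 * (hi L y + 1) := by
        obtain ⟨M', hM'⟩ : ∃ M', M L = M' + 1 := ⟨M L - 1, by omega⟩
        rw [h1, h2, hM'] at e
        rw [hM']
        simp only [Nat.add_sub_cancel] at e
        nlinarith [e]
      rw [if_pos h1, if_pos h1, if_pos h2, if_pos ⟨h1, h2⟩, e']
      exact parts_of_eq hM hM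
    · have e' : y + 1 = 0 + M L * (mid L y + 1) + M L ^ 2 * hi L y := by
        rw [Nat.mul_add, mul_one]; omega
      rw [if_pos h1, if_pos h1, if_neg h2, if_neg (fun h => h2 h.2), e']
      exact parts_of_eq hM (by omega)
  · have e' : y + 1 = (lo L y + 1) + M L * mid L y + M L ^ 2 * hi L y := by omega
    rw [if_neg h1, if_neg h1, if_neg (fun h => h1 h.1), e']
    exact parts_of_eq (by omega) hm

lemma succ_parts_mod (L y : ℕ) :
    (lo L y + 1) % M L = lo L ((y + 1) % H L) ∧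
    mid L ((y + 1) % H L) =
      (if lo L y = M L - 1 then (mid L y + 1) % M L else mid L y) ∧
    (y < H L → hi L ((y + 1) % H L) =
      (if lo L y = M L - 1 ∧ mid L y = M L - 1 then (hi L y + 1) % M L else hi L y)) := by
  have hM := M_pos L
  have ha := lo_lt L y
  have hm := mid_lt L y
  obtain ⟨p1, p2, p3⟩ := parts_succ L y
  have e1 : lo L ((y + 1) % H L) = lo L (y + 1) :=
    Nat.mod_mod_of_dvd _ (dvd_pow_self _ (by norm_num))
  have e2 : mid L ((y + 1) % H L) = mid L (y + 1) := by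
    unfold mid H
    rw [pow_succ' (M L) 2, Nat.mod_mul_right_div_self, Nat.mod_mod_of_dvd _ (dvd_pow_self _ two_ne_zero)]
  refine ⟨?_, ?_, fun hy => ?_⟩
  · rw [e1, p1]
    split_ifs with h
    · rw [h, Nat.sub_add_cancel hM, Nat.mod_self]
    · exact Nat.mod_eq_of_lt (by omega)
  · rw [e2, p2]
    split_ifs with h h'
    · rw [h', Nat.sub_add_cancel hM, Nat.mod_self]
    · rw [Nat.mod_eq_of_lt (by omega)]
    · rfl
  · have hh := hi_lt hy
    have e3 : hi L ((y + 1) % H L) = hi L (y + 1) % M L := by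
      unfold hi H
      rw [pow_succ (M L) 2, Nat.mod_mul_right_div_self]
    rw [e3, p3]
    split_ifs with h
    · rfl
    · exact Nat.mod_eq_of_lt hh

/-! ### Wire rows -/

lemma isWire_iff (L y : ℕ) (hL : 1 ≤ L) : IsWire L y ↔ y = M L + M L ^ 2 * hi L y := by
  have h2 : 1 < M L := Nat.one_lt_two_pow (by omega)
  constructor
  · rintro ⟨h0, h1⟩
    conv_lhs => rw [← parts_eq L y, h0, h1]
    ring
  · intro h
    have := parts_of_eq (L := L) (a := 0) (m := 1) (h := hi L y) (M_pos L) h2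
    rw [zero_add, mul_one, ← h] at this
    exact ⟨this.1, this.2.1⟩

lemma lt_rowsBelow_iff (L y k : ℕ) (hL : 1 ≤ L) :
    k < rowsBelow L y ↔ M L + M L ^ 2 * k < y := by
  have hM := M_pos L
  have hM2 : 0 < M L ^ 2 := Nat.pow_pos hM
  have d := Nat.div_add_mod (y - M L) (M L ^ 2)
  have r := Nat.mod_lt (y - M L) hM2
  unfold rowsBelow rowIdx
  by_cases hy : y < M L
  · rw [if_pos hy]
    exact iff_of_false (Nat.not_lt_zero k) (by omega)
  rw [if_neg hy]
  set q := (y - M L) / M L ^ 2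
  by_cases hw : IsWire L y
  · rw [if_pos hw]
    have e := (isWire_iff L y hL).1 hw
    have eq : q = hi L y := by
      show (y - M L) / M L ^ 2 = _
      conv_lhs => rw [e, Nat.add_sub_cancel_left, Nat.mul_div_cancel_left _ hM2]
    have hr0 : M L ^ 2 * q + M L = y := by rw [eq]; omega
    constructor <;> intro h
    · have := Nat.mul_le_mul_left (M L ^ 2) h; rw [Nat.mul_succ] at this; omega
    · by_contra h'
      have := Nat.mul_le_mul_left (M L ^ 2) (Nat.le_of_not_lt h')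
      omega
  · rw [if_neg hw]
    have hr0 : (y - M L) % M L ^ 2 ≠ 0 := by
      intro h0
      refine hw ?_
      have e : y = 0 + M L * 1 + M L ^ 2 * q := by rw [mul_one]; omega
      obtain ⟨a, b, -⟩ := parts_of_eq (L := L) (a := 0) (m := 1) (h := q) hM
        (Nat.one_lt_two_pow (by omega))
      rw [← e] at a b
      exact ⟨a, b⟩
    generalize (y - M L) % M L ^ 2 = rr at d r hr0
    constructor <;> intro h
    · have := Nat.mul_le_mul_left (M L ^ 2) (Nat.lt_succ_iff.1 h); omega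
    · by_contra h'
      have := Nat.mul_le_mul_left (M L ^ 2) (Nat.le_of_not_lt h')
      rw [Nat.mul_succ] at this
      omega

lemma rowsBelow_succ (L y : ℕ) (hL : 1 ≤ L) :
    rowsBelow L (y + 1) = rowsBelow L y + if IsWire L y then 1 else 0 := by
  have hM2 : 0 < M L ^ 2 := Nat.pow_pos (M_pos L)
  refine eq_of_forall_lt_iff fun k => ?_
  rw [lt_rowsBelow_iff L _ k hL]
  by_cases hw : IsWire L y
  · rw [if_pos hw]
    have e := (isWire_iff L y hL).1 hw
    have h1 : rowsBelow L y = hi L y := by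
      refine eq_of_forall_lt_iff fun j => ?_
      rw [lt_rowsBelow_iff L y j hL]
      constructor <;> intro h
      · exact Nat.lt_of_mul_lt_mul_left (a := M L ^ 2) (by omega)
      · have := (Nat.mul_lt_mul_left hM2).2 h; omega
    rw [h1]
    constructor <;> intro h
    · exact Nat.lt_succ_iff.2 (Nat.le_of_mul_le_mul_left (by omega) hM2)
    · have := Nat.mul_le_mul_left (M L ^ 2) (Nat.lt_succ_iff.1 h); omega
  · rw [if_neg hw, add_zero, lt_rowsBelow_iff L y k hL]
    constructor <;> intro h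
    · rcases Nat.lt_succ_iff_lt_or_eq.1 h with h' | h'
      · exact h'
      · refine absurd ?_ hw
        obtain ⟨a, b, -⟩ := parts_of_eq (L := L) (a := 0) (m := 1) (h := k) (M_pos L)
          (Nat.one_lt_two_pow (by omega))
        rw [zero_add, mul_one, h'] at a b
        exact ⟨a, b⟩
    · omega

/-- The scanning row at a non-wire height is the last wire row below it. -/
lemma rowIdx_eq (L y : ℕ) (hL : 1 ≤ L) (hy : M L ≤ y) :
    (IsWire L y → rowIdx L y = hi L y) ∧ (¬ IsWire L y → rowIdx L y + 1 = rowsBelow L y) := by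
  constructor
  · intro hw
    rw [rowIdx]
    conv_lhs => rw [(isWire_iff L y hL).1 hw, Nat.add_sub_cancel_left,
      Nat.mul_div_cancel_left _ (Nat.pow_pos (M_pos L))]
  · intro hw
    rw [rowsBelow, if_neg (by omega), if_neg hw]

end Vale.Agent.P196.Tile.Num
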