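import Vale.Agent.P196.Defs

/-!
P196, module D: modulo 2 the surroundings of the children of a parent do not depend on the parents.

A macro tile has side `2H`, `H = m^3`. Around any child either nothing depends on the parents, or
nothing depends on the left/right half, or nothing depends on the lower/upper half; so the children
pair off under a translation by `H`.
-/

namespace Vale.Agent.P196.Tile.Parity

open Finset

/-! ### Coordinates -/

/-- Columns of the bundle. -/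
def Bund (m x : ℤ) : Prop := m ≤ x ∧ 2 * x ≤ 3 * m

/-- The column storing the upper half. -/
def ColQ (m x : ℤ) : Prop := x = 2 * m

/-- The scanning column and the table columns. -/
def Band (m x : ℤ) : Prop := 3 * m ≤ x ∧ 2 * x ≤ 13 * m

/-- The left edge and the columns right of the band. -/
def Right (m x : ℤ) : Prop := x = 0 ∨ 7 * m ≤ x

/-- The row of the horizontal half. -/
def QRow (m y : ℤ) : Prop := y = 2 * m

/-- The middle row storing the upper half. -/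
def HalfRow (m H y : ℤ) : Prop := 2 * y = 4 * m + H

/-- Rows above it. -/
def Above (m H y : ℤ) : Prop := 4 * m + H < 2 * y

/-- Wire rows in use. -/
def Wire (m H y : ℤ) : Prop := y = m ∨ (m + m ^ 2 ≤ y ∧ 4 * y ≤ H + 4 * m)

/-- The child may depend on the bits of the parents. -/
def PB (m H x y : ℤ) : Prop := Wire m H y ∨ Bund m x ∨ Band m x

/-- The child may depend on the left/right half. -/
def QX (m x y : ℤ) : Prop := QRow m y ∨ Right m x

/-- The child may depend on the lower/upper half. -/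
def QY (m H x y : ℤ) : Prop := y = 0 ∨ HalfRow m H y ∨ ColQ m x ∨ (Bund m x ∧ Above m H y)

/-- A residue near a residue. -/
theorem emod_add_small {H p u : ℤ} (hu : u ≤ H) (hu' : -H ≤ u) (hH : 0 < H) :
    (p + u) % H = p % H + u ∨ (p + u) % H = p % H + u + H ∨ (p + u) % H = p % H + u - H := by
  have h1 := Int.emod_nonneg p hH.ne'
  have h2 := Int.emod_lt_of_pos p hH
  have e : (p + u) % H = (p % H + u) % H := by rw [Int.emod_add_emod]
  rcases lt_or_ge (p % H + u) 0 with h | h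
  · refine Or.inr (Or.inl ?_)
    rw [e, ← Int.add_emod_right (p % H + u) H]
    exact Int.emod_eq_of_lt (by omega) (by omega)
  · rcases lt_or_ge (p % H + u) H with h' | h'
    · exact Or.inl (e.trans (Int.emod_eq_of_lt h h'))
    · refine Or.inr (Or.inr ?_)
      rw [e, ← Int.sub_emod_right (p % H + u) H]
      exact Int.emod_eq_of_lt (by omega) (by omega)

/-- No small square meets all three kinds of children. -/
theorem no_three {m H r : ℤ} (hr : 0 ≤ r) (hm : 100 * r + 100 ≤ m) (hS : 100 * m ≤ m ^ 2)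
    (hH : 100 * m ^ 2 ≤ H) {p u₁ u₂ u₃ : V}
    (h₁ : -r ≤ u₁.1 ∧ u₁.1 ≤ r ∧ -r ≤ u₁.2 ∧ u₁.2 ≤ r)
    (h₂ : -r ≤ u₂.1 ∧ u₂.1 ≤ r ∧ -r ≤ u₂.2 ∧ u₂.2 ≤ r)
    (h₃ : -r ≤ u₃.1 ∧ u₃.1 ≤ r ∧ -r ≤ u₃.2 ∧ u₃.2 ≤ r)
    (b₁ : PB m H ((p + u₁).1 % H) ((p + u₁).2 % H))
    (b₂ : QX m ((p + u₂).1 % H) ((p + u₂).2 % H))
    (b₃ : QY m H ((p + u₃).1 % H) ((p + u₃).2 % H)) : False := by
  have hH0 : 0 < H := by omega
  simp only [Prod.fst_add, Prod.snd_add] at b₁ b₂ b₃
  have x1 := emod_add_small (p := p.1) (u := u₁.1) (H := H) (by omega) (by omega) hH0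
  have x2 := emod_add_small (p := p.1) (u := u₂.1) (H := H) (by omega) (by omega) hH0
  have x3 := emod_add_small (p := p.1) (u := u₃.1) (H := H) (by omega) (by omega) hH0
  have y1 := emod_add_small (p := p.2) (u := u₁.2) (H := H) (by omega) (by omega) hH0
  have y2 := emod_add_small (p := p.2) (u := u₂.2) (H := H) (by omega) (by omega) hH0
  have y3 := emod_add_small (p := p.2) (u := u₃.2) (H := H) (by omega) (by omega) hH0
  have n1 := Int.emod_nonneg (p.1 + u₁.1) hH0.ne'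
  have n2 := Int.emod_nonneg (p.1 + u₂.1) hH0.ne'
  have n3 := Int.emod_nonneg (p.1 + u₃.1) hH0.ne'
  have n4 := Int.emod_nonneg (p.2 + u₁.2) hH0.ne'
  have n5 := Int.emod_nonneg (p.2 + u₂.2) hH0.ne'
  have n6 := Int.emod_nonneg (p.2 + u₃.2) hH0.ne'
  have l1 := Int.emod_lt_of_pos (p.1 + u₁.1) hH0
  have l2 := Int.emod_lt_of_pos (p.1 + u₂.1) hH0
  have l3 := Int.emod_lt_of_pos (p.1 + u₃.1) hH0
  have l4 := Int.emod_lt_of_pos (p.2 + u₁.2) hH0
  have l5 := Int.emod_lt_of_pos (p.2 + u₂.2) hH0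
  have l6 := Int.emod_lt_of_pos (p.2 + u₃.2) hH0
  generalize (p.1 + u₁.1) % H = a₁ at *
  generalize (p.1 + u₂.1) % H = a₂ at *
  generalize (p.1 + u₃.1) % H = a₃ at *
  generalize (p.2 + u₁.2) % H = c₁ at *
  generalize (p.2 + u₂.2) % H = c₂ at *
  generalize (p.2 + u₃.2) % H = c₃ at *
  -- closeness of the coordinates
  have near : ∀ {z s t a b : ℤ}, -r ≤ s → s ≤ r → -r ≤ t → t ≤ r →
      (a = z + s ∨ a = z + s + H ∨ a = z + s - H) → (b = z + t ∨ b = z + t + H ∨ b = z + t - H) →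
      0 ≤ a → a < H → 0 ≤ b → b < H →
      (a - b ≤ 2 * r ∧ b - a ≤ 2 * r) ∨ H - 2 * r ≤ a - b ∨ H - 2 * r ≤ b - a := by
    intro z s t a b _ _ _ _ ha hb _ _ _ _; omega
  have dx12 := near h₁.1 h₁.2.1 h₂.1 h₂.2.1 x1 x2 n1 l1 n2 l2
  have dx13 := near h₁.1 h₁.2.1 h₃.1 h₃.2.1 x1 x3 n1 l1 n3 l3
  have dx23 := near h₂.1 h₂.2.1 h₃.1 h₃.2.1 x2 x3 n2 l2 n3 l3
  have dy12 := near h₁.2.2.1 h₁.2.2.2 h₂.2.2.1 h₂.2.2.2 y1 y2 n4 l4 n5 l5
  have dy13 := near h₁.2.2.1 h₁.2.2.2 h₃.2.2.1 h₃.2.2.2 y1 y3 n4 l4 n6 l6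
  have dy23 := near h₂.2.2.1 h₂.2.2.2 h₃.2.2.1 h₃.2.2.2 y2 y3 n5 l5 n6 l6
  generalize hS' : m ^ 2 = S at *
  simp only [PB, QX, QY, Wire, Bund, Band, Right, QRow, HalfRow, ColQ, Above, hS'] at b₁ b₂ b₃
  rcases b₁ with b₁ | b₁ | b₁
  · rcases b₂ with b₂ | b₂
    · omega
    · rcases b₃ with b₃ | b₃ | b₃ | b₃ <;> omega
  · rcases b₂ with b₂ | b₂
    · rcases b₃ with b₃ | b₃ | b₃ | b₃ <;> omega
    · omega
  · rcases b₂ with b₂ | b₂
    · rcases b₃ with b₃ | b₃ | b₃ | b₃ <;> omega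
    · omega

/-! ### Sums modulo 2 -/

theorem sum_double (n : ℕ) (f : ℕ → ZMod 2) :
    ∑ i ∈ range (2 * n), f i = ∑ i ∈ range n, (f i + f (n + i)) := by
  rw [two_mul, sum_range_add, sum_add_distrib]

theorem line_sum (n : ℕ) (f g : ℕ → ZMod 2)
    (h : ∀ i < n, (f i = g i ∧ f (n + i) = g (n + i)) ∨ (f (n + i) = f i ∧ g (n + i) = g i)) :
    ∑ i ∈ range (2 * n), f i = ∑ i ∈ range (2 * n), g i := by
  rw [sum_double, sum_double]
  refine sum_congr rfl fun i hi => ?_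
  rcases h i (mem_range.1 hi) with ⟨a, b⟩ | ⟨a, b⟩
  · rw [a, b]
  · rw [a, b, CharTwo.add_self_eq_zero, CharTwo.add_self_eq_zero]

theorem square_sum (n : ℕ) (f g : ℕ × ℕ → ZMod 2)
    (h : ∀ x < n, ∀ y < n,
      (f (x, y) = g (x, y) ∧ f (n + x, y) = g (n + x, y) ∧ f (x, n + y) = g (x, n + y) ∧
        f (n + x, n + y) = g (n + x, n + y)) ∨
      (f (n + x, y) = f (x, y) ∧ f (n + x, n + y) = f (x, n + y) ∧
        g (n + x, y) = g (x, y) ∧ g (n + x, n + y) = g (x, n + y)) ∨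
      (f (x, n + y) = f (x, y) ∧ f (n + x, n + y) = f (n + x, y) ∧
        g (x, n + y) = g (x, y) ∧ g (n + x, n + y) = g (n + x, y))) :
    ∑ q ∈ range (2 * n) ×ˢ range (2 * n), f q = ∑ q ∈ range (2 * n) ×ˢ range (2 * n), g q := by
  rw [sum_product, sum_product, sum_double, sum_double]
  refine sum_congr rfl fun x hx => ?_
  rw [sum_double, sum_double, sum_double, sum_double, ← sum_add_distrib, ← sum_add_distrib]
  refine sum_congr rfl fun y hy => ?_
  rcases h x (mem_range.1 hx) y (mem_range.1 hy) with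
    ⟨a, b, c, d⟩ | ⟨a, b, c, d⟩ | ⟨a, b, c, d⟩
  · rw [a, b, c, d]
  · rw [a, b, c, d, CharTwo.add_self_eq_zero, CharTwo.add_self_eq_zero]
  · rw [a, b, c, d, CharTwo.add_self_eq_zero, CharTwo.add_self_eq_zero]
    simp [CharTwo.add_self_eq_zero]

/-! ### The children of one parent -/

/-- Displacements in a small square. -/
abbrev Off (r : ℕ) := {u : V // -(r : ℤ) ≤ u.1 ∧ u.1 ≤ r ∧ -(r : ℤ) ≤ u.2 ∧ u.2 ≤ r}

/-- What `no_three` needs of the children. -/
structure Pairing {ι α : Type} (m H : ℤ) (T : ι → V → α) : Prop where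
  free : ∀ c c' v, ¬ PB m H (v.1 % H) (v.2 % H) → T c v = T c' v
  xfree : ∀ c v, 0 < v.1 → v.1 < H → ¬ QX m (v.1 % H) (v.2 % H) → T c (v + (H, 0)) = T c v
  yfree : ∀ c v, 0 < v.2 → v.2 < H → ¬ QY m H (v.1 % H) (v.2 % H) → T c (v + (0, H)) = T c v

variable {ι α : Type} {m H : ℤ} {T : ι → V → α} {r : ℕ}

/-- The trichotomy around a child in the lower left quarter. -/
theorem around_cases (hT : Pairing m H T) (hm : 100 * (r : ℤ) + 100 ≤ m) (hS : 100 * m ≤ m ^ 2)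
    (hH : 100 * m ^ 2 ≤ H) (G : (Off r → α) → ZMod 2) (p : V) :
    (∀ c c' : ι, ∀ e : V, e.1 % H = 0 → e.2 % H = 0 →
      G (fun u => T c (p + e + u.1)) = G (fun u => T c' (p + e + u.1))) ∨
    (¬ QX m (p.1 % H) (p.2 % H) ∧ ∀ c : ι, ∀ e : V, e.1 = 0 → e.2 % H = 0 → 0 ≤ p.1 → p.1 < H →
      G (fun u => T c (p + e + (H, 0) + u.1)) = G (fun u => T c (p + e + u.1))) ∨
    (¬ QY m H (p.1 % H) (p.2 % H) ∧ ∀ c : ι, ∀ e : V, e.2 = 0 → e.1 % H = 0 → 0 ≤ p.2 → p.2 < H →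
      G (fun u => T c (p + e + (0, H) + u.1)) = G (fun u => T c (p + e + u.1))) := by
  classical
  have key : ∀ e : V, e.1 % H = 0 → e.2 % H = 0 → ∀ u : V,
      (p + e + u).1 % H = (p + u).1 % H ∧ (p + e + u).2 % H = (p + u).2 % H := by
    intro e he he' u
    constructor
    · rw [show (p + e + u).1 = (p + u).1 + e.1 by simp; ring, Int.add_emod, he, add_zero,
        Int.emod_emod]
    · rw [show (p + e + u).2 = (p + u).2 + e.2 by simp; ring, Int.add_emod, he', add_zero,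
        Int.emod_emod]
  by_cases hP : ∀ u : Off r, ¬ PB m H ((p + u.1).1 % H) ((p + u.1).2 % H)
  · refine Or.inl fun c c' e he he' => congrArg G (funext fun u => hT.free c c' _ ?_)
    rw [(key e he he' u).1, (key e he he' u).2]
    exact hP u
  by_cases hQ : ∀ u : Off r, ¬ QX m ((p + u.1).1 % H) ((p + u.1).2 % H)
  · refine Or.inr (Or.inl ⟨by simpa using hQ ⟨0, by simp⟩, fun c e he he' h0 h1 => ?_⟩)
    refine congrArg G (funext fun u => ?_)
    rw [add_right_comm (p + e) (H, 0) u.1]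
    have he1 : e.1 % H = 0 := by rw [he]; simp
    have hq := hQ u
    rw [← (key e he1 he' u).1, ← (key e he1 he' u).2] at hq
    obtain ⟨u1, u2, u3, u4⟩ := u.2
    -- the square does not meet the left edge of a half
    have hlow : 0 < p.1 + u.1.1 := by
      by_contra hcon
      exact hQ ⟨(-p.1, 0), by simp only; omega⟩ (Or.inr (Or.inl (by simp)))
    have hhigh : p.1 + u.1.1 < H := by
      by_contra hcon
      exact hQ ⟨(H - p.1, 0), by simp only; omega⟩ (Or.inr (Or.inl (by simp)))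
    exact hT.xfree c _ (by simp [he]; omega) (by simp [he]; omega) hq
  refine Or.inr (Or.inr ?_)
  push Not at hP hQ
  obtain ⟨u₁, b₁⟩ := hP
  obtain ⟨u₂, b₂⟩ := hQ
  have hR : ∀ u : Off r, ¬ QY m H ((p + u.1).1 % H) ((p + u.1).2 % H) := fun u b =>
    no_three (r := r) (by positivity) hm hS hH u₁.2 u₂.2 u.2 b₁ b₂ b
  refine ⟨by simpa using hR ⟨0, by simp⟩, fun c e he he' h0 h1 => ?_⟩
  refine congrArg G (funext fun u => ?_)
  rw [add_right_comm (p + e) (0, H) u.1]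
  have he2 : e.2 % H = 0 := by rw [he]; simp
  have hq := hR u
  rw [← (key e he' he2 u).1, ← (key e he' he2 u).2] at hq
  obtain ⟨u1, u2, u3, u4⟩ := u.2
  have hlow : 0 < p.2 + u.1.2 := by
    by_contra hcon
    exact hR ⟨(0, -p.2), by simp only; omega⟩ (Or.inl (by simp))
  have hhigh : p.2 + u.1.2 < H := by
    by_contra hcon
    exact hR ⟨(0, H - p.2), by simp only; omega⟩ (Or.inl (by simp))
  exact hT.yfree c _ (by simp [he]; omega) (by simp [he]; omega) hq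

variable {n : ℕ}

theorem area (hT : Pairing m (n : ℤ) T) (hm : 100 * (r : ℤ) + 100 ≤ m) (hS : 100 * m ≤ m ^ 2)
    (hH : 100 * m ^ 2 ≤ n) (G : (Off r → α) → ZMod 2) (c c' : ι) :
    ∑ q ∈ range (2 * n) ×ˢ range (2 * n), G (fun u => T c (((q.1 : ℤ), (q.2 : ℤ)) + u.1)) =
      ∑ q ∈ range (2 * n) ×ˢ range (2 * n), G (fun u => T c' (((q.1 : ℤ), (q.2 : ℤ)) + u.1)) := by
  refine square_sum n _ _ fun x hx y hy => ?_
  have e1 : (((n + x : ℕ) : ℤ), (y : ℤ)) = ((x : ℤ), (y : ℤ)) + ((n : ℤ), 0) := by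
    ext <;> simp <;> ring
  have e2 : ((x : ℤ), ((n + y : ℕ) : ℤ)) = ((x : ℤ), (y : ℤ)) + (0, (n : ℤ)) := by
    ext <;> simp <;> ring
  have e3 : (((n + x : ℕ) : ℤ), ((n + y : ℕ) : ℤ)) =
      ((x : ℤ), (y : ℤ)) + (0, (n : ℤ)) + ((n : ℤ), 0) := by ext <;> simp <;> ring
  have e3' : (((n + x : ℕ) : ℤ), ((n + y : ℕ) : ℤ)) =
      ((x : ℤ), (y : ℤ)) + ((n : ℤ), 0) + (0, (n : ℤ)) := by ext <;> simp <;> ring
  rcases around_cases hT hm hS hH G ((x : ℤ), (y : ℤ)) with h | ⟨-, h⟩ | ⟨-, h⟩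
  · refine Or.inl ⟨?_, ?_, ?_, ?_⟩
    · simpa using h c c' 0 (by simp) (by simp)
    · rw [e1]; exact h c c' _ (by simp) (by simp)
    · rw [e2]; exact h c c' _ (by simp) (by simp)
    · rw [e3, add_assoc _ (0, (n : ℤ)) ((n : ℤ), 0)]
      exact h c c' _ (by simp) (by simp)
  · refine Or.inr (Or.inl ⟨?_, ?_, ?_, ?_⟩) <;> simp only [e1, e2, e3]
    · simpa using h c 0 rfl (by simp) (by simp) (by simp; omega)
    · exact h c (0, (n : ℤ)) rfl (by simp) (by simp) (by simp; omega)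
    · simpa using h c' 0 rfl (by simp) (by simp) (by simp; omega)
    · exact h c' (0, (n : ℤ)) rfl (by simp) (by simp) (by simp; omega)
  · refine Or.inr (Or.inr ⟨?_, ?_, ?_, ?_⟩) <;> simp only [e1, e2, e3']
    · simpa using h c 0 rfl (by simp) (by simp) (by simp; omega)
    · exact h c ((n : ℤ), 0) rfl (by simp) (by simp) (by simp; omega)
    · simpa using h c' 0 rfl (by simp) (by simp) (by simp; omega)
    · exact h c' ((n : ℤ), 0) rfl (by simp) (by simp) (by simp; omega)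

theorem bottom (hT : Pairing m (n : ℤ) T) (hm : 100 * (r : ℤ) + 100 ≤ m) (hS : 100 * m ≤ m ^ 2)
    (hH : 100 * m ^ 2 ≤ n) (G : (Off r → α) → ZMod 2) (c c' : ι) :
    ∑ i ∈ range (2 * n), G (fun u => T c (((i : ℤ), 0) + u.1)) =
      ∑ i ∈ range (2 * n), G (fun u => T c' (((i : ℤ), 0) + u.1)) := by
  refine line_sum n _ _ fun i hi => ?_
  have e : (((n + i : ℕ) : ℤ), (0 : ℤ)) = ((i : ℤ), (0 : ℤ)) + ((n : ℤ), 0) := by
    ext <;> simp <;> ring
  rcases around_cases hT hm hS hH G ((i : ℤ), (0 : ℤ)) with h | ⟨-, h⟩ | ⟨h, -⟩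
  · exact Or.inl ⟨by simpa using h c c' 0 (by simp) (by simp),
      by rw [e]; exact h c c' _ (by simp) (by simp)⟩
  · refine Or.inr ⟨?_, ?_⟩ <;> rw [e]
    · simpa using h c 0 rfl (by simp) (by simp) (by simp; omega)
    · simpa using h c' 0 rfl (by simp) (by simp) (by simp; omega)
  · exact absurd (Or.inl (by simp)) h

theorem left (hT : Pairing m (n : ℤ) T) (hm : 100 * (r : ℤ) + 100 ≤ m) (hS : 100 * m ≤ m ^ 2)
    (hH : 100 * m ^ 2 ≤ n) (G : (Off r → α) → ZMod 2) (c c' : ι) :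
    ∑ j ∈ range (2 * n), G (fun u => T c ((0, (j : ℤ)) + u.1)) =
      ∑ j ∈ range (2 * n), G (fun u => T c' ((0, (j : ℤ)) + u.1)) := by
  refine line_sum n _ _ fun j hj => ?_
  have e : ((0 : ℤ), ((n + j : ℕ) : ℤ)) = ((0 : ℤ), (j : ℤ)) + (0, (n : ℤ)) := by
    ext <;> simp <;> ring
  rcases around_cases hT hm hS hH G ((0 : ℤ), (j : ℤ)) with h | ⟨h, -⟩ | ⟨-, h⟩
  · exact Or.inl ⟨by simpa using h c c' 0 (by simp) (by simp),
      by rw [e]; exact h c c' _ (by simp) (by simp)⟩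
  · exact absurd (Or.inr (Or.inl (by simp))) h
  · refine Or.inr ⟨?_, ?_⟩ <;> rw [e]
    · simpa using h c 0 rfl (by simp) (by simp) (by simp; omega)
    · simpa using h c' 0 rfl (by simp) (by simp) (by simp; omega)

end Vale.Agent.P196.Tile.Parity
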