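import Vale.Agent.P196.Tile.Levels
import Vale.Agent.P196.Tile.Parity
import Vale.Agent.P196.Tile.Count.Children

/-!
P196, module D: the children of the tiles of a level satisfy the hypotheses of the parity count.
-/

noncomputable section

namespace Vale.Agent.P196.Tile

open Finset

theorem M_sizes {L : ℕ} (hL : L₀ ≤ L) :
    65536 ≤ M L ∧ 100 * M L ≤ M L ^ 2 ∧ 100 * M L ^ 2 ≤ H L ∧ 2 * 2 ^ B ≤ M L := by
  have h := M_big hL
  have h0 : 50000 ≤ L := le_L₀.trans hL
  have h1 : 65536 ≤ M L := by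
    simp only [show A = 1024 from rfl] at h
    omega
  refine ⟨h1, ?_, ?_, ?_⟩
  · rw [sq]
    exact Nat.mul_le_mul_right _ (by omega)
  · rw [H_eq]
    exact Nat.mul_le_mul_right _ (by omega)
  · rw [M, ← pow_succ']
    exact Nat.pow_le_pow_right (by norm_num) (by simp only [B, A]; omega)

variable {L x y : ℕ}

theorem col_eq {k : ℕ} (h : IsCol L x k) : x = M L * k + lo L x := by
  have := coord_decomp L x
  rwa [h.1, h.2, mul_zero, zero_add] at this

theorem bund_of_col (hL : L₀ ≤ L) (h : IsBundle L x ∧ lo L x / 2 ≤ lastK L) :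
    Parity.Bund (M L) x := by
  have := col_eq h.1.1
  have := lastK_lt hL
  have := h.2
  simp only [Parity.Bund]
  omega

theorem band_of_carry (hL : L₀ ≤ L) (h : IsCol L x 3) (h0 : lo L x = 0) :
    Parity.Band (M L) x := by
  have := col_eq h
  have := M_sizes hL
  simp only [Parity.Band]
  omega

theorem band_of_zone (hL : L₀ ≤ L) (h : IsZone L x 4 ∨ IsZone L x 6) :
    Parity.Band (M L) x := by
  have := M_sizes hL
  simp only [Parity.Band]
  rcases h with h | h <;>
  · have := col_eq h.1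
    have := h.2.2
    omega

theorem wire_of (hL : L₀ ≤ L) (h : IsWire L y ∧ hi L y ≤ lastK L) :
    Parity.Wire (M L) (H L) y := by
  have h1 := wire_eq h.1
  have h2 := lastK_lt hL
  have h3 : M L ^ 2 * (4 * hi L y) ≤ M L ^ 2 * M L :=
    Nat.mul_le_mul_left _ (by have := h.2; omega)
  rw [← pow_succ, show 2 + 1 = 3 by norm_num, ← H, mul_left_comm] at h3
  simp only [Parity.Wire]
  by_cases h0 : hi L y = 0
  · rw [h0, mul_zero, zero_add] at h1
    omega
  · have h4 : M L ^ 2 * 1 ≤ M L ^ 2 * hi L y := Nat.mul_le_mul_left _ (by omega)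
    have hsq : ((M L : ℤ)) ^ 2 = ((M L ^ 2 : ℕ) : ℤ) := by push_cast; rfl
    rw [hsq]
    generalize M L ^ 2 * hi L y = K at *
    generalize M L ^ 2 = S at *
    omega

theorem child_free (hL : L₀ ≤ L) {X Y : ℕ} (τ : ℕ → Bool) (b b' : ℕ → Quad)
    (h : ¬ Parity.PB (M L) (H L) ((X % H L : ℕ) : ℤ) ((Y % H L : ℕ) : ℤ)) :
    child L τ b X Y = child L τ b' X Y := by
  simp only [Parity.PB, not_or] at h
  obtain ⟨hw, hb, hz⟩ := h
  have nw : ¬ (IsWire L (Y % H L) ∧ hi L (Y % H L) ≤ lastK L) := fun e => hw (wire_of hL e)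
  have nb : ¬ (IsBundle L (X % H L) ∧ lo L (X % H L) / 2 ≤ lastK L) := fun e => hb (bund_of_col hL e)
  have nc : ¬ (IsCol L (X % H L) 3 ∧ lo L (X % H L) = 0) := fun e =>
    hz (band_of_carry hL e.1 e.2)
  have n4 : ¬ IsZone L (X % H L) 4 := fun e => hz (band_of_zone hL (Or.inl e))
  have n6 : ¬ IsZone L (X % H L) 6 := fun e => hz (band_of_zone hL (Or.inr e))
  unfold child
  simp only [← and_assoc, nw, nb, nc, n4, n6, false_and, if_false]

theorem child_xfree {X Y : ℕ} (τ : ℕ → Bool) (b : ℕ → Quad)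
    (h : ¬ Parity.QX (M L) ((X % H L : ℕ) : ℤ) ((Y % H L : ℕ) : ℤ)) :
    child L τ b (X + H L) Y = child L τ b X Y := by
  simp only [Parity.QX, Parity.QRow, Parity.Right, not_or] at h
  obtain ⟨hq, h0, hr⟩ := h
  have n0 : X % H L ≠ 0 := by omega
  have nq : ¬ (lo L (Y % H L) = 0 ∧ mid L (Y % H L) = 2 ∧ hi L (Y % H L) = 0) := by
    rintro ⟨a, b, c⟩
    have := coord_decomp L (Y % H L)
    rw [a, b, c] at this
    omega
  have n7 : ¬ (IsCol L (X % H L) 7 ∧ lo L (X % H L) = 0) := by
    rintro ⟨a, b⟩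
    have := col_eq a
    omega
  have ncut : ¬ cutX L < X % H L := by
    simp only [cutX]
    omega
  unfold child
  simp [n0, nq, n7, ncut]

theorem child_yfree (hL : L₀ ≤ L) {X Y : ℕ} (τ : ℕ → Bool) (b : ℕ → Quad)
    (h : ¬ Parity.QY (M L) (H L) ((X % H L : ℕ) : ℤ) ((Y % H L : ℕ) : ℤ)) :
    child L τ b X (Y + H L) = child L τ b X Y := by
  simp only [Parity.QY, Parity.ColQ, not_or] at h
  obtain ⟨h0, hh, hq, ha⟩ := h
  have n0 : Y % H L ≠ 0 := by omega
  have nq : ¬ (IsCol L (X % H L) 2 ∧ lo L (X % H L) = 0) := by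
    rintro ⟨a, b⟩
    have := col_eq a
    omega
  have e2 : 2 * halfY L = H L + 4 * M L := by
    have h0 : 50000 ≤ L := le_L₀.trans hL
    have h1 : 2 * (M L / 2) = M L := by
      rw [M, show L = L - 1 + 1 by omega, pow_succ, Nat.mul_div_cancel _ two_pos, mul_comm]
    rw [halfY, H_eq, mul_add, ← mul_assoc, h1]
    omega
  have nr : ¬ IsHalfRow L (Y % H L) := by
    rintro ⟨a, b, c⟩
    refine hh ?_
    have e := coord_decomp L (Y % H L)
    rw [a, b, c, add_zero] at e
    simp only [Parity.HalfRow]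
    rw [halfY, mul_comm (M L / 2)] at e2
    omega
  have nb : IsBundle L (X % H L) → lo L (X % H L) / 2 ≤ lastK L → ¬ halfY L < Y % H L := by
    intro hb hk hlt
    refine ha ⟨bund_of_col hL ⟨hb, hk⟩, ?_⟩
    simp only [Parity.Above]
    omega
  unfold child
  simp [n0, nq, nr]
  funext j
  by_cases h1 : IsBundle L (X % H L)
  · by_cases h2 : lo L (X % H L) / 2 ≤ lastK L
    · simp [h1, h2, nb h1 h2]
    · simp [h2]
  · simp [h1]

/-- The tile at `v` of the expansion of `c`, the parent `(0, 0)` having lower left corner `0`. -/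
def expandTile (L : ℕ) (c : V → St) (v : V) : St :=
  childAt L c (v.1 / side L, v.2 / side L) (v.1 % side L).toNat (v.2 % side L).toNat

theorem toNat_mod (v : ℤ) :
    (((v % side L).toNat % H L : ℕ) : ℤ) = v % H L := by
  have hs : (0 : ℤ) < side L := by
    have : 0 < M L ^ 3 := pow_pos (M_pos L) 3
    simp only [side, H]
    omega
  rw [Int.natCast_emod, Int.toNat_of_nonneg (Int.emod_nonneg _ hs.ne'),
    Int.emod_emod_of_dvd _ ⟨2, by simp only [side]; push_cast; ring⟩]

/-- The expansions of the tilings of the next level satisfy the pairing conditions. -/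
theorem pairing (hL : L₀ ≤ L) : Parity.Pairing (M L : ℤ) (H L : ℤ) (expandTile L) where
  free c c' v h := by
    refine child_free hL table _ _ ?_
    rw [toNat_mod, toNat_mod]
    exact h
  xfree c v h1 h2 h := by
    have e1 : (v + ((H L : ℤ), 0)).1 / (side L : ℤ) = v.1 / (side L : ℤ) ∧
        ((v + ((H L : ℤ), 0)).1 % (side L : ℤ)).toNat = (v.1 % (side L : ℤ)).toNat + H L := by
      simp only [Prod.fst_add, side]
      push_cast
      rw [Int.ediv_eq_zero_of_lt (by omega) (by omega), Int.ediv_eq_zero_of_lt (by omega) (by omega),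
        Int.emod_eq_of_lt (by omega) (by omega), Int.emod_eq_of_lt (by omega) (by omega)]
      omega
    have e2 : (v + ((H L : ℤ), 0)).2 = v.2 := by simp
    simp only [expandTile, childAt, e1, e2]
    refine child_xfree table _ ?_
    rw [toNat_mod, toNat_mod]
    exact h
  yfree c v h1 h2 h := by
    have e1 : (v + (0, (H L : ℤ))).2 / (side L : ℤ) = v.2 / (side L : ℤ) ∧
        ((v + (0, (H L : ℤ))).2 % (side L : ℤ)).toNat = (v.2 % (side L : ℤ)).toNat + H L := by
      simp only [Prod.snd_add, side]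
      push_cast
      rw [Int.ediv_eq_zero_of_lt (by omega) (by omega), Int.ediv_eq_zero_of_lt (by omega) (by omega),
        Int.emod_eq_of_lt (by omega) (by omega), Int.emod_eq_of_lt (by omega) (by omega)]
      omega
    have e2 : (v + (0, (H L : ℤ))).1 = v.1 := by simp
    simp only [expandTile, childAt, e1, e2]
    refine child_yfree hL table _ ?_
    rw [toNat_mod, toNat_mod]
    exact h

theorem parity_hyps (hL : L₀ ≤ L) {r : ℕ} (hr : r ≤ 600) :
    100 * (r : ℤ) + 100 ≤ (M L : ℤ) ∧ 100 * (M L : ℤ) ≤ (M L : ℤ) ^ 2 ∧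
      100 * (M L : ℤ) ^ 2 ≤ (H L : ℤ) := by
  obtain ⟨a, b, c, -⟩ := M_sizes hL
  exact ⟨by omega, by exact_mod_cast b, by exact_mod_cast c⟩

/-- Modulo 2, the surroundings of the children in a whole parent do not depend on the parents. -/
theorem area_parity (hL : L₀ ≤ L) {r : ℕ} (hr : r ≤ 600) (G : (Parity.Off r → St) → ZMod 2)
    (c c' : V → St) :
    ∑ q ∈ range (side L) ×ˢ range (side L),
        G (fun u => expandTile L c (((q.1 : ℤ), (q.2 : ℤ)) + u.1)) =
      ∑ q ∈ range (side L) ×ˢ range (side L),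
        G (fun u => expandTile L c' (((q.1 : ℤ), (q.2 : ℤ)) + u.1)) := by
  obtain ⟨a, b, d⟩ := parity_hyps hL hr
  exact Parity.area (pairing hL) a b d G c c'

/-- Modulo 2, the surroundings of the bottom row of children do not depend on the parents. -/
theorem row_parity (hL : L₀ ≤ L) {r : ℕ} (hr : r ≤ 600) (G : (Parity.Off r → St) → ZMod 2)
    (c c' : V → St) :
    ∑ i ∈ range (side L), G (fun u => expandTile L c (((i : ℤ), 0) + u.1)) =
      ∑ i ∈ range (side L), G (fun u => expandTile L c' (((i : ℤ), 0) + u.1)) := by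
  obtain ⟨a, b, d⟩ := parity_hyps hL hr
  exact Parity.bottom (pairing hL) a b d G c c'

/-- Modulo 2, the surroundings of the left column of children do not depend on the parents. -/
theorem col_parity (hL : L₀ ≤ L) {r : ℕ} (hr : r ≤ 600) (G : (Parity.Off r → St) → ZMod 2)
    (c c' : V → St) :
    ∑ j ∈ range (side L), G (fun u => expandTile L c ((0, (j : ℤ)) + u.1)) =
      ∑ j ∈ range (side L), G (fun u => expandTile L c' ((0, (j : ℤ)) + u.1)) := by
  obtain ⟨a, b, d⟩ := parity_hyps hL hr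
  exact Parity.left (pairing hL) a b d G c c'

end Vale.Agent.P196.Tile
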