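import Vale.Agent.P196.Tile.ChildRules

/-!
P196, module D: the finite predicates read on a tile, for children.
-/

namespace Vale.Agent.P196.Tile

open ChildRules

namespace Claims

/-- The column `x = 0`. -/
def x0 (c : Claims) : Bool :=
  c.xk && c.cx.xh0 && c.cx.xl0 && decide (c.cx.xmC.val = 0)

/-- The column `x = 7*M`. -/
def cut (c : Claims) : Bool :=
  c.xk && c.cx.xh0 && c.cx.xl0 && decide (c.cx.xmC.val = 7)

/-- The middle row. -/
def halfRow (c : Claims) : Bool :=
  c.cy.yl0 && decide (c.cy.ymC.val = 2) && c.cy.yhHalf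

/-- The row carrying the horizontal half. -/
def rowQ (c : Claims) : Bool :=
  c.cy.yl0 && decide (c.cy.ymC.val = 2) && decide (c.cy.yhC.val = 0)

/-- The columns of the vertical bundle. -/
def bundle (c : Claims) : Bool := c.xk && c.cx.xh0 && c.cx.xlEven && decide (c.cx.xmC.val = 1)

/-- The column carrying the vertical half. -/
def colQ (c : Claims) : Bool :=
  c.xk && c.cx.xh0 && c.cx.xl0 && decide (c.cx.xmC.val = 2)

/-- The table columns with the given middle part. -/
def zoneAt (c : Claims) (m : ℕ) : Bool :=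
  c.xk && c.cx.xh0 && c.cx.xlEven && c.cx.xlSmall && decide (c.cx.xmC.val = m)

/-- The band. -/
def band (c : Claims) : Bool := c.cx.xh0 && decide (c.cx.xmC.val ≤ 7)

lemma zone_eq (c : Claims) :
    c.zone = ((c.zoneAt 4 && decide (A - 1 ≤ c.cy.yhC.val)) || c.zoneAt 6) := by
  unfold zone zoneAt
  cases c.xk <;> cases c.cx.xh0 <;> cases c.cx.xlEven <;> cases c.cx.xlSmall <;> simp

end Claims

/-! ### Numbers -/

lemma M_le_of_wire {L y : ℕ} (h : IsWire L y) : M L ≤ y := by
  by_contra hc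
  rw [not_le] at hc
  have := h.2
  rw [mid, Nat.div_eq_of_lt hc, Nat.zero_mod] at this
  omega

lemma y_eq_zero_iff (L y : ℕ) : y = 0 ↔ lo L y = 0 ∧ mid L y = 0 ∧ hi L y = 0 := by
  constructor
  · rintro rfl
    simp [lo, mid, hi]
  · rintro ⟨h1, h2, h3⟩
    have e1 : y % M L ^ 2 = y % M L + M L * (y / M L % M L) := by rw [sq, Nat.mod_mul]
    simp only [lo, mid, hi] at h1 h2 h3
    rw [h1, h2, Nat.mul_zero, Nat.add_zero] at e1
    have := Nat.div_add_mod y (M L ^ 2)
    rw [e1, h3, Nat.mul_zero] at this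
    omega

lemma hi_lt {L y : ℕ} (h : y < H L) : hi L y < M L := by
  unfold hi
  rw [Nat.div_lt_iff_lt_mul (pow_pos (M_pos L) 2)]
  calc y < H L := h
    _ = M L * M L ^ 2 := by unfold H; ring

lemma mid_lt (L y : ℕ) : mid L y < M L := Nat.mod_lt _ (M_pos L)

lemma rowIdx_wire {L y : ℕ} (h : IsWire L y) : rowIdx L y = hi L y := by
  have hsq : 0 < M L ^ 2 := pow_pos (M_pos L) 2
  have e1 : y % M L ^ 2 = y % M L + M L * (y / M L % M L) := by rw [sq, Nat.mod_mul]
  have h1 : y % M L = 0 := h.1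
  have h2 : y / M L % M L = 1 := h.2
  rw [h1, h2, mul_one, Nat.zero_add] at e1
  have := Nat.div_add_mod y (M L ^ 2)
  rw [e1] at this
  show (y - M L) / M L ^ 2 = y / M L ^ 2
  rw [show y - M L = M L ^ 2 * (y / M L ^ 2) from by omega, Nat.mul_div_cancel_left _ hsq]

/-! ### The claims of a child -/

section

variable (L : ℕ) (τ : ℕ → Bool) (b : ℕ → Quad) (X Y : ℕ)

lemma child_xk : (child L τ b X Y).xk = knownX L (X % H L) (Y % H L) := rfl

lemma child_y : (child L τ b X Y).y = Y % H L := rfl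

lemma child_x : (child L τ b X Y).x =
    if knownX L (X % H L) (Y % H L) then X % H L else 0 := rfl

lemma claims_y0 : (claims L (child L τ b X Y)).isY0 = true ↔ Y % H L = 0 := by
  rw [y_eq_zero_iff L]
  simp only [Claims.isY0, Bool.and_eq_true, decide_eq_true_iff, and_assoc]
  simp only [claims, decide_eq_true_iff]
  simp only [child_y]
  have h : (0 : ℕ) < YB := by unfold YB; omega
  refine and_congr Iff.rfl (and_congr ?_ ?_) <;> constructor <;> intro h' <;> omega

lemma claims_wire : (claims L (child L τ b X Y)).isWire = true ↔ IsWire L (Y % H L) := by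
  simp only [Claims.isWire, Bool.and_eq_true, decide_eq_true_iff, IsWire]
  simp only [claims, decide_eq_true_iff]
  simp only [child_y]
  refine and_congr Iff.rfl ?_
  constructor <;> intro h <;> omega

lemma claims_halfRow : (claims L (child L τ b X Y)).halfRow = true ↔ IsHalfRow L (Y % H L) := by
  simp only [Claims.halfRow, Bool.and_eq_true, decide_eq_true_iff, IsHalfRow,
    and_assoc]
  simp only [claims, decide_eq_true_iff]
  simp only [child_y]
  refine and_congr Iff.rfl (and_congr ?_ Iff.rfl)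
  constructor <;> intro h <;> omega

lemma claims_rowQ : (claims L (child L τ b X Y)).rowQ = true ↔
    lo L (Y % H L) = 0 ∧ mid L (Y % H L) = 2 ∧ hi L (Y % H L) = 0 := by
  simp only [Claims.rowQ, Bool.and_eq_true, decide_eq_true_iff, and_assoc]
  simp only [claims, decide_eq_true_iff]
  simp only [child_y]
  have h : (0 : ℕ) < YB := by unfold YB; omega
  refine and_congr Iff.rfl (and_congr ?_ ?_) <;> constructor <;> intro h' <;> omega

lemma known_col {m : ℕ} (hm : m ≤ 7) :
    ((claims L (child L τ b X Y)).xk = true ∧ (claims L (child L τ b X Y)).cx.xh0 = true ∧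
      (claims L (child L τ b X Y)).cx.xmC.val = m) ↔ IsCol L (X % H L) m := by
  simp only [claims, decide_eq_true_iff]
  simp only [child_x, child_xk]
  constructor
  · rintro ⟨hk, h1, h2⟩
    rw [if_pos hk] at h1 h2
    exact ⟨h1, by omega⟩
  · intro h
    have hk : knownX L (X % H L) (Y % H L) = true := knownX_of_col h hm
    rw [if_pos hk]
    exact ⟨hk, h.1, by have := h.2; omega⟩

lemma claims_xl (hk : (claims L (child L τ b X Y)).xk = true) :
    (claims L (child L τ b X Y)).cx.xl0 = decide (lo L (X % H L) = 0) ∧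
    (claims L (child L τ b X Y)).cx.xlTop = decide (lo L (X % H L) = M L - 1) ∧
    (claims L (child L τ b X Y)).cx.xlEven = decide (lo L (X % H L) % 2 = 0) ∧
    (claims L (child L τ b X Y)).cx.xlSmall = decide (lo L (X % H L) % 4 = 2 ∧
      2 ^ (B - 1) ≤ lo L (X % H L) ∧ lo L (X % H L) < 2 ^ B) := by
  simp only [claims, child_xk] at hk
  simp only [claims, child_x, if_pos hk, and_self]

lemma known_col0 {m : ℕ} (hm : m ≤ 7) :
    ((claims L (child L τ b X Y)).xk && (claims L (child L τ b X Y)).cx.xh0 &&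
      (claims L (child L τ b X Y)).cx.xl0 &&
      decide ((claims L (child L τ b X Y)).cx.xmC.val = m)) = true ↔
      IsCol L (X % H L) m ∧ lo L (X % H L) = 0 := by
  simp only [Bool.and_eq_true, decide_eq_true_iff]
  constructor
  · rintro ⟨⟨⟨h1, h2⟩, h3⟩, h4⟩
    rw [(claims_xl L τ b X Y h1).1, decide_eq_true_iff] at h3
    exact ⟨(known_col L τ b X Y hm).1 ⟨h1, h2, h4⟩, h3⟩
  · rintro ⟨h1, h2⟩
    obtain ⟨a, b', c⟩ := (known_col L τ b X Y hm).2 h1
    exact ⟨⟨⟨a, b'⟩, by rw [(claims_xl L τ b X Y a).1]; simp [h2]⟩, c⟩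

lemma claims_x0 : (claims L (child L τ b X Y)).x0 = true ↔ X % H L = 0 := by
  rw [Claims.x0, known_col0 L τ b X Y (by norm_num), y_eq_zero_iff L (X % H L)]
  unfold IsCol
  tauto

lemma claims_cut : (claims L (child L τ b X Y)).cut = true ↔
    IsCol L (X % H L) 7 ∧ lo L (X % H L) = 0 := by
  rw [Claims.cut, known_col0 L τ b X Y (by norm_num)]

lemma claims_colQ : (claims L (child L τ b X Y)).colQ = true ↔
    IsCol L (X % H L) 2 ∧ lo L (X % H L) = 0 := by
  rw [Claims.colQ, known_col0 L τ b X Y (by norm_num)]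

lemma claims_scan : (claims L (child L τ b X Y)).isScan = true ↔
    IsCol L (X % H L) 3 ∧ lo L (X % H L) = 0 := by
  rw [Claims.isScan, known_col0 L τ b X Y (by norm_num)]

lemma claims_bundle : (claims L (child L τ b X Y)).bundle = true ↔ IsBundle L (X % H L) := by
  simp only [Claims.bundle, IsBundle, Bool.and_eq_true, decide_eq_true_iff]
  constructor
  · rintro ⟨⟨⟨h1, h2⟩, h3⟩, h4⟩
    rw [(claims_xl L τ b X Y h1).2.2.1, decide_eq_true_iff] at h3
    exact ⟨(known_col L τ b X Y (by norm_num)).1 ⟨h1, h2, h4⟩, h3⟩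
  · rintro ⟨h1, h2⟩
    obtain ⟨a, b', c⟩ := (known_col L τ b X Y (by norm_num)).2 h1
    exact ⟨⟨⟨a, b'⟩, by rw [(claims_xl L τ b X Y a).2.2.1]; simp [h2]⟩, c⟩

lemma claims_zoneAt {m : ℕ} (hm : m ≤ 7) :
    (claims L (child L τ b X Y)).zoneAt m = true ↔ IsZone L (X % H L) m := by
  simp only [Claims.zoneAt, IsZone, Bool.and_eq_true, decide_eq_true_iff]
  constructor
  · rintro ⟨⟨⟨⟨h1, h2⟩, h3⟩, h4⟩, h5⟩
    obtain ⟨-, -, e3, e4⟩ := claims_xl L τ b X Y h1
    rw [e3, decide_eq_true_iff] at h3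
    rw [e4, decide_eq_true_iff] at h4
    exact ⟨(known_col L τ b X Y hm).1 ⟨h1, h2, h5⟩, h4⟩
  · rintro ⟨h1, h2⟩
    obtain ⟨a, b', c⟩ := (known_col L τ b X Y hm).2 h1
    obtain ⟨-, -, e3, e4⟩ := claims_xl L τ b X Y a
    refine ⟨⟨⟨⟨a, b'⟩, ?_⟩, by rw [e4, decide_eq_true_iff]; exact h2⟩, c⟩
    rw [e3, decide_eq_true_iff]
    omega

lemma claims_xk : (claims L (child L τ b X Y)).xk = true ↔
    Y % H L = 0 ∨ (hi L (X % H L) = 0 ∧ mid L (X % H L) ≤ 7) ∨ IsLive L (Y % H L) := by
  simp [claims, child_xk, knownX, or_assoc]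

lemma claims_band (hk : (claims L (child L τ b X Y)).xk = true) :
    (claims L (child L τ b X Y)).band = true ↔
      (hi L (X % H L) = 0 ∧ mid L (X % H L) ≤ 7) := by
  simp only [claims, child_xk] at hk
  simp only [Claims.band, Bool.and_eq_true, decide_eq_true_iff]
  simp only [claims, decide_eq_true_iff]
  simp only [child_x, if_pos hk]
  refine and_congr Iff.rfl ?_
  constructor <;> intro h <;> omega

lemma claims_yhC : (claims L (child L τ b X Y)).cy.yhC.val = min (hi L (Y % H L)) YB := rfl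

lemma claims_yhMod : (claims L (child L τ b X Y)).cy.yhMod.val = hi L (Y % H L) % 8 := rfl

end

end Vale.Agent.P196.Tile
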