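import Vale.Agent.P196.Tile.Numbers

/-!
P196, module D: the scanning column.  `scan` of the rows of a parent is computed at every row from
the prefixes of its numbers, and at the last row the check `endOK` is the local rule of the parent.
-/

namespace Vale.Agent.P196.Tile.Scanning

open Vale.Agent.P196.Tile.Num

/-- The comparison after `i` bits. -/
def cmpPre (t d i : ℕ) : Cmp :=
  ⟨decide (t % 2 ^ i = d % 2 ^ i), decide (t % 2 ^ i = (d + 1) % 2 ^ i),
    decide (d % 2 ^ i = 2 ^ i - 1)⟩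

/-- The copies with the given codes after `n` bits. -/
def copyPre (K : Fin 3 → ℕ) (n : ℕ) : Fin 3 → Fin (2 ^ (A - 2 - AF)) := fun s =>
  ⟨K s % 2 ^ n % 2 ^ (A - 2 - AF), Nat.mod_lt _ (Nat.two_pow_pos _)⟩

/-- The row of the own tile according to the copied claims. -/
noncomputable def copyK (K : Fin 3 → ℕ) : ℕ :=
  (claimsOfCopy (copyPre K (A - 2 - AF) 0).val).elim 0 fun m => m.cy.yhC.val

/-- The state of the scanning column after `i` bits of every number. -/
noncomputable def pre (P : Fin 3 → ℕ → ℕ) (K : Fin 3 → ℕ) (i : ℕ) : Carry where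
  copy := copyPre K (A - 2 - AF)
  i := ⟨min i (B + 1), by omega⟩
  cx :=
    { xl0 := decide (P 0 0 % 2 ^ i = 0)
      xlTop := decide (P 0 0 % 2 ^ i = 2 ^ i - 1)
      xlEven := decide (P 0 0 % 2 ^ i % 2 = 0)
      xlSmall := decide ((0 < i → (P 0 0).testBit 0 = false) ∧ (1 < i → (P 0 0).testBit 1 = true) ∧
        P 0 0 % 2 ^ i < 2 ^ B ∧ (B - 1 < i → (P 0 0).testBit (B - 1) = true))
      xmC := ⟨min (P 0 1 % 2 ^ i) 8, by omega⟩
      xh0 := decide (P 0 2 % 2 ^ i = 0) }
  cy :=
    { yl0 := decide (P 0 3 % 2 ^ i = 0)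
      ymC := ⟨min (P 0 4 % 2 ^ i) 3, by omega⟩
      yhC := ⟨min (P 0 5 % 2 ^ i) YB, by omega⟩
      yhMod := ⟨P 0 5 % 2 ^ i % 8, Nat.mod_lt _ (by norm_num)⟩
      yhTop := decide (P 0 5 % 2 ^ i = 2 ^ i - 1)
      yhHalf := decide (0 < i) && decide (P 0 5 % 2 ^ i = 2 ^ i / 2) }
  cm :=
    { diag := decide (P 0 0 % 2 ^ i = 2 * P 0 5 % 2 ^ i)
      q := fun j => decide (copyK K < A) && (P 0 0 % 2 ^ i).testBit (4 * copyK K + j.val + 2)
      ql := decide (A ≤ copyK K) && decide (lidx (copyK K) < B) &&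
        (P 0 0 % 2 ^ i).testBit (lidx (copyK K))
      u0 := decide (P 0 6 % 2 ^ i = 0)
      u1 := decide (P 0 6 % 2 ^ i = 1 % 2 ^ i) }
  yhBit := (2 * P 0 5).testBit i
  cmp :=
    { xD := fun p => cmpPre (P 0 p.val) (P 2 p.val) i
      xL := fun p => cmpPre (P 0 p.val) (P 1 p.val) i
      yD := fun p => cmpPre (P 0 (3 + p.val)) (P 2 (3 + p.val)) i
      yL := fun p => cmpPre (P 0 (3 + p.val)) (P 1 (3 + p.val)) i }
  cu :=
    { uEq := decide (P 0 6 % 2 ^ i = P 2 6 % 2 ^ i)
      uDbl := decide (P 0 6 % 2 ^ i = 2 * P 2 6 % 2 ^ i)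
      uPrev := (2 * P 2 6).testBit i }

/-- The rows show the codes `K` and the numbers `P` of the own, left and lower tile. -/
structure Reads (L : ℕ) (b : ℕ → Quad) (P : Fin 3 → ℕ → ℕ) (K : Fin 3 → ℕ) : Prop where
  claim : ∀ n, n < A - 2 - AF → ∀ s : Fin 3, b (AF + n) s.castSucc = (K s).testBit n
  num : ∀ i, i ≤ L → ∀ τ, τ < 8 → ∀ s : Fin 3,
    b (A + 8 * i + τ) s.castSucc = (P s τ).testBit i

/-! ### One bit -/

lemma testBit_two_mul_succ (x i : ℕ) : (2 * x).testBit (i + 1) = x.testBit i := by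
  rw [Nat.testBit_succ]; simp

lemma mod_succ_eq_iff (a c i : ℕ) :
    a % 2 ^ (i + 1) = c % 2 ^ (i + 1) ↔ a % 2 ^ i = c % 2 ^ i ∧ a.testBit i = c.testBit i := by
  have h1 := Nat.mod_lt a (Nat.two_pow_pos i)
  have h2 := Nat.mod_lt c (Nat.two_pow_pos i)
  rw [mod_two_pow_succ_bit, mod_two_pow_succ_bit]
  cases a.testBit i <;> cases c.testBit i <;> simp <;> omega

lemma eq_zero_succ (x i : ℕ) :
    decide (x % 2 ^ (i + 1) = 0) = (decide (x % 2 ^ i = 0) && !x.testBit i) := by
  rw [mod_two_pow_succ_bit]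
  cases x.testBit i <;> simp

lemma eq_top_succ (x i : ℕ) :
    decide (x % 2 ^ (i + 1) = 2 ^ (i + 1) - 1) =
      (decide (x % 2 ^ i = 2 ^ i - 1) && x.testBit i) := by
  have := Nat.mod_lt x (Nat.two_pow_pos i)
  rw [mod_two_pow_succ_bit, pow_succ]
  cases x.testBit i <;> simp <;> omega

lemma even_succ (x i : ℕ) :
    decide (x % 2 ^ (i + 1) % 2 = 0) =
      (decide (x % 2 ^ i % 2 = 0) && (decide (min i (B + 1) ≠ 0) || !x.testBit i)) := by
  rw [mod_two_pow_succ_bit]
  rcases Nat.eq_zero_or_pos i with rfl | hi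
  · cases x.testBit 0 <;> simp [Nat.mod_one]
  · obtain ⟨j, rfl⟩ : ∃ j, i = j + 1 := ⟨i - 1, by omega⟩
    have h : decide (min (j + 1) (B + 1) ≠ 0) = true := by simp
    rw [h, Bool.true_or, Bool.and_true]
    congr 1
    rw [pow_succ]
    cases x.testBit (j + 1) <;> simp [Nat.add_mod]

lemma decide_min_eq {n : ℕ} (hn : n ≤ B) (i : ℕ) : decide (min i (B + 1) = n) = decide (i = n) := by
  congr 1
  exact propext ⟨fun h => by omega, fun h => by omega⟩

lemma fixed_succ (x i n : ℕ) (hn : n ≤ B) (v : Bool) :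
    decide (n < i + 1 → x.testBit n = v) =
      (decide (n < i → x.testBit n = v) &&
        (decide (min i (B + 1) ≠ n) || (x.testBit i == v))) := by
  rw [decide_not, decide_min_eq hn]
  rcases lt_trichotomy n i with h | rfl | h
  · simp [h, Nat.lt_succ_of_lt h, h.ne']
  · cases x.testBit n <;> cases v <;> simp
  · simp [show ¬ n < i + 1 by omega, show ¬ n < i by omega, Nat.ne_of_lt h]

lemma small_succ (x i : ℕ) :
    decide (x % 2 ^ (i + 1) < 2 ^ B) =
      (decide (x % 2 ^ i < 2 ^ B) && (decide (min i (B + 1) < B) || !x.testBit i)) := by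
  have h1 := Nat.mod_lt x (Nat.two_pow_pos i)
  rw [mod_two_pow_succ_bit]
  by_cases hi : i < B
  · have h3 : 2 ^ i * 2 ≤ 2 ^ B := by rw [← pow_succ]; exact Nat.pow_le_pow_right (by norm_num) hi
    have hb : decide (min i (B + 1) < B) = true := by simp; omega
    rw [hb, Bool.true_or, Bool.and_true]
    cases x.testBit i <;> simp <;> omega
  · have h4 : 2 ^ B ≤ 2 ^ i := Nat.pow_le_pow_right (by norm_num) (by omega)
    have hb : decide (min i (B + 1) < B) = false := by simp; omega
    rw [hb, Bool.false_or]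
    cases x.testBit i <;> simp
    omega

lemma regroup : ∀ a b c d e f g h : Bool,
    ((a && b) && ((c && d) && ((e && f) && (g && h)))) =
      ((a && (c && (e && g))) && b && d && f && h) := by decide

lemma zone_succ (x i : ℕ) :
    decide ((0 < i + 1 → x.testBit 0 = false) ∧ (1 < i + 1 → x.testBit 1 = true) ∧
        x % 2 ^ (i + 1) < 2 ^ B ∧ (B - 1 < i + 1 → x.testBit (B - 1) = true)) =
      (decide ((0 < i → x.testBit 0 = false) ∧ (1 < i → x.testBit 1 = true) ∧
          x % 2 ^ i < 2 ^ B ∧ (B - 1 < i → x.testBit (B - 1) = true)) &&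
        (decide (min i (B + 1) ≠ 0) || !x.testBit i) &&
        (decide (min i (B + 1) ≠ 1) || x.testBit i) &&
        (decide (min i (B + 1) < B) || !x.testBit i) &&
        (decide (min i (B + 1) ≠ B - 1) || x.testBit i)) := by
  have e0 : ∀ a : Bool, (a == false) = !a := by decide
  have e1 : ∀ a : Bool, (a == true) = a := by decide
  rw [Bool.decide_and, Bool.decide_and, Bool.decide_and, fixed_succ x i 0 (Nat.zero_le _) false,
    fixed_succ x i 1 (by unfold B; omega) true, fixed_succ x i (B - 1) (Nat.sub_le _ _) true,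
    small_succ, e0, e1, Bool.decide_and, Bool.decide_and, Bool.decide_and]
  exact regroup _ _ _ _ _ _ _ _

lemma satAdd_min {n : ℕ} (hn : n ≤ 2 ^ (B + 1)) (x i : ℕ) :
    (satAdd (n := n) ⟨min (x % 2 ^ i) n, by omega⟩ (min i (B + 1)) (x.testBit i)).val =
      min (x % 2 ^ (i + 1)) n := by
  rw [mod_two_pow_succ_bit]
  cases x.testBit i
  · simp [satAdd]
  · simp only [satAdd, if_true]
    by_cases h : min (min i (B + 1)) (n + 1) = i
    · rw [h]; omega
    · have hlt : min (min i (B + 1)) (n + 1) < i := by omega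
      have h2 : 2 ^ min (min i (B + 1)) (n + 1) ≤ 2 ^ i :=
        Nat.pow_le_pow_right (by norm_num) hlt.le
      have h3 : n ≤ 2 ^ min (min i (B + 1)) (n + 1) := by
        rcases le_total (B + 1) (n + 1) with h' | h'
        · rw [show min (min i (B + 1)) (n + 1) = B + 1 from by omega]; exact hn
        · rw [show min (min i (B + 1)) (n + 1) = n + 1 from by omega]
          exact (Nat.lt_two_pow_self).le.trans (Nat.pow_le_pow_right (by norm_num) (by omega))
      omega

lemma YB_le : YB ≤ 2 ^ (B + 1) :=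
  le_trans (by norm_num [YB, A, B] : YB ≤ 2 ^ 16)
    (Nat.pow_le_pow_right (by norm_num) (by unfold B A; omega))

lemma yhMod_succ (x i : ℕ) :
    (if min i (B + 1) < 3 then
      satAdd (n := 7) ⟨x % 2 ^ i % 8, Nat.mod_lt _ (by norm_num)⟩ (min i (B + 1)) (x.testBit i)
    else ⟨x % 2 ^ i % 8, Nat.mod_lt _ (by norm_num)⟩).val = x % 2 ^ (i + 1) % 8 := by
  have hB : 3 ≤ B + 1 := by unfold B A; omega
  by_cases h : i < 3
  · have hmin : min i (B + 1) = i := by omega
    rw [hmin, if_pos h, mod_two_pow_succ_bit]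
    interval_cases i <;> cases x.testBit _ <;> simp [satAdd] <;> omega
  · rw [if_neg (by omega)]
    show x % 2 ^ i % 8 = x % 2 ^ (i + 1) % 8
    rw [Nat.mod_mod_of_dvd _ (by exact Nat.pow_dvd_pow 2 (show 3 ≤ i by omega) : 8 ∣ 2 ^ i),
      Nat.mod_mod_of_dvd _ (by exact Nat.pow_dvd_pow 2 (show 3 ≤ i + 1 by omega) : 8 ∣ 2 ^ (i + 1))]

lemma half_succ (x i : ℕ) :
    (decide (0 < i + 1) && decide (x % 2 ^ (i + 1) = 2 ^ (i + 1) / 2)) =
      (decide (min (x % 2 ^ i) YB = 0) && x.testBit i) := by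
  have := Nat.mod_lt x (Nat.two_pow_pos i)
  have hY : 0 < YB := by unfold YB; omega
  rw [mod_two_pow_succ_bit, pow_succ]
  cases x.testBit i <;> simp <;> omega

lemma testBit_mod_succ (x i n : ℕ) :
    (x % 2 ^ (i + 1)).testBit n =
      ((x % 2 ^ i).testBit n || (decide (i = n) && x.testBit i)) := by
  rw [Nat.testBit_mod_two_pow, Nat.testBit_mod_two_pow]
  rcases lt_trichotomy n i with h | rfl | h
  · simp [h, Nat.lt_succ_of_lt h, h.ne']
  · simp
  · simp [h.ne, Nat.not_lt.2 h.le, show ¬ n < i + 1 by omega]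

lemma u1_succ (x i : ℕ) :
    decide (x % 2 ^ (i + 1) = 1 % 2 ^ (i + 1)) =
      (decide (x % 2 ^ i = 1 % 2 ^ i) && (x.testBit i == decide (min i (B + 1) = 0))) := by
  rw [decide_min_eq (Nat.zero_le _), Bool.decide_congr (mod_succ_eq_iff x 1 i), Bool.decide_and]
  congr 1
  rcases Nat.eq_zero_or_pos i with rfl | hi
  · simp
  · have : (1 : ℕ).testBit i = false := Nat.testBit_lt_two_pow (Nat.one_lt_two_pow (by omega))
    rw [this]
    cases x.testBit i <;> simp <;> omega

lemma eq_succ (a c i : ℕ) :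
    decide (a % 2 ^ (i + 1) = c % 2 ^ (i + 1)) =
      (decide (a % 2 ^ i = c % 2 ^ i) && (a.testBit i == c.testBit i)) := by
  rw [Bool.decide_congr (mod_succ_eq_iff a c i), Bool.decide_and]
  congr 1

lemma cmpPre_succ (t d i : ℕ) :
    cmpPre t d (i + 1) = (cmpPre t d i).step (t.testBit i) (d.testBit i) := by
  simp only [cmpPre, Cmp.step, eq_succ, eq_top_succ, testBit_succ_add]

lemma cmpUpd_three (f g : Fin 3 → Cmp) (t d : Fin 3 → Bool)
    (h : ∀ p, g p = (f p).step (t p) (d p)) :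
    cmpUpd (cmpUpd (cmpUpd f 0 (t 0) (d 0)) 1 (t 1) (d 1)) 2 (t 2) (d 2) = g := by
  funext p
  fin_cases p <;> simp [cmpUpd, h]

/-! ### The prefix invariant -/

lemma scan_lt_AF (b : ℕ → Quad) : ∀ k, k < AF → scan b k = Carry.init
  | 0, h => by rw [scan, Carry.step, if_pos h]
  | k + 1, h => by rw [scan, scan_lt_AF b k (by omega), Carry.step, if_pos h]

variable {L : ℕ} {b : ℕ → Quad} {P : Fin 3 → ℕ → ℕ} {K : Fin 3 → ℕ}

lemma scan_claims (hr : Reads L b P K) : ∀ n, n ≤ A - 2 - AF →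
    scan b (AF - 1 + n) = { Carry.init with copy := copyPre K n }
  | 0, _ => by
    rw [Nat.add_zero, scan_lt_AF b _ (by norm_num [AF])]
    simp only [Carry.init, Carry.mk.injEq, and_true]
    funext s
    simp [copyPre, Nat.mod_one]
  | n + 1, hn => by
    have hlt : AF + n < A - 2 := by omega
    have e : AF - 1 + (n + 1) = (AF - 1 + n) + 1 := rfl
    have e' : AF - 1 + n + 1 = AF + n := by have : 0 < AF := by norm_num [AF]
                                            omega
    rw [e, scan, scan_claims hr n (by omega), e', Carry.step, if_neg (by omega), if_pos hlt,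
      Nat.add_sub_cancel_left]
    simp only [Carry.readClaim, Carry.mk.injEq, and_true]
    funext s
    refine Fin.ext ?_
    show ((copyPre K n s).val + if b (AF + n) s.castSucc then 2 ^ n else 0) % 2 ^ (A - 2 - AF) = _
    rw [hr.claim n (by omega) s]
    have h1 : K s % 2 ^ n % 2 ^ (A - 2 - AF) = K s % 2 ^ n :=
      Nat.mod_eq_of_lt (lt_of_lt_of_le (Nat.mod_lt _ (Nat.two_pow_pos n))
        (Nat.pow_le_pow_right (by norm_num) (by omega)))
    simp only [copyPre, h1, mod_two_pow_succ_bit]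

lemma scan_base (hr : Reads L b P K) : scan b (A - 1) = pre P K 0 := by
  have e : A - 1 = AF - 1 + (A - 2 - AF) + 1 + 1 := by norm_num [A, AF]
  rw [e, scan, scan, scan_claims hr _ le_rfl]
  have h1 : ∀ c : Carry, c.step (AF - 1 + (A - 2 - AF) + 1 + 1) b = c := fun c => by
    rw [Carry.step, if_neg (by norm_num [A, AF]), if_neg (by norm_num [A, AF]),
      if_pos (by norm_num [A, AF])]
  have h2 : ∀ c : Carry, c.step (AF - 1 + (A - 2 - AF) + 1) b = c := fun c => by
    rw [Carry.step, if_neg (by norm_num [A, AF]), if_neg (by norm_num [A, AF]),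
      if_pos (by norm_num [A, AF])]
  rw [h1, h2]
  simp only [pre, Carry.init, Carry.mk.injEq, XClaims.mk.injEq, YClaims.mk.injEq,
    MixClaims.mk.injEq, CmpAcc.mk.injEq, UAcc.mk.injEq, Fin.ext_iff]
  refine ⟨trivial, ?_, ?_, ?_, ?_, ?_, ?_, ?_⟩
  · exact (Nat.zero_min _).symm
  · simp [Nat.mod_one]
  · simp [Nat.mod_one]
  · simp [Nat.mod_one]
  · simp
  · simp [cmpPre, Cmp.init, Nat.mod_one]
  · simp [Nat.mod_one]

lemma step_num (c : Carry) (b : ℕ → Quad) (i τ : ℕ) (hτ : τ < 8) :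
    c.step (A + 8 * i + τ) b = c.readNum ⟨τ, hτ⟩ (b (A + 8 * i + τ)) := by
  rw [Carry.step, if_neg (by have : AF ≤ A := by norm_num [A, AF]
                             omega), if_neg (by omega), if_neg (by omega)]
  exact congrArg (fun j => c.readNum j (b (A + 8 * i + τ)))
    (Fin.ext (show (A + 8 * i + τ - A) % 8 = τ by omega))

/-- The first `τ` rows of a block. -/
noncomputable def roundState (b : ℕ → Quad) (c : Carry) (i : ℕ) : ℕ → Carry
  | 0 => c
  | τ + 1 => (roundState b c i τ).readNum ⟨τ % 8, Nat.mod_lt _ (by norm_num)⟩ (b (A + 8 * i + τ))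

lemma scan_roundState (i : ℕ) (c : Carry) (hc : scan b (A - 1 + 8 * i) = c) :
    ∀ τ, τ ≤ 8 → scan b (A - 1 + 8 * i + τ) = roundState b c i τ
  | 0, _ => hc
  | τ + 1, hτ => by
    have e : A - 1 + 8 * i + (τ + 1) = (A - 1 + 8 * i + τ) + 1 := rfl
    have e' : A - 1 + 8 * i + τ + 1 = A + 8 * i + τ := by
      have : 0 < A := by norm_num [A]
      omega
    rw [e, scan, scan_roundState i c hc τ (by omega), e', step_num _ _ _ _ (by omega), roundState]
    exact congrArg (fun j => (roundState b c i τ).readNum j (b (A + 8 * i + τ)))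
      (Fin.ext (Nat.mod_eq_of_lt (show τ < 8 by omega)).symm)

lemma pre_succ (hr : Reads L b P K) {i : ℕ} (hi : i ≤ L) :
    roundState b (pre P K i) i 8 = pre P K (i + 1) := by
  have r0 : ∀ τ, τ < 8 → b (A + 8 * i + τ) 0 = (P 0 τ).testBit i := fun τ h => hr.num i hi τ h 0
  have r1 : ∀ τ, τ < 8 → b (A + 8 * i + τ) 1 = (P 1 τ).testBit i := fun τ h => hr.num i hi τ h 1
  have r2 : ∀ τ, τ < 8 → b (A + 8 * i + τ) 2 = (P 2 τ).testBit i := fun τ h => hr.num i hi τ h 2
  simp only [roundState, Nat.reduceMod, Fin.reduceFinMk]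
  obtain ⟨g, hg⟩ : ∃ g : ℕ → Quad, ∀ τ, b (A + 8 * i + τ) = g τ := ⟨_, fun _ => rfl⟩
  simp only [hg] at r0 r1 r2 ⊢
  simp only [Carry.readNum]
  simp (disch := norm_num) only [r0, r1, r2]
  simp only [pre, Carry.mk.injEq, XClaims.mk.injEq, YClaims.mk.injEq, MixClaims.mk.injEq,
    CmpAcc.mk.injEq, UAcc.mk.injEq, true_and]
  have h8 : 8 ≤ 2 ^ (B + 1) := le_trans (by norm_num)
    (Nat.pow_le_pow_right (by norm_num) (show 3 ≤ B + 1 by unfold B A; omega))
  refine ⟨Fin.ext ?_, ⟨(eq_zero_succ _ _).symm, (eq_top_succ _ _).symm, (even_succ _ _).symm,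
      (zone_succ _ _).symm, Fin.ext (satAdd_min h8 _ _), (eq_zero_succ _ _).symm⟩,
    ⟨(eq_zero_succ _ _).symm, Fin.ext (satAdd_min ((show 3 ≤ 8 by norm_num).trans h8) _ _),
      Fin.ext (satAdd_min YB_le _ _), Fin.ext (yhMod_succ _ _), (eq_top_succ _ _).symm,
      (half_succ _ _).symm⟩,
    ⟨by rw [eq_succ, Bool.beq_comm], ?_, ?_, (eq_zero_succ _ _).symm, (u1_succ _ _).symm⟩,
    (testBit_two_mul_succ _ _).symm, ⟨?_, ?_, ?_, ?_⟩,
    (eq_succ _ _ _).symm, (eq_succ _ _ _).symm, (testBit_two_mul_succ _ _).symm⟩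
  · show min (min i (B + 1) + 1) (B + 1) = min (i + 1) (B + 1)
    omega
  · funext j
    show (decide (copyK K < A) && _ || decide (copyK K < A) &&
      decide (min i (B + 1) = 4 * copyK K + j.val + 2) && _) = _
    rw [testBit_mod_succ]
    by_cases hk : copyK K < A
    · rw [decide_min_eq (by have := j.isLt; unfold B; omega)]
      simp [hk]
    · simp [hk]
  · show (_ || decide (A ≤ copyK K) && decide (lidx (copyK K) < B) &&
      decide (min i (B + 1) = lidx (copyK K)) && _) = _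
    rw [testBit_mod_succ]
    by_cases hl : lidx (copyK K) < B
    · rw [decide_min_eq hl.le]
      cases decide (A ≤ copyK K) <;> simp [hl]
    · simp [hl]
  all_goals
    refine cmpUpd_three _ _ ![_, _, _] ![_, _, _] (fun p => ?_)
    fin_cases p <;> exact cmpPre_succ _ _ _

/-- The state after every complete block of rows. -/
theorem scan_block (hr : Reads L b P K) : ∀ i, i ≤ L + 1 → scan b (A - 1 + 8 * i) = pre P K i
  | 0, _ => scan_base hr
  | i + 1, h => by
    have e : A - 1 + 8 * (i + 1) = A - 1 + 8 * i + 8 := by omega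
    rw [e, scan_roundState i _ (scan_block hr i (by omega)) 8 le_rfl, pre_succ hr (by omega)]

/-- The state at an arbitrary row carrying a number. -/
theorem scan_row (hr : Reads L b P K) {i τ : ℕ} (hi : i ≤ L) (hτ : τ < 8) :
    scan b (A + 8 * i + τ) = roundState b (pre P K i) i (τ + 1) := by
  have e : A + 8 * i + τ = A - 1 + 8 * i + (τ + 1) := by
    have : 0 < A := by norm_num [A]
    omega
  rw [e, scan_roundState i _ (scan_block hr i (by omega)) (τ + 1) (by omega)]

/-- The state at the last row. -/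
theorem scan_lastK (hr : Reads L b P K) : scan b (lastK L) = pre P K (L + 1) := by
  have e : lastK L = A - 1 + 8 * (L + 1) := by
    have : 0 < A := by norm_num [A]
    unfold lastK
    omega
  rw [e, scan_block hr (L + 1) le_rfl]

end Vale.Agent.P196.Tile.Scanning
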