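import Vale.Agent.P196.Tile.Hier

/-!
P196, module D: a self-similar hierarchy gives a nonempty free subshift of finite type with an
odometer; it is minimal if every window of a valid configuration occurs deep inside every state.
-/

noncomputable section

namespace Vale.Agent.P196.Tile

open SFT

namespace Hier

/-- Each valid configuration is uniquely the expansion of a valid one, one level higher, and
children of allowed windows form allowed windows. -/
structure SelfSimilar (H : Hier) : Prop where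
  ok_ne : ∀ l, ∃ y : V → H.St l, H.ok l (H.win y 0)
  ok_child : ∀ l (y : V → H.St (l + 1)) (v : V),
    H.ok (l + 1) (H.win y (vdiv v (H.N l))) → H.ok l (H.win (H.expand l y 0) v)
  desub : ∀ l (x : V → H.St l), H.Valid l x →
    ∃ y o, InRange (H.N l) o ∧ H.Valid (l + 1) y ∧ x = H.expand l y o
  uniq : ∀ l (y y' : V → H.St (l + 1)) (o o' : V), H.Valid (l + 1) y → H.Valid (l + 1) y' →
    InRange (H.N l) o → InRange (H.N l) o' → H.expand l y o = H.expand l y' o' → o = o' ∧ y = y'

/-- Every window of a valid configuration occurs inside every state of some higher level. -/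
def Primitive (H : Hier) : Prop :=
  ∀ k (y : V → H.St k), H.Valid k y → ∃ d, ∀ s : H.St (k + d), ∃ v : V,
    ∀ q : V, 0 ≤ q.1 → q.1 ≤ 1 → 0 ≤ q.2 → q.2 ≤ 1 →
      InRange ((H.above k).Q d) (v + q) ∧ (H.above k).deep d s (v + q) = y q

variable (H : Hier)

instance instTopologicalSpaceSt (l : ℕ) : TopologicalSpace (H.St l) := ⊥

instance instDiscreteTopologySt (l : ℕ) : DiscreteTopology (H.St l) := ⟨rfl⟩

/-- The subshift of level zero. -/
@[reducible] def sft : SFT where
  A := H.St 0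
  w := 1
  allowed := H.ok 0

/-- The level zero configuration expanded from a configuration of level `l`, seen from `p`. -/
def deepConfig (l : ℕ) (y : V → H.St l) (p : V) : V → H.St 0 := fun u =>
  H.deep l (y (vdiv (u + p) (H.Q l))) (vmod (u + p) (H.Q l))

variable {H}

lemma Q_pos' (l : ℕ) : (0 : ℤ) < H.Q l := by exact_mod_cast H.Q_pos l

lemma N_pos' (l : ℕ) : (0 : ℤ) < H.N l := by exact_mod_cast H.N_pos l

lemma Q_succ' (l : ℕ) : ((H.Q (l + 1) : ℕ) : ℤ) = H.Q l * H.N l := by
  show ((H.N l * H.Q l : ℕ) : ℤ) = _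
  push_cast; ring

lemma inRange_vmod {n : ℕ} (hn : 0 < n) (u : V) : InRange n (vmod u n) := by
  have h : (0 : ℤ) < n := by exact_mod_cast hn
  exact ⟨Int.emod_nonneg _ h.ne', Int.emod_lt_of_pos _ h, Int.emod_nonneg _ h.ne',
    Int.emod_lt_of_pos _ h⟩

lemma InRange.vmod_eq {n : ℕ} {o : V} (h : InRange n o) : vmod o n = o := by
  obtain ⟨h1, h2, h3, h4⟩ := h
  exact Prod.ext (Int.emod_eq_of_lt h1 h2) (Int.emod_eq_of_lt h3 h4)

lemma InRange.vdiv_eq {n : ℕ} {o : V} (h : InRange n o) : vdiv o n = 0 := by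
  obtain ⟨h1, h2, h3, h4⟩ := h
  exact Prod.ext (Int.ediv_eq_zero_of_lt h1 h2) (Int.ediv_eq_zero_of_lt h3 h4)

lemma vmod_add_smul (u : V) (n : ℤ) : vmod u n + n • vdiv u n = u :=
  Prod.ext (Int.emod_add_mul_ediv u.1 n) (Int.emod_add_mul_ediv u.2 n)

lemma vdiv_add_smul {n : ℤ} (hn : 0 < n) (u w : V) : vdiv (u + n • w) n = vdiv u n + w :=
  Prod.ext (Int.add_mul_ediv_left u.1 w.1 hn.ne') (Int.add_mul_ediv_left u.2 w.2 hn.ne')

lemma vmod_add_smul' (u w : V) (n : ℤ) : vmod (u + n • w) n = vmod u n :=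
  Prod.ext (Int.add_mul_emod_self_left u.1 n w.1) (Int.add_mul_emod_self_left u.2 n w.2)

lemma vdiv_vdiv {b : ℤ} (hb : 0 ≤ b) (u : V) (c : ℤ) : vdiv (vdiv u b) c = vdiv u (b * c) :=
  Prod.ext (Int.ediv_ediv_of_nonneg (x := u.1) hb) (Int.ediv_ediv_of_nonneg (x := u.2) hb)

lemma vmod_vmod {b : ℤ} (u : V) (c : ℤ) : vmod (vmod u (b * c)) b = vmod u b :=
  Prod.ext (Int.emod_emod_of_dvd u.1 (dvd_mul_right b c))
    (Int.emod_emod_of_dvd u.2 (dvd_mul_right b c))

lemma vmod_vdiv {b c : ℤ} (hb : 0 < b) (hc : 0 < c) (u : V) :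
    vdiv (vmod u (b * c)) b = vmod (vdiv u b) c :=
  Prod.ext (mod_mul_div u.1 hb hc) (mod_mul_div u.2 hb hc)

/-- One level of expansion. -/
lemma deepConfig_succ (l : ℕ) (y : V → H.St (l + 1)) (o p : V) :
    H.deepConfig (l + 1) y (p + (H.Q l : ℤ) • o) = H.deepConfig l (H.expand l y o) p := by
  funext u
  have hq := Q_pos' (H := H) l
  have hn := N_pos' (H := H) l
  simp only [deepConfig, deep, expand, Q_succ', ← add_assoc, vmod_vdiv hq hn, vmod_vmod,
    ← vdiv_vdiv hq.le, vdiv_add_smul hq, vmod_add_smul']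
  congr 2
  exact Prod.ext (Int.emod_emod _ _) (Int.emod_emod _ _)

lemma deepConfig_zero (y : V → H.St 0) : H.deepConfig 0 y 0 = y := by
  funext u
  simp [deepConfig, deep, vdiv, Q]

/-- Windows of the expansion of level `l` around allowed windows are allowed. -/
lemma deep_ok (hs : H.SelfSimilar) : ∀ (l : ℕ) (y : V → H.St l) (v : V),
    H.ok l (H.win y (vdiv v (H.Q l))) → H.ok 0 (H.win (H.deepConfig l y 0) v)
  | 0, y, v, h => by
    rw [deepConfig_zero]
    simpa [vdiv, Q] using h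
  | l + 1, y, v, h => by
    have h0 : H.deepConfig (l + 1) y 0 = H.deepConfig l (H.expand l y 0) 0 := by
      rw [← deepConfig_succ, smul_zero, add_zero]
    rw [h0]
    refine deep_ok hs l _ v (hs.ok_child l y _ ?_)
    rwa [vdiv_vdiv (Q_pos' l).le, ← Q_succ']

lemma win_deepConfig (l : ℕ) (y : V → H.St l) (p v : V) :
    H.win (H.deepConfig l y p) v = H.win (H.deepConfig l y 0) (v + p) := by
  funext q
  simp only [win, deepConfig, add_zero]
  have e : ((v.1 + ((q.1 : ℕ) : ℤ), v.2 + ((q.2 : ℕ) : ℤ)) : V) + p =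
      ((v + p).1 + ((q.1 : ℕ) : ℤ), (v + p).2 + ((q.2 : ℕ) : ℤ)) := by
    ext <;> simp <;> ring
  rw [e]

lemma valid_deepConfig (hs : H.SelfSimilar) {l : ℕ} {y : V → H.St l} (hy : H.Valid l y) (p : V) :
    H.deepConfig l y p ∈ H.sft.carrier := fun v => by
  show H.ok 0 (H.win (H.deepConfig l y p) v)
  rw [win_deepConfig]
  exact deep_ok hs l y _ (hy _)

/-- Every point is the expansion of a valid configuration of every level. -/
lemma exists_lev (hs : H.SelfSimilar) : ∀ (l : ℕ) (x : H.sft.X), ∃ y p,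
    H.Valid l y ∧ InRange (H.Q l) p ∧ x.1 = H.deepConfig l y p
  | 0, x => ⟨x.1, 0, x.2, by simp [InRange, Q], (deepConfig_zero _).symm⟩
  | l + 1, x => by
    obtain ⟨y, p, hy, hp, hx⟩ := exists_lev hs l x
    obtain ⟨z, o, ho, hz, rfl⟩ := hs.desub l y hy
    refine ⟨z, p + (H.Q l : ℤ) • o, hz, ?_, by rw [hx, deepConfig_succ]⟩
    obtain ⟨a1, a2, a3, a4⟩ := hp
    obtain ⟨b1, b2, b3, b4⟩ := ho
    have hq := Q_pos' (H := H) l
    simp only [InRange, Q_succ', Prod.fst_add, Prod.snd_add, Prod.smul_fst, Prod.smul_snd,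
      smul_eq_mul]
    refine ⟨?_, ?_, ?_, ?_⟩ <;> nlinarith

lemma valid_expand (hs : H.SelfSimilar) {l : ℕ} {y : V → H.St (l + 1)} (hy : H.Valid (l + 1) y)
    (o : V) : H.Valid l (H.expand l y o) := fun v => by
  have e : H.win (H.expand l y o) v = H.win (H.expand l y 0) (v + o) := by
    funext q
    simp only [win, expand, add_zero]
    have e : ((v.1 + ((q.1 : ℕ) : ℤ), v.2 + ((q.2 : ℕ) : ℤ)) : V) + o =
        ((v + o).1 + ((q.1 : ℕ) : ℤ), (v + o).2 + ((q.2 : ℕ) : ℤ)) := by
      ext <;> simp <;> ring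
    rw [e]
  rw [e]
  exact hs.ok_child l y _ (hy _)

/-- The expansion is unique. -/
lemma unique_lev (hs : H.SelfSimilar) : ∀ (l : ℕ) (y y' : V → H.St l) (p p' : V),
    H.Valid l y → H.Valid l y' → InRange (H.Q l) p → InRange (H.Q l) p' →
    H.deepConfig l y p = H.deepConfig l y' p' → p = p' ∧ y = y'
  | 0, y, y', p, p', _, _, hp, hp', h => by
    obtain rfl : p = 0 := by
      obtain ⟨h1, h2, h3, h4⟩ := hp; simp [Q] at h2 h4; ext <;> simp <;> omega
    obtain rfl : p' = 0 := by
      obtain ⟨h1, h2, h3, h4⟩ := hp'; simp [Q] at h2 h4; ext <;> simp <;> omega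
    rw [deepConfig_zero, deepConfig_zero] at h
    exact ⟨rfl, h⟩
  | l + 1, y, y', p, p', hy, hy', hp, hp', h => by
    have hq := Q_pos' (H := H) l
    have ho : ∀ {p : V}, InRange (H.Q (l + 1)) p → InRange (H.N l) (vdiv p (H.Q l)) := by
      intro p hp
      rw [← hp.vmod_eq, Q_succ', vmod_vdiv hq (N_pos' l)]
      exact inRange_vmod (H.N_pos l) _
    rw [← vmod_add_smul p (H.Q l), ← vmod_add_smul p' (H.Q l), deepConfig_succ,
      deepConfig_succ] at h
    obtain ⟨h1, h2⟩ := unique_lev hs l _ _ _ _ (valid_expand hs hy _) (valid_expand hs hy' _)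
      (inRange_vmod (H.Q_pos l) _) (inRange_vmod (H.Q_pos l) _) h
    obtain ⟨h3, h4⟩ := hs.uniq l y y' _ _ hy hy' (ho hp) (ho hp') h2
    refine ⟨?_, h4⟩
    rw [← vmod_add_smul p (H.Q l), ← vmod_add_smul p' (H.Q l), h1, h3]

variable (hs : H.SelfSimilar)

/-- The configuration of level `l` of a point. -/
def up (l : ℕ) (x : H.sft.X) : V → H.St l := (exists_lev hs l x).choose

/-- The position of the origin in its tile of level `l`. -/
def posV (l : ℕ) (x : H.sft.X) : V := (exists_lev hs l x).choose_spec.choose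

lemma up_spec (l : ℕ) (x : H.sft.X) : H.Valid l (up hs l x) ∧ InRange (H.Q l) (posV hs l x) ∧
    x.1 = H.deepConfig l (up hs l x) (posV hs l x) :=
  (exists_lev hs l x).choose_spec.choose_spec

lemma apply_eq (l : ℕ) (x : H.sft.X) (u : V) : x.1 u =
    H.deep l (up hs l x (vdiv (u + posV hs l x) (H.Q l))) (vmod (u + posV hs l x) (H.Q l)) :=
  congrFun (up_spec hs l x).2.2 u

lemma eq_up (l : ℕ) (x : H.sft.X) {y : V → H.St l} {p : V} (hy : H.Valid l y)
    (hp : InRange (H.Q l) p) (hx : x.1 = H.deepConfig l y p) :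
    posV hs l x = p ∧ up hs l x = y :=
  unique_lev hs l _ _ _ _ (up_spec hs l x).1 hy (up_spec hs l x).2.1 hp
    ((up_spec hs l x).2.2.symm.trans hx)

/-- The tower of a shifted point. -/
lemma up_act (l : ℕ) (v : V) (x : H.sft.X) :
    posV hs l (H.sft.act v x) = vmod (v + posV hs l x) (H.Q l) ∧
      up hs l (H.sft.act v x) =
        fun w => up hs l x (w + vdiv (v + posV hs l x) (H.Q l)) := by
  refine eq_up hs l _ (fun w => ?_) (inRange_vmod (H.Q_pos l) _) ?_
  · have := (up_spec hs l x).1 (w + vdiv (v + posV hs l x) (H.Q l))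
    convert this using 1
    funext q
    simp only [win]
    congr 1
    ext <;> simp <;> ring
  · funext u
    rw [Amen.act_apply, apply_eq hs l x]
    simp only [deepConfig]
    have e : u + v + posV hs l x = u + vmod (v + posV hs l x) (H.Q l) +
        (H.Q l : ℤ) • vdiv (v + posV hs l x) (H.Q l) := by
      rw [add_assoc, add_assoc, vmod_add_smul]
    rw [e, vdiv_add_smul (Q_pos' l), vmod_add_smul']

lemma posV_succ (l : ℕ) (x : H.sft.X) :
    posV hs l x = vmod (posV hs (l + 1) x) (H.Q l) ∧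
      up hs l x = H.expand l (up hs (l + 1) x) (vdiv (posV hs (l + 1) x) (H.Q l)) := by
  refine eq_up hs l x (valid_expand hs (up_spec hs (l + 1) x).1 _)
    (inRange_vmod (H.Q_pos l) _) ?_
  rw [← deepConfig_succ, vmod_add_smul]
  exact (up_spec hs (l + 1) x).2.2

/-- The position and the state of the origin at each level are local. -/
theorem isLocal_lev (l : ℕ) : H.sft.IsLocal fun x => (posV hs l x, up hs l x 0) := by
  classical
  set β := {p : V // p ∈ Finset.Icc (0, 0) ((H.Q l : ℤ), (H.Q l : ℤ))} × H.St l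
  have hmem : ∀ x : H.sft.X, posV hs l x ∈ Finset.Icc (0, 0) ((H.Q l : ℤ), (H.Q l : ℤ)) := by
    intro x
    obtain ⟨h1, h2, h3, h4⟩ := (up_spec hs l x).2.1
    simp only [Finset.mem_Icc, Prod.le_def]
    omega
  suffices h : H.sft.IsLocal fun x => ((⟨posV hs l x, hmem x⟩, up hs l x 0) : β) from
    Amen.isLocal_comp h fun b => (b.1.1, b.2)
  refine isLocal_of_closed_fibres _ fun b => ?_
  by_cases hb : InRange (H.Q l) b.1.1
  · set K : Set (V → H.St l) := {y | H.Valid l y} ∩ {y | y 0 = b.2}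
    have hK : IsCompact K := by
      refine IsClosed.isCompact (IsClosed.inter ?_
        (isClosed_eq (continuous_apply (0 : V)) continuous_const))
      have e : {y : V → H.St l | H.Valid l y} =
          ⋂ v, (fun y => H.win y v) ⁻¹' {w | H.ok l w} := by
        ext y; simp [Valid]
      rw [e]
      exact isClosed_iInter fun v =>
        (isClosed_discrete _).preimage (continuous_pi fun q => continuous_apply _)
    have hcont : Continuous fun y : V → H.St l => H.deepConfig l y b.1.1 :=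
      continuous_pi fun u => (continuous_of_discreteTopology
          (f := fun s : H.St l => H.deep l s (vmod (u + b.1.1) (H.Q l)))).comp
          (continuous_apply (vdiv (u + b.1.1) (H.Q l) : V))
    have e : {x : H.sft.X | ((⟨posV hs l x, hmem x⟩, up hs l x 0) : β) = b} =
        Subtype.val ⁻¹' ((fun y => H.deepConfig l y b.1.1) '' K) := by
      ext x
      constructor
      · rintro rfl
        exact ⟨up hs l x, ⟨(up_spec hs l x).1, rfl⟩, (up_spec hs l x).2.2.symm⟩
      · rintro ⟨y, ⟨hy, hy0⟩, hyx⟩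
        obtain ⟨h1, h2⟩ := eq_up hs l x hy hb hyx.symm
        exact Prod.ext (Subtype.ext h1) (by rw [h2]; exact hy0)
    rw [e]
    exact ((hK.image hcont).isClosed).preimage continuous_subtype_val
  · convert isClosed_empty
    ext x
    simp only [Set.mem_ofPred_eq, Set.mem_empty_iff_false, iff_false]
    rintro rfl
    exact hb (up_spec hs l x).2.1

/-- The positions form an odometer. -/
def odometer : H.sft.Odometer where
  Q := H.Q
  Q_pos := H.Q_pos
  Q_dvd l := Dvd.intro_left (H.N l) rfl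
  Q_strict := strictMono_nat_of_lt_succ H.Q_lt
  pos l x := (((posV hs l x).1 : ZMod (H.Q l)), ((posV hs l x).2 : ZMod (H.Q l)))
  pos_local l := Amen.isLocal_comp (isLocal_lev hs l) fun r =>
    ((r.1.1 : ZMod (H.Q l)), (r.1.2 : ZMod (H.Q l)))
  pos_act l v x := by
    rw [(up_act hs l v x).1]
    simp only [vmod, Prod.mk_add_mk, ZMod.intCast_mod, Prod.fst_add, Prod.snd_add, Int.cast_add]
    rw [add_comm (v.1 : ZMod (H.Q l)), add_comm (v.2 : ZMod (H.Q l))]
  pos_compat l x := by
    rw [(posV_succ hs l x).1]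
    simp only [map_intCast, vmod, ZMod.intCast_mod]

include hs in
theorem nonempty : Nonempty H.sft.X := by
  obtain ⟨y0, -⟩ := hs.ok_ne 0
  obtain ⟨x, -⟩ := exists_extension (S := H.sft) ∅ y0 fun n => by
    obtain ⟨y, hy⟩ := hs.ok_ne (2 * n + 1)
    refine ⟨H.deepConfig (2 * n + 1) y (n, n), fun v hv => ?_, by simp⟩
    show H.ok 0 (H.win (H.deepConfig (2 * n + 1) y (n, n)) v)
    rw [win_deepConfig]
    refine deep_ok hs _ y _ ?_
    have hq := H.le_Q (2 * n + 1)
    rw [mem_box_iff] at hv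
    have hr : InRange (H.Q (2 * n + 1)) (v + ((n : ℤ), (n : ℤ))) := by
      simp only [InRange, Prod.fst_add, Prod.snd_add]
      omega
    rwa [hr.vdiv_eq]
  exact ⟨x⟩

include hs in
theorem free (x : H.sft.X) (v : V) (h : H.sft.act v x = x) : v = 0 := by
  set l := v.1.natAbs + v.2.natAbs with hl
  have hq := H.le_Q l
  have hp := (up_act hs l v x).1
  rw [h] at hp
  have h1 := congrArg Prod.fst hp
  have h2 := congrArg Prod.snd hp
  simp only [vmod, Prod.fst_add, Prod.snd_add] at h1 h2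
  have d : ∀ a b : ℤ, b = (a + b) % (H.Q l : ℤ) → a.natAbs < H.Q l → a = 0 := by
    intro a b hab ha
    have := Int.emod_add_mul_ediv (a + b) (H.Q l)
    rw [← hab] at this
    have hd : (H.Q l : ℤ) ∣ a := ⟨(a + b) / (H.Q l : ℤ), by linarith⟩
    exact Int.eq_zero_of_dvd_of_natAbs_lt_natAbs hd (by simpa using ha)
  exact Prod.ext (d _ _ h1 (by omega)) (d _ _ h2 (by omega))

include hs in
theorem minimalFree (hp : H.Primitive) : H.sft.MinimalFree where
  nonempty := nonempty hs
  free := free hs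
  minimal x y r := by
    set k := 2 * r with hk
    have hQk := H.le_Q k
    set py := posV hs k y with hpy
    set b := vdiv (py + (-(r : ℤ), -(r : ℤ))) (H.Q k) with hb
    obtain ⟨d, hd⟩ := hp k (fun w => up hs k y (b + w)) (fun w => by
      have := (up_spec hs k y).1 (b + w)
      convert this using 1
      funext q
      simp only [win]
      congr 1
      ext <;> simp <;> ring)
    obtain ⟨v, hv⟩ := hd (up hs (k + d) x 0)
    refine ⟨(H.Q k : ℤ) • (v - b) + py - posV hs (k + d) x, fun u hu => ?_⟩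
    rw [mem_box_iff] at hu
    rw [Amen.act_apply, apply_eq hs (k + d) x, apply_eq hs k y u, ← hpy]
    set q := vdiv (u + py) (H.Q k) - b with hq
    have e : u + ((H.Q k : ℤ) • (v - b) + py - posV hs (k + d) x) + posV hs (k + d) x =
        u + py + (H.Q k : ℤ) • (v - b) := by abel
    rw [e]
    have hqk := Q_pos' (H := H) k
    have key : ∀ a c : ℤ, c.natAbs ≤ r → 0 ≤ (c + a) / (H.Q k : ℤ) - (a + -(r : ℤ)) / (H.Q k : ℤ) ∧
        (c + a) / (H.Q k : ℤ) - (a + -(r : ℤ)) / (H.Q k : ℤ) ≤ 1 := by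
      intro a c hc
      have m1 : (a + -(r : ℤ)) / (H.Q k : ℤ) ≤ (c + a) / (H.Q k : ℤ) :=
        Int.ediv_le_ediv hqk (by omega)
      have m2 : (c + a) / (H.Q k : ℤ) ≤ (a + -(r : ℤ) + (H.Q k : ℤ) * 1) / (H.Q k : ℤ) :=
        Int.ediv_le_ediv hqk (by omega)
      rw [Int.add_mul_ediv_left _ _ hqk.ne'] at m2
      omega
    obtain ⟨k1, k2⟩ := key py.1 u.1 hu.1
    obtain ⟨k3, k4⟩ := key py.2 u.2 hu.2
    obtain ⟨hin, hval⟩ := hv q k1 k2 k3 k4
    have hdiv : vdiv (u + py + (H.Q k : ℤ) • (v - b)) (H.Q k) = v + q := by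
      rw [vdiv_add_smul hqk, hq]; abel
    have hbig : ((H.Q (k + d) : ℕ) : ℤ) = H.Q k * (H.above k).Q d := by
      rw [H.Q_above k d]; push_cast; ring
    have hz : vdiv (u + py + (H.Q k : ℤ) • (v - b)) (H.Q (k + d)) = 0 := by
      rw [hbig, ← vdiv_vdiv hqk.le, hdiv, hin.vdiv_eq]
    rw [hz, H.deep_vmod, H.deep_above, hdiv, vmod_add_smul', hval]
    show H.deep k (up hs k y (b + q)) _ = _
    rw [hq, add_sub_cancel]

end Hier

end Vale.Agent.P196.Tile
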