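import Vale.Agent.P196.Tile.Instance
import Vale.Agent.P196.Tile.Count.Band
import Vale.Agent.P196.Tile.Tower

/-!
P196, module D: the tilings of all levels of a point and the counts.

The parent of the lower left tile of a window is the upper right tile of the parent window, so the
positions of the tiles differ from those of the states by constants.
-/

noncomputable section

namespace Vale.Agent.P196.Tile

open Hier

/-- The last row and the last column of a parent show no bits of the parents below or on the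
left. -/
theorem child_cut {L : ℕ} (hL : L₀ ≤ L) (τ : ℕ → Bool) (b b' : ℕ → Quad) (X Y : ℕ)
    (h : ∀ j : Fin 4, (X + 1 = side L → j = 0 ∨ j = 2) → (Y + 1 = side L → j = 0 ∨ j = 1) →
      ∀ k, b k j = b' k j) :
    child L τ b X Y = child L τ b' X Y := by
  obtain ⟨hM, hS, hH, -⟩ := M_sizes hL
  have hedge : ∀ z, z + 1 = side L → z % Tile.H L + 1 = Tile.H L ∧ Tile.H L ≤ z := by
    intro z hz
    simp only [side] at hz
    refine ⟨?_, by omega⟩
    rw [Nat.mod_eq_sub_mod (by omega), Nat.mod_eq_of_lt (by omega)]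
    omega
  by_cases hX : X + 1 = side L
  · obtain ⟨hx, hqx⟩ := hedge X hX
    have hx7 : 8 * M L ≤ X % Tile.H L := by omega
    have hcut : cutX L < X % Tile.H L := by simp only [cutX]; omega
    have c1 : ¬ IsBundle L (X % Tile.H L) := fun e => not_col hx7 (m := 1) (by norm_num) e.1
    have c3 := not_col hx7 (m := 3) (by norm_num)
    have z4 : ¬ IsZone L (X % Tile.H L) 4 := fun e => not_col hx7 (m := 4) (by norm_num) e.1
    have z6 : ¬ IsZone L (X % Tile.H L) 6 := fun e => not_col hx7 (m := 6) (by norm_num) e.1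
    have hyw : Y + 1 = side L → ¬ IsWire L (Y % Tile.H L) := by
      intro hY hw
      obtain ⟨hy, -⟩ := hedge Y hY
      have h0 : (Y % Tile.H L) % M L = 0 := hw.1
      obtain ⟨t, ht⟩ := Nat.dvd_of_mod_eq_zero h0
      have h3 : M L * (M L ^ 2 - t) = 1 := by rw [Nat.mul_sub, ← H_eq, ← ht]; omega
      have h4 := Nat.eq_one_of_mul_eq_one_right h3
      omega
    unfold child
    simp only [c1, c3, z4, z6, false_and, false_or, if_false, St.mk.injEq, Fin'.mk.injEq, and_self,
      and_true, true_and]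
    funext j
    split_ifs with hj
    · refine h j (fun _ => hj.2.2.2 (decide_eq_true hqx) hcut) (fun hY => absurd hj.1 (hyw hY)) _
    · rfl
  · by_cases hY : Y + 1 = side L
    · obtain ⟨hy, hqy⟩ := hedge Y hY
      have hhi : M L / 16 ≤ hi L (Y % Tile.H L) := by
        have e : (M L / 16) * M L ^ 2 ≤ Tile.H L / 2 := by
          rw [H_eq, Nat.le_div_iff_mul_le two_pos, mul_right_comm]
          exact Nat.mul_le_mul_right _ (by omega)
        rw [hi, Nat.le_div_iff_mul_le (by positivity)]
        omega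
      obtain ⟨hh, hr, hrb, h0, hMy⟩ := high_facts hL hhi
      have hxl : xlRow (B - 1) ≤ lastK L := by
        have : 50000 ≤ L := le_L₀.trans hL
        simp only [xlRow, lastK, B, A]
        omega
      have hA : A ≤ lastK L := by simp only [lastK]; omega
      have n1 : ¬ hi L (Y % Tile.H L) ≤ lastK L := by omega
      have n2 : ¬ rowIdx L (Y % Tile.H L) ≤ lastK L := by omega
      have n3 : ¬ rowsBelow L (Y % Tile.H L) ≤ A - 1 := by omega
      have n4 : ¬ rowsBelow L (Y % Tile.H L) ≤ xlRow (B - 1) := by omega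
      have hhalf : halfY L < Y % Tile.H L := by
        have e : M L / 2 * M L ^ 2 * 2 ≤ Tile.H L := by
          rw [H_eq, mul_right_comm]
          exact Nat.mul_le_mul_right _ (by omega)
        simp only [halfY]
        omega
      unfold child
      simp only [n1, n2, n3, n4, false_and, and_false, if_false, St.mk.injEq, Fin'.mk.injEq,
        and_self, and_true, true_and]
      funext j
      split_ifs with hj
      · exact h j (fun e => absurd e hX) (fun _ => hj.2.2.2 (decide_eq_true hqy) hhalf) _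
      · rfl
    · have e : b = b' := funext fun k => funext fun j =>
        h j (fun a => absurd a hX) (fun a => absurd a hY) k
      rw [e]

/-- The children next to a parent are determined by the parents next to it. -/
theorem expandTile_local {L : ℕ} (hL : L₀ ≤ L) (g g' : V → St)
    (h : ∀ Q : V, -1 ≤ Q.1 → Q.1 ≤ 1 → -1 ≤ Q.2 → Q.2 ≤ 1 → g Q = g' Q) (v : V)
    (h1 : -1 ≤ v.1) (h2 : v.1 ≤ side L) (h3 : -1 ≤ v.2) (h4 : v.2 ≤ side L) :
    expandTile L g v = expandTile L g' v := by
  have hs : (0 : ℤ) < side L := by exact_mod_cast side_pos' L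
  have hs2 : 2 ≤ side L := by have := side_pos' L; simp only [side] at this ⊢; omega
  have axis : ∀ z : ℤ, -1 ≤ z → z ≤ side L →
      -1 ≤ z / (side L : ℤ) ∧ z / (side L : ℤ) ≤ 1 ∧
        (z / (side L : ℤ) = -1 → (z % (side L : ℤ)).toNat + 1 = side L) := by
    intro z a b
    have e := Int.emod_add_mul_ediv z (side L)
    have m1 := Int.emod_nonneg z hs.ne'
    have m2 := Int.emod_lt_of_pos z hs
    have u1 : -1 ≤ z / (side L : ℤ) := by rw [Int.le_ediv_iff_mul_le hs]; omega
    have u2 : z / (side L : ℤ) < 2 := by rw [Int.ediv_lt_iff_lt_mul hs]; omega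
    refine ⟨u1, by omega, fun hz => ?_⟩
    rw [hz] at e
    omega
  obtain ⟨a1, a2, a3⟩ := axis v.1 h1 h2
  obtain ⟨b1, b2, b3⟩ := axis v.2 h3 h4
  refine child_cut hL table _ _ _ _ fun j hx hy k => ?_
  simp only [quadBits, quadAt]
  rw [h]
  all_goals
    simp only [Prod.fst_sub, Prod.snd_sub, dir]
    fin_cases j <;> simp at hx hy ⊢ <;> omega

/-- The lower left tile of each state. -/
def lower {l : ℕ} (y : V → State l) (t : V) : St := (y t).1 3

theorem lower_upper {l : ℕ} {y : V → State l} (hy : hier.Valid l y) (t : V) :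
    lower y t = upper y (t - (1, 1)) := by
  rw [lower, (valid_upper hy).1 t]
  simp [quadAt, dir, upper]

theorem lower_expand {l : ℕ} {y : V → State (l + 1)} (hy : hier.Valid (l + 1) y) (o t : V) :
    lower (hier.expand l y o) t = expandTile (L₀ + l) (upper y) (t + o) := by
  rw [lower, expand_tile l y (upper y) o t ((valid_upper hy).1 _)]
  simp only [quadAt]
  congr 1
  simp [dir]

/-- The sum of the sides of the tiles below. -/
def corner : ℕ → ℕ
  | 0 => 0
  | n + 1 => corner n + hier.Q (n + 1)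

theorem corner_mod (n : ℕ) : (corner (n + 1) : ZMod (hier.Q n)) = (corner n : ZMod (hier.Q n)) := by
  rw [corner, Nat.cast_add, show hier.Q (n + 1) = hier.N n * hier.Q n from rfl, Nat.cast_mul,
    ZMod.natCast_self, mul_zero, add_zero]

variable (hs : hier.SelfSimilar)

/-- The shifted position before reduction. -/
def rawPos (n : ℕ) (x : hier.sft.X) : V :=
  posV hs n x + ((corner n : ℤ), (corner n : ℤ))

/-- The positions of the tiles. -/
def tileOdometer : hier.sft.Odometer where
  Q := hier.Q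
  Q_pos := hier.Q_pos
  Q_dvd l := Dvd.intro_left (hier.N l) rfl
  Q_strict := strictMono_nat_of_lt_succ hier.Q_lt
  pos l x := (((rawPos hs l x).1 : ZMod (hier.Q l)), ((rawPos hs l x).2 : ZMod (hier.Q l)))
  pos_local l := Amen.isLocal_comp (isLocal_lev hs l) fun r =>
    (((r.1.1 + (corner l : ℤ) : ℤ) : ZMod (hier.Q l)),
      ((r.1.2 + (corner l : ℤ) : ℤ) : ZMod (hier.Q l)))
  pos_act l v x := by
    rw [rawPos, (up_act hs l v x).1]
    simp only [rawPos, vmod, Prod.mk_add_mk, Int.cast_add, Int.cast_natCast, Prod.fst_add,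
      Prod.snd_add, ZMod.intCast_mod]
    refine Prod.ext ?_ ?_ <;> simp only <;> ring
  pos_compat l x := by
    simp only [rawPos, (posV_succ hs l x).1, vmod, Prod.fst_add, Prod.snd_add, map_intCast,
      Int.cast_add, Int.cast_natCast, ZMod.intCast_mod, map_add, map_natCast, corner_mod]

theorem org_eq (n : ℕ) (x : hier.sft.X) :
    ((org₁ (tileOdometer hs) n x : ℤ), (org₂ (tileOdometer hs) n x : ℤ)) =
      vmod (rawPos hs n x) (hier.Q n) := by
  have hQ : NeZero (hier.Q n) := ⟨(hier.Q_pos n).ne'⟩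
  have : NeZero ((tileOdometer hs).Q n) := hQ
  exact Prod.ext (ZMod.val_intCast _) (ZMod.val_intCast _)

/-- The tiles of level `n` around the tile of the origin. -/
def tileAt (n : ℕ) (x : hier.sft.X) (t : V) : St :=
  lower (up hs n x) (t + vdiv (rawPos hs n x) (hier.Q n))

theorem tileAt_succ (n : ℕ) (x : hier.sft.X) (t : V) :
    tileAt hs n x t =
      expandTile (L₀ + n) (tileAt hs (n + 1) x) (inParent (tileOdometer hs) n x t) := by
  have hq := Q_pos' (H := hier) n
  have hn := N_pos' (H := hier) n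
  obtain ⟨hp, hup⟩ := posV_succ hs n x
  have hy := (up_spec hs (n + 1) x).1
  set o := vdiv (posV hs (n + 1) x) (hier.Q n) with ho
  set W : V := posV hs (n + 1) x + ((corner n : ℤ), (corner n : ℤ)) with hW
  have hraw : rawPos hs (n + 1) x = W + (hier.Q (n + 1) : ℤ) • (1, 1) := by
    rw [rawPos, hW, corner, add_assoc]
    push_cast
    congr 1
    ext <;> simp
  have hz : vdiv W (hier.Q n) = vdiv (rawPos hs n x) (hier.Q n) + o := by
    rw [rawPos, hp, ← vdiv_add_smul hq, hW]
    congr 1
    conv_lhs => rw [← vmod_add_smul (posV hs (n + 1) x) (hier.Q n)]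
    rw [← ho]
    abel
  set z := vdiv W (hier.Q n) with hz'
  have hk : vdiv (rawPos hs (n + 1) x) (hier.Q (n + 1)) = vdiv z (hier.N n) + (1, 1) := by
    rw [hraw, vdiv_add_smul (Q_pos' (n + 1)), hz', vdiv_vdiv hq.le, ← Q_succ']
  have hip : inParent (tileOdometer hs) n x t = vmod z (hier.N n) + t := by
    have e := org_eq hs (n + 1) x
    rw [hraw, vmod_add_smul', Q_succ'] at e
    have e1 := congrArg Prod.fst e
    have e2 := congrArg Prod.snd e
    dsimp only at e1 e2
    refine Prod.ext ?_ ?_ <;>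
      simp only [inParent, Int.natCast_ediv, e1, e2, Prod.fst_add, Prod.snd_add, hz', vdiv, vmod,
        show ((tileOdometer hs).Q n : ℕ) = hier.Q n from rfl, mod_mul_div _ hq hn]
  have hshift : (fun Q => upper (up hs (n + 1) x) (Q + vdiv z (hier.N n))) =
      tileAt hs (n + 1) x := funext fun Q => by
    rw [tileAt, hk, lower_upper hy]
    congr 1
    abel
  rw [tileAt, hup, lower_expand hy, hip, ← hshift, ← expandTile_add]
  congr 1
  rw [add_assoc, ← hz]
  conv_lhs => rw [← vmod_add_smul z (hier.N n)]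
  abel

/-- A finite patch of tiles as a tiling. -/
def padded (n : ℕ) (f : Fin 3 × Fin 3 → St) (Q : V) : St :=
  if h : -1 ≤ Q.1 ∧ Q.1 ≤ 1 ∧ -1 ≤ Q.2 ∧ Q.2 ≤ 1 then
    f (⟨(Q.1 + 1).toNat, by omega⟩, ⟨(Q.2 + 1).toNat, by omega⟩)
  else child (L₀ + n) table (fun _ _ => false) 0 0

/-- The cell at a position of a tile from the tiles around it. -/
def decode : ∀ _ : ℕ, (Fin 3 × Fin 3 → St) → ℕ → ℕ → State 0
  | 0, f, _, _ => toState 0 fun j =>
      f (if j = 1 ∨ j = 3 then 1 else 2, if j = 2 ∨ j = 3 then 1 else 2)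
  | n + 1, f, a, b => decode n
      (fun d => expandTile (L₀ + n) (padded n f)
        (((a / hier.Q n : ℕ) : ℤ) + ((d.1 : ℕ) : ℤ) - 1,
          ((b / hier.Q n : ℕ) : ℤ) + ((d.2 : ℕ) : ℤ) - 1))
      (a % hier.Q n) (b % hier.Q n)

theorem decode_spec : ∀ (n : ℕ) (x : hier.sft.X) (u : V), x.1 u = decode n
    (fun d => tileAt hs n x ((tileOf (tileOdometer hs) n x u).1 + ((d.1 : ℕ) : ℤ) - 1,
      (tileOf (tileOdometer hs) n x u).2 + ((d.2 : ℕ) : ℤ) - 1))
    (((org₁ (tileOdometer hs) n x : ℤ) + u.1) % hier.Q n).toNat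
    (((org₂ (tileOdometer hs) n x : ℤ) + u.2) % hier.Q n).toNat
  | 0, x, u => by
    obtain ⟨h1, h2, h3, h4⟩ := (up_spec hs 0 x).2.1
    have hQ0 : hier.Q 0 = 1 := rfl
    have hp : posV hs 0 x = 0 := by
      rw [hQ0] at h2 h4
      refine Prod.ext ?_ ?_ <;> simp <;> omega
    have ht : tileOf (tileOdometer hs) 0 x u = u := by
      have e := org_eq hs 0 x
      simp only [rawPos, hp, hQ0, vmod, Nat.cast_one, Int.emod_one, Prod.mk.injEq] at e
      simp only [tileOf, show ((tileOdometer hs).Q 0 : ℕ) = 1 from rfl, Nat.cast_one,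
        Int.ediv_one, e.1, e.2, zero_add]
    have hk : vdiv (rawPos hs 0 x) (hier.Q 0) = 0 := by
      simp [rawPos, hp, hQ0, vdiv, corner]
    have hv := (up_spec hs 0 x).1
    have hxu : x.1 u = up hs 0 x u := by
      rw [apply_eq hs 0 x u, hp]
      simp [Hier.deep, vdiv, hQ0]
    show _ = toState 0 _
    have hq := (valid_upper hv).1 u
    have e : (fun j : Fin 4 => tileAt hs 0 x
        ((tileOf (tileOdometer hs) 0 x u).1 +
            ((((if j = 1 ∨ j = 3 then 1 else 2) : Fin 3) : ℕ) : ℤ) - 1,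
          (tileOf (tileOdometer hs) 0 x u).2 +
            ((((if j = 2 ∨ j = 3 then 1 else 2) : Fin 3) : ℕ) : ℤ) - 1)) =
        (x.1 u).1 := by
      rw [hxu, hq, ht]
      funext j
      rw [tileAt, hk, add_zero, lower_upper hv]
      simp only [quadAt]
      congr 1
      fin_cases j <;> ext <;> simp [dir] <;> omega
    simp only []
    rw [e, toState, dif_pos (x.1 u).2]
  | n + 1, x, u => by
    set O := tileOdometer hs
    have hq : (0 : ℤ) < hier.Q n := Q_pos' n
    have hn : (0 : ℤ) < hier.N n := N_pos' n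
    have hQQ : ((hier.Q (n + 1) : ℕ) : ℤ) = hier.Q n * hier.N n := Q_succ' n
    have hO : ∀ m, (O.Q m : ℕ) = hier.Q m := fun _ => rfl
    rw [decode_spec n x u]
    show _ = decode n _ _ _
    set w₁ := (org₁ O (n + 1) x : ℤ) + u.1 with hw₁
    set w₂ := (org₂ O (n + 1) x : ℤ) + u.2 with hw₂
    have o1 : (org₁ O n x : ℤ) = (org₁ O (n + 1) x : ℤ) % (hier.Q n : ℤ) := by
      rw [← org₁_succ (O := O) n x, hO]
      push_cast
      rfl
    have o2 : (org₂ O n x : ℤ) = (org₂ O (n + 1) x : ℤ) % (hier.Q n : ℤ) := by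
      rw [← org₂_succ (O := O) n x, hO]
      push_cast
      rfl
    have m0 : ∀ w : ℤ, 0 ≤ w % (hier.Q (n + 1) : ℤ) := fun w =>
      Int.emod_nonneg _ (Q_pos' (H := hier) (n + 1)).ne'
    have r1 : ∀ w : ℤ, (((w % (hier.Q (n + 1) : ℤ)).toNat % hier.Q n : ℕ)) =
        (w % (hier.Q n : ℤ)).toNat := fun w => by
      zify
      rw [Int.toNat_of_nonneg (m0 w), Int.toNat_of_nonneg (Int.emod_nonneg _ hq.ne'), hQQ,
        Int.emod_emod_of_dvd _ (dvd_mul_right _ _)]
    have r2 : ∀ w : ℤ, (((w % (hier.Q (n + 1) : ℤ)).toNat / hier.Q n : ℕ) : ℤ) =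
        w / (hier.Q n : ℤ) % (hier.N n : ℤ) := fun w => by
      push_cast
      rw [Int.toNat_of_nonneg (m0 w), hQQ, mod_mul_div _ hq hn]
    rw [r1 w₁, r1 w₂, o1, o2, Int.emod_add_emod, Int.emod_add_emod]
    refine congrArg (fun f => decode n f _ _) (funext fun d => ?_)
    rw [tileAt_succ, r2 w₁, r2 w₂]
    -- the tile of the parent level
    set T := tileOf O (n + 1) x u with hT
    have hT1 : w₁ / (hier.Q n : ℤ) / (hier.N n : ℤ) = T.1 := by
      rw [Int.ediv_ediv_of_nonneg hq.le, ← hQQ]
      rfl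
    have hT2 : w₂ / (hier.Q n : ℤ) / (hier.N n : ℤ) = T.2 := by
      rw [Int.ediv_ediv_of_nonneg hq.le, ← hQQ]
      rfl
    have hin : inParent O n x ((tileOf O n x u).1 + ((d.1 : ℕ) : ℤ) - 1,
        (tileOf O n x u).2 + ((d.2 : ℕ) : ℤ) - 1) =
        (w₁ / (hier.Q n : ℤ) % (hier.N n : ℤ) + ((d.1 : ℕ) : ℤ) - 1,
          w₂ / (hier.Q n : ℤ) % (hier.N n : ℤ) + ((d.2 : ℕ) : ℤ) - 1) +
        (side (L₀ + n) : ℤ) • T := by
      have split : ∀ (a : ℕ) (v : ℤ), ((a : ℤ) + v) / (hier.Q n : ℤ) =
          ((a / hier.Q n : ℕ) : ℤ) + ((a : ℤ) % (hier.Q n : ℤ) + v) / (hier.Q n : ℤ) := by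
        intro a v
        push_cast
        rw [← Int.add_mul_ediv_left _ _ hq.ne' |>.trans (add_comm _ _)]
        congr 1
        have := Int.emod_add_mul_ediv (a : ℤ) (hier.Q n)
        linarith
      have q1 := Int.emod_add_mul_ediv (w₁ / (hier.Q n : ℤ)) (hier.N n : ℤ)
      have q2 := Int.emod_add_mul_ediv (w₂ / (hier.Q n : ℤ)) (hier.N n : ℤ)
      rw [hT1] at q1
      rw [hT2] at q2
      have s1 := split (org₁ O (n + 1) x) u.1
      have s2 := split (org₂ O (n + 1) x) u.2
      rw [← hw₁] at s1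
      rw [← hw₂] at s2
      refine Prod.ext ?_ ?_
      · simp only [inParent, tileOf, hO, o1, Prod.fst_add, Prod.smul_fst, smul_eq_mul]
        linarith
      · simp only [inParent, tileOf, hO, o2, Prod.snd_add, Prod.smul_snd, smul_eq_mul]
        linarith
    rw [hin, expandTile_add]
    have n1 := Int.emod_nonneg (w₁ / (hier.Q n : ℤ)) hn.ne'
    have n2 := Int.emod_lt_of_pos (w₁ / (hier.Q n : ℤ)) hn
    have n3 := Int.emod_nonneg (w₂ / (hier.Q n : ℤ)) hn.ne'
    have n4 := Int.emod_lt_of_pos (w₂ / (hier.Q n : ℤ)) hn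
    have d1 := d.1.2
    have d2 := d.2.2
    refine expandTile_local (Nat.le_add_right _ _) _ _ (fun Q a1 a2 a3 a4 => ?_) _ ?_ ?_ ?_ ?_
    · rw [padded, dif_pos ⟨a1, a2, a3, a4⟩]
      congr 1
      refine Prod.ext ?_ ?_ <;> simp <;> omega
    all_goals simp only [show hier.N n = side (L₀ + n) from rfl] at n1 n2 n3 n4 ⊢
    all_goals omega

/-- The tilings of the points form a hierarchy to count in. -/
def counting : Counting hier.sft (tileOdometer hs) where
  tile := tileAt hs
  dec := decode
  Q_succ _ := Nat.mul_comm _ _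
  cell := decode_spec hs
  tile_eq n x t := by
    rw [tileAt_succ]
    rfl

include hs in
/-- The counted strips have few patterns. -/
theorem strips : hier.sft.StripCount (tileOdometer hs) (basePoint (tileOdometer hs)) :=
  stripCount (counting hs)

include hs in
/-- The bands are periodic away from few rows. -/
theorem bands : hier.sft.BandCount (tileOdometer hs) (basePoint (tileOdometer hs)) :=
  bandCount (counting hs)

end Vale.Agent.P196.Tile
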